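import Crest.Agent.HH.Wot

/-! Approximate traces on finite von Neumann algebras. -/

set_option autoImplicit false
open scoped ComplexConjugate InnerProductSpace BigOperators
open Filter Topology

namespace Crest.Agent.HH
open Crest.Agent.GEN hiding sub_self

universe u

namespace AppT

section alg
variable {A : Type u} [CStarAlgebra A]

lemma pstar {v : A} (h : PI v) : PI (star v) := by
  simpa [PI, mul_assoc] using congrArg star h

lemma proj {v : A} (h : PI v) : IsStarProjection (star v * v) :=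
  ⟨by rw [IsIdempotentElem, mul_assoc, ← mul_assoc v, h], .star_mul_self v⟩

lemma of_proj {v : A} (h : IsStarProjection (star v * v)) : PI v := by
  have : star (v * star v * v - v) * (v * star v * v - v) = 0 := by
    have e : ∀ x, star v * (v * (star v * (v * x))) = star v * (v * x) := fun x => by
      simpa [mul_assoc] using congrArg (· * x) h.isIdempotentElem.eq
    have e' := e 1
    simp only [mul_one] at e'
    simp [mul_sub, sub_mul, mul_assoc, e']
  exact sub_eq_zero.1 ((CStarRing.star_mul_self_eq_zero_iff _).1 this)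

lemma pi_proj {e : A} (h : IsStarProjection e) : PI e := by
  rw [PI, h.isSelfAdjoint.star_eq, h.isIdempotentElem.eq, h.isIdempotentElem.eq]

/-- Finiteness: equality of sources forces equality of ranges. -/
lemma fin_eq {c a v z : A} (hc : CP c) (hf : FinP c) (ha : PI a) (hca : c * a = a) (hz : CP z)
    (h1 : a * star a * v = v) (h2 : v * (star a * a) = v)
    (h : z * (star a * a - star v * v) = 0) : z * (a * star a - v * star v) = 0 := by
  have z1 := hz.1.isSelfAdjoint.star_eq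
  have z2 : ∀ x, z * (z * x) = z * x := fun x => by rw [← mul_assoc, hz.1.isIdempotentElem.eq]
  have z3 : ∀ x y, x * (z * y) = z * (x * y) := fun x y => by rw [← mul_assoc, ← hz.2, mul_assoc]
  have z4 : ∀ x, x * z = z * x := fun x => (hz.2 x).symm
  have a1 : ∀ x, a * (star a * (a * x)) = a * x := fun x => by
    simpa [mul_assoc] using congrArg (· * x) ha
  have a2 : ∀ x, star a * (a * (star a * x)) = star a * x := fun x => by
    simpa [mul_assoc] using congrArg (· * x) (pstar ha)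
  have a3 : a * (star a * v) = v := by rw [← mul_assoc, h1]
  have a4 : star v * (a * star a) = star v := by simpa [mul_assoc] using congrArg star h1
  rw [mul_sub, sub_eq_zero] at h ⊢
  have e1 : star (z * (star a * v)) * (z * (star a * v)) = z * (star a * a) := by
    rw [h]; simp only [star_mul, star_star, z1, mul_assoc, z2, z3 a, z3 (star v), a3]
  have e2 : star (z * (star a * v)) * (z * (star a * v)) * (z * (star a * v)) =
      z * (star a * v) := by rw [e1]; simp only [mul_assoc, z3 a, z3 (star a), z2, a2]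
  have e3 := hf (z * (star a * v)) (by
    rw [PI, mul_assoc, e1]; simp only [mul_assoc, z3 v, z3 (star a), z2, h2]) (by
    rw [z3, ← mul_assoc c, hc.2, ← hc.1.isSelfAdjoint.star_eq, ← star_mul, hca]) e2
  rw [e1] at e3
  have e4 := congrArg (fun x => a * x * star a) e3
  simp only [star_mul, star_star, z1, mul_assoc, z4 a, z3 a, z3 (star a), z3 v, z3 (star v), z2,
    a4, a1] at e4
  rw [← e4, ← mul_assoc (star a), ← mul_assoc a, a3]

end alg

variable {H : Type u} [NormedAddCommGroup H] [InnerProductSpace ℂ H] [CompleteSpace H]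
variable {M : VonNeumannAlgebra H}

lemma nsq (x : Al M) (ξ : H) : ‖ap x ξ‖ ^ 2 = (⟪ξ, ap (star x * x) ξ⟫_ℂ).re := by
  rw [ap_mul, ← inner_ap_left, ← @inner_self_eq_norm_sq ℂ]; rfl

lemma nsq_add {x y : Al M} (h : star x * y = 0) (ξ : H) :
    ‖ap (x + y) ξ‖ ^ 2 = ‖ap x ξ‖ ^ 2 + ‖ap y ξ‖ ^ 2 := by
  rw [ap_add, @norm_add_sq ℂ, inner_ap_left, ← ap_mul, h]; simp

lemma key (hM : MaxPI.{u}) (hC : Cmp.{u}) {c a : Al M} (hc : CP c) (hf : FinP c) (ha : PI a)
    (hca : c * a = a) (ξ : H) (s t : ℝ) (h : t * ‖ap (star a) ξ‖ ^ 2 < s * ‖ap a ξ‖ ^ 2) :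
    ∃ v : Al M, PI v ∧ v ≠ 0 ∧ a * star a * v = v ∧ v * (star a * a) = v ∧ ∀ w : Al M, PI w →
      w ≠ 0 → v * star v * w = w → w * (star v * v) = w →
      t * ‖ap (star w) ξ‖ ^ 2 < s * ‖ap w ξ‖ ^ 2 := by
  obtain ⟨v, ⟨h0, h1, h2, h3⟩, hv⟩ := hM H M 1 {w | PI (w 0) ∧ a * star a * w 0 = w 0 ∧
    w 0 * (star a * a) = w 0 ∧ s * ‖ap (w 0) ξ‖ ^ 2 ≤ t * ‖ap (star (w 0)) ξ‖ ^ 2}
    (fun w hw i => Subsingleton.elim 0 i ▸ hw.1) ⟨0, by simp [PI]⟩ fun 𝓕 _ h𝓕 v hv => by
      obtain ⟨k1, k2, k3⟩ := hv 0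
      exact ⟨k1, (k2.wl.mul_left _).eq_of_eventually k2.wl (mem_of_superset h𝓕 fun w hw => hw.2.1),
        (k2.wl.mul_right _).eq_of_eventually k2.wl (mem_of_superset h𝓕 fun w hw => hw.2.2.1),
        le_of_tendsto_of_tendsto (((k2 ξ).norm.pow 2).const_mul s)
          (((k3 ξ).norm.pow 2).const_mul t) (mem_of_superset h𝓕 fun w hw => hw.2.2.2)⟩
  set v₀ := v 0 with hv₀
  have h1' : star v₀ * (a * star a) = star v₀ := by simpa [mul_assoc] using congrArg star h1
  have h2' : star a * a * star v₀ = star v₀ := by simpa [mul_assoc] using congrArg star h2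
  have h0' : star v₀ * v₀ * star v₀ = star v₀ := by simpa [PI] using pstar h0
  have hE : IsStarProjection (star a * a - star v₀ * v₀) :=
    (proj h0).sub_of_mul_eq_right (proj ha) (by rw [← mul_assoc, h2'])
  have hF : IsStarProjection (a * star a - v₀ * star v₀) := by
    simpa using (proj (pstar h0)).sub_of_mul_eq_right (proj (pstar ha))
      (by rw [star_star, star_star, ← mul_assoc, h1])
  have main : ∀ v' : Al M, PI v' → v' ≠ 0 → (a * star a - v₀ * star v₀) * v' = v' →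
      v' * (star a * a - star v₀ * v₀) = v' → ∃ v : Al M, PI v ∧ v ≠ 0 ∧ a * star a * v = v ∧
      v * (star a * a) = v ∧ ∀ w : Al M, PI w → w ≠ 0 → v * star v * w = w →
      w * (star v * v) = w → t * ‖ap (star w) ξ‖ ^ 2 < s * ‖ap w ξ‖ ^ 2 := fun v' p1 p2 p3 p4 => by
    have q1 : a * star a * v' = v' := by
      rw [← p3, ← mul_assoc, mul_sub, ← mul_assoc, ← mul_assoc, ha, h1]
    have q2 : v' * (star a * a) = v' := by
      rw [← p4, mul_assoc, sub_mul, (proj ha).isIdempotentElem.eq, mul_assoc, h2]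
    have q3 : star v₀ * v' = 0 := by
      rw [← p3, ← mul_assoc, mul_sub, h1', ← mul_assoc, h0', sub_self, zero_mul]
    have q4 : v' * star v₀ = 0 := by
      rw [← p4, mul_assoc, sub_mul, h2', h0', sub_self, mul_zero]
    refine ⟨v', p1, p2, q1, q2, fun w w1 w2 w3 w4 => lt_of_not_ge fun hw => w2 ?_⟩
    have r1 : star v₀ * w = 0 := by rw [← w3, ← mul_assoc, ← mul_assoc, q3, zero_mul, zero_mul]
    have r2 : w * star v₀ = 0 := by rw [← w4, mul_assoc, mul_assoc, q4, mul_zero, mul_zero]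
    have r3 : star w * v₀ = 0 := by simpa using congrArg star r1
    have r4 : v₀ * star w = 0 := by simpa using congrArg star r2
    have := congrFun (hv (fun _ => v₀ + w) ⟨?_, ?_, ?_, ?_⟩ fun i => ?_) 0
    · simpa [← hv₀] using this
    · simp only [PI, star_add, add_mul, mul_add, r2, r4, add_zero, zero_add, mul_assoc,
        r1, r3, mul_zero]
      rw [← mul_assoc, ← mul_assoc, h0, w1]
    · rw [mul_add, h1, ← w3, ← mul_assoc, ← mul_assoc, q1]
    · rw [add_mul, h2, ← w4, mul_assoc, mul_assoc, q2]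
    · rw [star_add, nsq_add r1, nsq_add (by rw [star_star, r4])]; linarith
    · rw [Subsingleton.elim i 0, ← hv₀, add_mul, ← mul_assoc, ← mul_assoc, h0, r2, zero_mul,
        add_zero]
  obtain ⟨z, x, y, z1, x1, x2, y1, y2⟩ := hC H M _ _ hE hF
  have z2 : CP (1 - z) := ⟨z1.1.one_sub, fun x => by rw [sub_mul, mul_sub, z1.2, one_mul, mul_one]⟩
  have px : PI x := of_proj (x1 ▸ z1.1.mul hE (z1.2 _))
  have py : PI y := of_proj (y1 ▸ z2.1.mul hF (z2.2 _))
  by_cases hx : x = 0
  swap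
  · refine main x px hx x2 ?_
    rw [← px, mul_assoc x, x1, mul_assoc, mul_assoc, hE.isIdempotentElem.eq]
  by_cases hy : y = 0
  swap
  · refine main (star y) (pstar py) (star_ne_zero.2 hy) ?_ (by
      simpa [hE.isSelfAdjoint.star_eq, -star_sub] using congrArg star y2)
    rw [← pstar py, star_star, y1, z2.2, mul_assoc, ← mul_assoc, hF.isIdempotentElem.eq]
  rw [hx, mul_zero] at x1
  rw [hy, mul_zero] at y1
  have f1 := fin_eq hc hf ha hca z1 h1 h2 x1.symm
  have f2 := fin_eq (a := star a) (v := star v₀) hc hf (pstar ha) (by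
    rw [hc.2, ← hc.1.isSelfAdjoint.star_eq, ← star_mul, hca]) z2 (by rwa [star_star])
    (by rwa [star_star]) (by simpa using y1.symm)
  rw [sub_mul, one_mul, f1, sub_zero, eq_comm, sub_eq_zero] at y1
  rw [star_star, star_star, sub_mul, one_mul, ← x1, sub_zero, sub_eq_zero] at f2
  rw [nsq, nsq, star_star, ← y1, ← f2] at h3
  rw [nsq, nsq, star_star] at h
  exact absurd h3 h.not_ge

/-- Spectral projections at a positive level lie under any projection supporting `k`. -/
lemma spec (hS : SpecP.{u}) {k q : Al M} (hk : star k = k) (hq : IsStarProjection q)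
    (hqk : q * k = k) {t : ℝ} (ht : 0 < t) : ∃ e : Al M, IsStarProjection e ∧ q * e = e ∧
    k * e = e * k ∧ (∀ ξ : H, ap e ξ = ξ → t * ‖ξ‖ ^ 2 ≤ (⟪ξ, ap k ξ⟫_ℂ).re) ∧
    (∀ ξ : H, ap e ξ = 0 → (⟪ξ, ap k ξ⟫_ℂ).re ≤ t * ‖ξ‖ ^ 2) := by
  obtain ⟨e, h1, h2, h3, h4⟩ := hS H M k t hk
  have hkq : k * q = k := by simpa [hk, hq.isSelfAdjoint.star_eq] using congrArg star hqk
  refine ⟨e, h1, ap_ext fun η => ?_, h2 k rfl, h3, h4⟩
  have := h3 (ap ((1 - q) * e) η) (by
    rw [← ap_mul, sub_mul, one_mul, mul_sub, h2 q (by rw [hqk, hkq]), ← mul_assoc,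
      h1.isIdempotentElem.eq])
  rw [← ap_mul, ← mul_assoc, mul_sub, hkq, mul_one, sub_self, zero_mul, ap_zero, inner_zero_right,
    Complex.zero_re] at this
  have h5 : ap ((1 - q) * e) η = 0 := by
    rw [← norm_eq_zero, ← sq_eq_zero_iff]
    exact le_antisymm (nonpos_of_mul_nonpos_right this ht) (sq_nonneg _)
  rw [sub_mul, one_mul, ap_sub, sub_eq_zero] at h5
  exact h5.symm

lemma split {e : Al M} (he : IsStarProjection e) {y : Al M} (hy : y * e = e * y) (η : H) :
    (⟪η, ap y η⟫_ℂ).re = (⟪ap e η, ap y (ap e η)⟫_ℂ).re +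
      (⟪ap (1 - e) η, ap y (ap (1 - e) η)⟫_ℂ).re := by
  have h : ∀ x, e * (e * x) = e * x := fun x => by rw [← mul_assoc, he.isIdempotentElem.eq]
  rw [inner_ap_left, inner_ap_left, ← Complex.add_re, ← inner_add_right, ← ap_mul, ← ap_mul,
    ← ap_mul, ← ap_mul, ← ap_add, he.isSelfAdjoint.star_eq, he.one_sub.isSelfAdjoint.star_eq]
  simp [mul_sub, sub_mul, mul_assoc, hy, h]

/-- A functional which is positive on projections is positive. -/
lemma pos (hS : SpecP.{u}) {q : Al M} (hq : IsStarProjection q) (a b : H)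
    (h : ∀ e : Al M, IsStarProjection e → q * e = e → ‖ap e a‖ ^ 2 ≤ ‖ap e b‖ ^ 2) (x : Al M)
    (hx : x * q = x) : ‖ap x a‖ ^ 2 ≤ ‖ap x b‖ ^ 2 := by
  have h1 : ∀ (n : ℕ) (k : Al M), star k = k → q * k = k →
      (∀ η, 0 ≤ (⟪η, ap k η⟫_ℂ).re ∧ (⟪η, ap k η⟫_ℂ).re ≤ ‖η‖ ^ 2) →
      (⟪a, ap k a⟫_ℂ).re ≤ (⟪b, ap k b⟫_ℂ).re + ‖a‖ ^ 2 * (1 / 2) ^ n := by
    intro n
    induction n with
    | zero => intro k _ _ hk; linarith [(hk a).2, (hk b).1]
    | succ n ih =>
      intro k k1 k2 k3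
      obtain ⟨e, e1, e2, e3, e4, e5⟩ := spec hS k1 hq k2 one_half_pos
      have e6 := h e e1 e2
      rw [nsq, nsq, e1.isSelfAdjoint.star_eq, e1.isIdempotentElem.eq] at e6
      have := ih (k + k - e) (by simp [k1, e1.isSelfAdjoint.star_eq])
        (by rw [mul_sub, mul_add, k2, e2]) fun η => by
          have f1 : ap e (ap e η) = ap e η := by rw [← ap_mul, e1.isIdempotentElem.eq]
          have f2 : ap e (ap (1 - e) η) = 0 := by rw [← ap_mul, e1.mul_one_sub_self, ap_zero]
          have f3 := split e1 (y := 1) (by simp) η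
          rw [split e1 (y := k + k - e) (by simp [add_mul, mul_add, sub_mul, mul_sub, e3]) η]
          have f4 : ∀ v : H, (⟪v, v⟫_ℂ).re = ‖v‖ ^ 2 := fun v => inner_self_eq_norm_sq (𝕜 := ℂ) v
          generalize ap (1 - e) η = η₂ at *
          generalize ap e η = η₁ at *
          simp only [ap_sub, ap_add, ap_one, f1, f2, inner_sub_right, inner_add_right,
            Complex.add_re, Complex.sub_re, f4, inner_zero_right, Complex.zero_re] at f3 ⊢
          constructor <;> linarith [e4 _ f1, e5 _ f2, k3 η₁, k3 η₂]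
      simp only [ap_sub, ap_add, inner_sub_right, inner_add_right, Complex.add_re,
        Complex.sub_re] at this
      rw [pow_succ _ n]; linarith
  have h2 : ∀ y : Al M, ‖y‖ ≤ 1 → y * q = y → ‖ap y a‖ ^ 2 ≤ ‖ap y b‖ ^ 2 := fun y hy hy' => by
    rw [nsq, nsq]
    refine ge_of_tendsto' (x := atTop) (by
      simpa using ((tendsto_pow_atTop_nhds_zero_of_lt_one (show (0 : ℝ) ≤ 1 / 2 by norm_num)
      (by norm_num)).const_mul (‖a‖ ^ 2)).const_add (⟪b, ap (star y * y) b⟫_ℂ).re) fun n => ?_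
    have := h1 n (star y * y) (by simp) (by
      rw [← mul_assoc, ← hq.isSelfAdjoint.star_eq, ← star_mul, hy']) fun η => by
        rw [← nsq]
        refine ⟨sq_nonneg _, ?_⟩
        gcongr
        exact (ap_le _ _).trans (mul_le_of_le_one_left (norm_nonneg _) hy)
    simpa using this
  have h3 := h2 ((‖x‖ + 1)⁻¹ • x) (by
    rw [norm_smul, Real.norm_of_nonneg (by positivity), inv_mul_le_one₀ (by positivity)]
    linarith) (by rw [smul_mul_assoc, hx])
  rw [ap_rsmul, ap_rsmul, norm_smul, norm_smul, mul_pow, mul_pow] at h3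
  exact le_of_mul_le_mul_left h3 (by
    rw [Real.norm_of_nonneg (by positivity)]; positivity)

lemma faith (hS : SpecP.{u}) {q : Al M} (hq : IsStarProjection q) (ξ : H)
    (h : ∀ e : Al M, IsStarProjection e → q * e = e → ap e ξ = 0 → e = 0) (x : Al M)
    (hx : x * q = x) (h0 : ap x ξ = 0) : x = 0 := by
  refine ap_ext fun η => ?_
  rw [ap_zero, ← norm_eq_zero, ← sq_eq_zero_iff]
  refine le_antisymm (le_of_forall_pos_le_add fun t ht => ?_) (sq_nonneg _)
  obtain ⟨e, e1, e2, e3, e4, e5⟩ := spec hS (k := star x * x) (by simp) hq (by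
    rw [← mul_assoc, ← hq.isSelfAdjoint.star_eq, ← star_mul, hx])
    (show 0 < t / (‖η‖ ^ 2 + 1) by positivity)
  have f1 := e4 (ap e ξ) (by rw [← ap_mul, e1.isIdempotentElem.eq])
  rw [← ap_mul, e3, ap_mul, ap_mul, h0] at f1
  simp only [ap, map_zero, inner_zero_right, Complex.zero_re] at f1
  have f2 : e = 0 := h e e1 e2 (by
    rw [← norm_eq_zero, ← sq_eq_zero_iff]
    exact le_antisymm (nonpos_of_mul_nonpos_right f1 (by positivity)) (sq_nonneg _))
  have f3 := e5 η (by rw [f2, ap_zero])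
  rw [← nsq, div_mul_eq_mul_div, le_div_iff₀ (by positivity)] at f3
  nlinarith [sq_nonneg ‖η‖, sq_nonneg ‖ap x η‖]

lemma corner (hM : MaxPI.{u}) (hC : Cmp.{u}) {c : Al M} (hc : CP c) (hf : FinP c) (h0 : c ≠ 0)
    {δ : ℝ} (hδ : 0 < δ) : ∃ (p : Al M) (ξ : H), IsStarProjection p ∧ p ≠ 0 ∧ c * p = p ∧
      (∀ e : Al M, IsStarProjection e → p * e = e → ap e ξ = 0 → e = 0) ∧
      ∀ w : Al M, PI w → p * w = w → w * p = w →
        ‖ap w ξ‖ ^ 2 ≤ (1 + δ) * ‖ap (star w) ξ‖ ^ 2 := by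
  obtain ⟨ξ, hξ⟩ : ∃ ξ, ap c ξ ≠ 0 := by
    by_contra! h; exact h0 (ap_ext h)
  have st : ∀ f : Al M, IsStarProjection f → c * f = f → ap f ξ ≠ 0 → ∃ v : Al M, PI v ∧ v ≠ 0 ∧
      f * v = v ∧ v * f = v ∧ ∀ w : Al M, PI w → w ≠ 0 → v * star v * w = w →
      w * (star v * v) = w → ‖ap w ξ‖ ^ 2 < 2 * ‖ap (star w) ξ‖ ^ 2 := fun f f1 f2 f3 => by
    obtain ⟨v, v1, v2, v3, v4, v5⟩ := key hM hC hc hf (pi_proj f1) f2 ξ (-1) (-2) (by
      rw [f1.isSelfAdjoint.star_eq]; nlinarith [norm_pos_iff.2 f3])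
    rw [f1.isSelfAdjoint.star_eq, f1.isIdempotentElem.eq] at v3 v4
    exact ⟨v, v1, v2, v3, v4, fun w w1 w2 w3 w4 => by linarith [v5 w w1 w2 w3 w4]⟩
  obtain ⟨v₀, a1, a2, a3, -, a5⟩ := st c hc.1 hc.1.isIdempotentElem.eq hξ
  have b0 : IsStarProjection (v₀ * star v₀) := by simpa using proj (pstar a1)
  have b1 : ∀ e : Al M, IsStarProjection e → v₀ * star v₀ * e = e → ap e ξ = 0 → e = 0 := by
    intro e e1 e2 e3
    have e4 : e * v₀ * star v₀ = e := by
      simpa [e1.isSelfAdjoint.star_eq, mul_assoc] using congrArg star e2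
    by_contra e5
    have := a5 (e * v₀) (by
      rw [PI, star_mul, ← mul_assoc (e * v₀), e4, e1.isSelfAdjoint.star_eq, ← mul_assoc,
        e1.isIdempotentElem.eq, e1.isIdempotentElem.eq])
      (fun h => e5 (by rw [← e4, h, zero_mul])) (by rw [← mul_assoc, e2])
      (by rw [← mul_assoc, e4])
    rw [star_mul, e1.isSelfAdjoint.star_eq, ap_mul (star v₀), e3] at this
    simp only [ap, map_zero, norm_zero] at this
    nlinarith [sq_nonneg ‖(e * v₀ : Al M).1 ξ‖]
  have ne0 : ∀ w : Al M, PI w → w ≠ 0 → w * (v₀ * star v₀) = w → 0 < ‖ap w ξ‖ ^ 2 := by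
    intro w w1 w2 w3
    refine pow_pos (norm_pos_iff.2 fun h => w2 ?_) 2
    have := b1 _ (proj w1) (by simpa [mul_assoc] using congrArg (fun x => star x * w) w3)
      (by rw [ap_mul, h]; exact map_zero _)
    exact (CStarRing.star_mul_self_eq_zero_iff _).1 this
  obtain ⟨v₁, c1, c2, c3, c4, c5⟩ := st _ b0 (by rw [← mul_assoc, a3]) fun h =>
    a2 ((CStarRing.mul_star_self_eq_zero_iff _).1 (b1 _ b0 b0.isIdempotentElem.eq h))
  let L : Set ℝ := {l | ∀ w : Al M, PI w → v₁ * star v₁ * w = w → w * (star v₁ * v₁) = w →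
    ‖ap w ξ‖ ^ 2 ≤ l * ‖ap (star w) ξ‖ ^ 2}
  have l1 : 2 ∈ L := fun w w1 w2 w3 => by
    by_cases w4 : w = 0
    · simp [w4]
    · exact (c5 w w1 w4 w2 w3).le
  have l2 : ∀ l ∈ L, 0 < l := fun l hl => pos_of_mul_pos_left
    ((ne0 _ c1 c2 c4).trans_le (hl v₁ c1 c1 (by rw [← mul_assoc, c1]))) (sq_nonneg _)
  have l3 : BddBelow L := ⟨0, fun l hl => (l2 l hl).le⟩
  have l4 : sInf L ∈ L := IsClosed.csInf_mem (by
    simp only [L, Set.ofPred_forall]
    exact isClosed_iInter fun _ => isClosed_iInter fun _ => isClosed_iInter fun _ =>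
      isClosed_iInter fun _ => isClosed_le (by fun_prop) (by fun_prop)) ⟨2, l1⟩ l3
  have l5 := l2 _ l4
  have l6 : sInf L / (1 + δ) ∉ L := notMem_of_lt_csInf (div_lt_self l5 (by linarith)) l3
  simp only [L, Set.mem_ofPred, not_forall, not_le] at l6
  obtain ⟨a, d1, d2, d3, d4⟩ := l6
  obtain ⟨v, e1, e2, e3, e4, e5⟩ := key hM hC hc hf d1 (by
    rw [← d2, ← c3, ← a3]; simp only [← mul_assoc, hc.1.isIdempotentElem.eq]) ξ 1
    (sInf L / (1 + δ)) (d4.trans_eq (one_mul _).symm)
  have g1 : v₁ * star v₁ * v = v := by rw [← e3, ← mul_assoc, ← mul_assoc, d2]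
  have g2 : v * (star v₁ * v₁) = v := by rw [← e4, mul_assoc, mul_assoc, d3]
  have g3 : v * (v₀ * star v₀) = v := by rw [← g2, mul_assoc, mul_assoc, c4]
  have g4 : v₀ * star v₀ * (star v * v) = star v * v := by
    simpa [mul_assoc] using congrArg (fun x => star x * v) g3
  have g5 : v * (star v * v) = v := by rw [← mul_assoc, e1]
  refine ⟨_, ξ, proj e1, fun h => e2 ((CStarRing.star_mul_self_eq_zero_iff _).1 h), ?_,
    fun e k1 k2 => b1 e k1 (by rw [← k2, ← mul_assoc, g4]), fun w w1 w2 w3 => ?_⟩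
  · rw [← g4, ← a3]; simp only [← mul_assoc, hc.1.isIdempotentElem.eq]
  by_cases w4 : w = 0
  · simp [w4]
  have w5 : ∀ x, star v * (v * (w * x)) = w * x := fun x => by
    simpa [mul_assoc] using congrArg (· * x) w2
  have w6 : ∀ x, w * (star w * (w * x)) = w * x := fun x => by
    simpa [mul_assoc] using congrArg (· * x) w1
  have w7 : w * (star w * w) = w := by rw [← mul_assoc, w1]
  have w8 : star w * (star v * v) = star w := by simpa [mul_assoc] using congrArg star w2
  have w2' : star v * (v * w) = w := by rw [← mul_assoc, w2]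
  have i1 := l4 (v * w) (by simp only [PI, star_mul, mul_assoc, w2', w7])
    (by rw [← mul_assoc, g1]) (by rw [← w3]; simp only [mul_assoc, g2])
  have i2 := e5 (v * (w * star w)) (by simp only [PI, star_mul, star_star, mul_assoc, w5, w6])
    (fun h => w4 (by simpa [mul_assoc, w5, w7] using congrArg (fun x => star v * x * w) h))
    (by rw [← mul_assoc, e1]) (by simp only [mul_assoc, w8])
  simp only [nsq, star_mul, star_star, mul_assoc, w5, w6, w2', one_mul] at i1 i2 ⊢
  rw [div_mul_eq_mul_div, div_lt_iff₀ (by linarith)] at i2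
  linarith

end AppT

open AppT in
theorem appTr (hM : MaxPI.{u}) (hC : Cmp.{u}) (hS : SpecP.{u}) (hP : Polar.{u})
    (hV : Cover.{u}) : AppTr.{u} := by
  intro H _ _ _ M c₀ h1 h2 h3 δ hδ
  obtain ⟨p, ξ, p1, p2, p3, p4, p5⟩ := corner hM hC h1 h2 h3 hδ
  have p6 : ∀ x : Al M, p * x = x → x * p = x →
      ‖ap x ξ‖ ^ 2 ≤ (1 + δ) * ‖ap (star x) ξ‖ ^ 2 := fun x x1 x2 => by
    obtain ⟨v, g, v1, g1, g2, g3, v2, v3⟩ := hP H M x
    have v4 := v2 (1 - p) (by rw [sub_mul, x1, one_mul, sub_self])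
    have v5 := v3 (1 - p) (by rw [mul_sub, x2, mul_one, sub_self])
    rw [sub_mul, one_mul, sub_eq_zero] at v4
    rw [mul_sub, mul_one, sub_eq_zero] at v5
    have hr : ∀ y : Al M, ‖ap y (√(1 + δ) • ap (star v) ξ)‖ ^ 2 =
        (1 + δ) * ‖ap (y * star v) ξ‖ ^ 2 := fun y => by
      rw [← ap_rsmul, ← ap_mul, mul_smul_comm, ap_rsmul, norm_smul, mul_pow, Real.norm_eq_abs,
        sq_abs, Real.sq_sqrt (by linarith)]
    have g4 : star x * v = g * g := by simpa [g1] using congrArg star g3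
    have := pos hS (proj v1) ξ (√(1 + δ) • ap (star v) ξ) (fun e e1 e2 => ?_) (g * g) (by
      rw [← g4, mul_assoc, ← mul_assoc v, v1])
    · rw [hr] at this
      have e1 : star x = g * g * star v := by rw [g2]; simp [g1]
      have e2 : star x * x = star (g * g) * (g * g) := by
        rw [e1, mul_assoc, g3]; simp [g1]
      rwa [nsq, e2, ← nsq, e1]
    · have e3 := e1.isSelfAdjoint.star_eq
      have e4 : star (v * e) * (v * e) = e := by
        rw [star_mul, mul_assoc, ← mul_assoc (star v), e2, e3, e1.isIdempotentElem.eq]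
      have := p5 (v * e) (of_proj (e4.symm ▸ e1)) (by rw [← mul_assoc, ← v4]) (by
        have : e * (star v * v) = e := by simpa [e3] using congrArg star e2
        rw [← this, mul_assoc, mul_assoc, mul_assoc, ← v5])
      rw [nsq, e4, star_mul, e3] at this
      rwa [hr, nsq, e3, e1.isIdempotentElem.eq]
  obtain ⟨c, k, v, c1, c2, c3, c4, c5, c6⟩ := hV H M c₀ p h1 h2 p1 p2 p3
  have d1 : ∀ i, p * star (v i) = star (v i) := fun i => by
    simpa [p1.isSelfAdjoint.star_eq] using congrArg star (c4 i).2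
  have d2 : ∀ i, c * v i = v i := fun i => by
    rw [← (c4 i).1, ← c6, mul_assoc, ← mul_assoc _ (v i), Finset.sum_mul, Finset.sum_eq_single i
      (fun j _ hj => by rw [mul_assoc, c5 j i hj, mul_zero]) (by simp), (c4 i).1]
  have d3 : ∀ (x : Al M) i, ‖ap (x * v i) ξ‖ ^ 2 = ∑ j, ‖ap (star (v j) * (x * v i)) ξ‖ ^ 2 :=
    fun x i => by
      simp only [nsq, ← Complex.re_sum, ← inner_sum, ← ap_sum, star_mul, star_star, mul_assoc,
        ← Finset.mul_sum]
      simp only [← mul_assoc (v _), ← Finset.sum_mul, c6]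
      rw [← mul_assoc c, c1.2, mul_assoc, d2]
  have d4 : ∀ x : Al M, (∀ i, ap (x * v i) ξ = 0) → c * x = 0 := fun x hx => by
    have : ∀ i, x * v i = 0 := fun i => faith hS p1 ξ p4 _ (by rw [mul_assoc, (c4 i).2]) (hx i)
    rw [c1.2, ← c6]; simp [Finset.mul_sum, ← mul_assoc, this]
  have d5 : 0 < ∑ i, ‖ap (v i) ξ‖ ^ 2 := by
    refine (Finset.sum_nonneg fun _ _ => sq_nonneg _).lt_of_ne fun h => c2 ?_
    have := (Finset.sum_eq_zero_iff_of_nonneg fun _ _ => sq_nonneg _).1 h.symm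
    simpa using d4 1 fun i => by simpa using this i (Finset.mem_univ _)
  set r := (√(∑ i, ‖ap (v i) ξ‖ ^ 2))⁻¹ with hr
  have r0 : 0 < r := by positivity
  have r1 : ∀ (x : Al M) i, ap x (r • ap (v i) ξ) = r • ap (x * v i) ξ := fun x i => by
    rw [← ap_rsmul, ← ap_mul, mul_smul_comm, ap_rsmul]
  refine ⟨c, k, fun i => r • ap (v i) ξ, c1, c3, fun i => by rw [r1, d2], ?_, fun x => ?_,
    fun x hx => d4 x fun i => ?_⟩
  · simp only [norm_smul, mul_pow, ← Finset.mul_sum, Real.norm_eq_abs, sq_abs]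
    rw [hr, inv_pow, Real.sq_sqrt d5.le, inv_mul_cancel₀ d5.ne']
  · simp only [r1, norm_smul, mul_pow, ← Finset.mul_sum]
    rw [mul_left_comm]
    gcongr
    simp only [d3 x, d3 (star x), Finset.mul_sum]
    rw [Finset.sum_comm]
    refine Finset.sum_le_sum fun i _ => Finset.sum_le_sum fun j _ => ?_
    simpa only [star_mul, star_star, mul_assoc] using p6 (star (v i) * (x * v j))
      (by rw [← mul_assoc, d1]) (by rw [mul_assoc, mul_assoc, (c4 j).2])
  · simpa only [r1, smul_eq_zero, r0.ne', false_or] using hx i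

end Crest.Agent.HH
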