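import Crest.Agent.HH.Defs
import Crest.Agent.GEN.Exp

/-! Structure of bilinear forms which are constant on the pairs `(u⋆, u)`. -/

set_option autoImplicit false
open scoped ComplexConjugate BigOperators InnerProductSpace
open Filter Topology

namespace Crest.Agent.HH
open Crest.Agent.GEN

universe u

namespace BS

section analytic
variable {A : Type u} [CStarAlgebra A]

lemma o1 (β : A →ₗ[ℂ] A →ₗ[ℂ] ℂ) {C : ℝ} (hb : ∀ a b, ‖β a b‖ ≤ C * ‖a‖ * ‖b‖) {κ : ℂ}
    (hκ : ∀ u ∈ unitary A, β (star u) u = κ) (h : A) : β h 1 = β 1 h := by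
  let _ : NormedAlgebra ℚ A := NormedAlgebra.restrictScalars ℚ ℂ A
  have key : ∀ a : A, star a = -a → β a 1 = β 1 a := fun a ha => by
    let B : A →L[ℝ] A →L[ℝ] ℂ := (β.mkContinuous₂ C hb).bilinearRestrictScalars ℝ
    have hB : ∀ x y, B x y = β x y := fun _ _ => rfl
    have h1 := B.hasDerivAt_of_bilinear (x := (0 : ℝ))
      (fun _ => hasDerivAt_exp_smul_const (𝕂 := ℝ) (-a) 0)
      (fun _ => hasDerivAt_exp_smul_const (𝕂 := ℝ) a 0)
    have h2 : (fun t : ℝ => B (NormedSpace.exp (t • -a)) (NormedSpace.exp (t • a))) =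
        fun _ => κ := by
      ext t
      have hs : star (t • a) = -(t • a) := by rw [star_smul, ha, star_trivial, smul_neg]
      rw [hB, ← hκ _ (exp_unitary hs), NormedSpace.star_exp, hs, smul_neg]
    rw [h2] at h1
    have h3 := h1.unique (hasDerivAt_const (0 : ℝ) κ)
    simp only [zero_smul, NormedSpace.exp_zero, one_mul, hB] at h3
    rw [map_neg, LinearMap.neg_apply] at h3
    linear_combination -h3
  have e : h = (2⁻¹ : ℂ) • (h - star h) +
      (-Complex.I * 2⁻¹ : ℂ) • (Complex.I • (h + star h)) := by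
    rw [smul_smul, show -Complex.I * 2⁻¹ * Complex.I = 2⁻¹ by
      linear_combination (-2⁻¹ : ℂ) * Complex.I_mul_I]
    module
  have k1 := key (h - star h) (by simp)
  have k2 := key (Complex.I • (h + star h)) (by simp [add_comm])
  rw [e]
  simp only [LinearMap.map_add, LinearMap.map_smul, LinearMap.add_apply,
    LinearMap.smul_apply] at k1 k2 ⊢
  rw [k1, k2]

/-- The defect form. -/
noncomputable def df (β : A →ₗ[ℂ] A →ₗ[ℂ] ℂ) (h : A) : A →ₗ[ℂ] A →ₗ[ℂ] ℂ :=
  β.comp (LinearMap.mulRight ℂ h) - β.compl₂ (LinearMap.mulLeft ℂ h)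

lemma df_apply (β : A →ₗ[ℂ] A →ₗ[ℂ] ℂ) (h a b : A) : df β h a b = β (a * h) b - β a (h * b) := rfl

lemma df_bound (β : A →ₗ[ℂ] A →ₗ[ℂ] ℂ) {C : ℝ} (hC : 0 ≤ C)
    (hb : ∀ a b, ‖β a b‖ ≤ C * ‖a‖ * ‖b‖) (h a b : A) :
    ‖df β h a b‖ ≤ 2 * C * ‖h‖ * ‖a‖ * ‖b‖ := by
  rw [df_apply]
  have h1 : ‖β (a * h) b‖ ≤ C * (‖a‖ * ‖h‖) * ‖b‖ :=
    (hb _ _).trans (by gcongr; exact norm_mul_le _ _)
  have h2 : ‖β a (h * b)‖ ≤ C * ‖a‖ * (‖h‖ * ‖b‖) :=
    (hb _ _).trans (by gcongr; exact norm_mul_le _ _)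
  linarith [norm_sub_le (β (a * h) b) (β a (h * b))]

lemma df_zero (β : A →ₗ[ℂ] A →ₗ[ℂ] ℂ) {C : ℝ} (hb : ∀ a b, ‖β a b‖ ≤ C * ‖a‖ * ‖b‖) {κ : ℂ}
    (hκ : ∀ u ∈ unitary A, β (star u) u = κ) (h : A) :
    ∀ v ∈ unitary A, df β h (star v) v = 0 := fun v hv => by
  have := o1 ((β.comp (LinearMap.mulLeft ℂ (star v))).compl₂ (LinearMap.mulRight ℂ v)) (C := C)
    (fun a b => by
      have := hb (star v * a) (b * v)
      rwa [CStarRing.norm_mem_unitary_mul _ (Unitary.star_mem hv),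
        CStarRing.norm_mul_mem_unitary _ hv] at this) (κ := κ)
    (fun u hu => by
      have := hκ _ (mul_mem hu hv)
      rwa [star_mul] at this) h
  rw [df_apply, sub_eq_zero]
  simpa using this

lemma o2 (β : A →ₗ[ℂ] A →ₗ[ℂ] ℂ) {C : ℝ} (hC : 0 ≤ C) (hb : ∀ a b, ‖β a b‖ ≤ C * ‖a‖ * ‖b‖)
    {κ : ℂ} (hκ : ∀ u ∈ unitary A, β (star u) u = κ) (x h : A) :
    β x h + β h x = β (x * h + h * x) 1 := by
  have := o1 (df β h) (df_bound β hC hb h) (df_zero β hb hκ h) x
  simp only [df_apply, mul_one, one_mul] at this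
  rw [← o1 β hb hκ (h * x)] at this
  simp only [map_add, LinearMap.add_apply]
  linear_combination -this

lemma jordan (β : A →ₗ[ℂ] A →ₗ[ℂ] ℂ) {C : ℝ} (hC : 0 ≤ C) (hb : ∀ a b, ‖β a b‖ ≤ C * ‖a‖ * ‖b‖)
    {κ : ℂ} (hκ : ∀ u ∈ unitary A, β (star u) u = κ) (k h l : A) :
    (β - β.flip) (k * h + h * k) l + (β - β.flip) (h * l + l * h) k +
      (β - β.flip) (l * k + k * l) h = 0 := by
  have h0 := o2 (df β h) (by positivity) (df_bound β hC hb h) (df_zero β hb hκ h) k l
  have h1 := o2 β hC hb hκ (k * h) l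
  have h2 := o2 β hC hb hκ (h * k) l
  have h3 := o2 β hC hb hκ (h * l) k
  have h4 := o2 β hC hb hκ (l * h) k
  have h5 := o2 β hC hb hκ (l * k) h
  have h6 := o2 β hC hb hκ (k * l) h
  simp only [df_apply, mul_one, map_add, LinearMap.add_apply, LinearMap.sub_apply,
    LinearMap.flip_apply, add_mul, mul_assoc] at *
  linear_combination 2 * h0 - h1 + h2 + h3 - h4 - h5 - h6

end analytic

section algebraic
variable {A : Type u} [Ring A] [Algebra ℂ A] (α : A →ₗ[ℂ] A →ₗ[ℂ] ℂ)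

/-- The cyclic coboundary. -/
def cb (x y z : A) : ℂ := α (x * y) z + α (y * z) x + α (z * x) y

lemma cb_cyc (x y z : A) : cb α x y z = cb α y z x := by simp only [cb]; ring

lemma cb_add₁ (x x' y z : A) : cb α (x + x') y z = cb α x y z + cb α x' y z := by
  simp only [cb, add_mul, mul_add, map_add, LinearMap.add_apply]; ring
lemma cb_add₂ (x y y' z : A) : cb α x (y + y') z = cb α x y z + cb α x y' z := by
  simp only [cb, add_mul, mul_add, map_add, LinearMap.add_apply]; ring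
lemma cb_add₃ (x y z z' : A) : cb α x y (z + z') = cb α x y z + cb α x y z' := by
  simp only [cb, add_mul, mul_add, map_add, LinearMap.add_apply]; ring
lemma cb_zero₂ (x z : A) : cb α x 0 z = 0 := by simp [cb]
lemma cb_zero₃ (x y : A) : cb α x y 0 = 0 := by simp [cb]

variable {α}
variable (ha : ∀ x y, α x y = -α y x)
  (hj : ∀ k h l, α (k * h + h * k) l + α (h * l + l * h) k + α (l * k + k * l) h = 0)

include hj in
lemma cb_alt (x y z : A) : cb α x y z = -cb α x z y := by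
  have := hj x y z
  simp only [cb, map_add, LinearMap.add_apply] at *
  linear_combination this

include ha in
lemma cb_coc (w x y z : A) :
    cb α (w * x) y z - cb α w (x * y) z + cb α w x (y * z) - cb α (z * w) x y = 0 := by
  simp only [cb, mul_assoc]
  linear_combination ha (y * z) (w * x) - ha (z * w) (x * y)

include hj in
lemma off {p q : A} (hp : p * p = 0) (h1 : p * q + q * p = 1) (y z : A) :
    α (p * q * y * (q * p)) (p * q * z * (q * p)) = 0 := by
  have hpp : ∀ x, p * (p * x) = 0 := fun x => by rw [← mul_assoc, hp, zero_mul]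
  have j1 := hj (p * q * y * q) p (p * q * z * (q * p))
  have j2 := hj (p * q * y * q * (p * q * z * q)) p p
  have hpqp : ∀ x, p * (q * (p * x)) = p * x := fun x => by
    have := congrArg (fun t => p * t * x) h1
    simp only [mul_add, mul_assoc, hpp, mul_one, zero_add] at this
    exact this
  simp only [mul_assoc, hpp, hp, mul_zero, add_zero, zero_add, map_zero,
    LinearMap.zero_apply] at j1 j2 ⊢
  linear_combination j1 - 2⁻¹ * j2

include ha hj in
lemma cb_e {e f : A} (h1 : e + f = 1) (hef : e * f = 0) (hfe : f * e = 0)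
    (o1 : ∀ y z, α (e * y * f) (e * z * f) = 0) (o2 : ∀ y z, α (f * y * e) (f * z * e) = 0)
    (y z : A) : cb α e y z = 0 := by
  have hee : e * e = e := by
    have := congrArg (e * ·) h1
    simpa only [mul_add, hef, add_zero, mul_one] using this
  have hee' : ∀ x, e * (e * x) = e * x := fun x => by rw [← mul_assoc, hee]
  have hef' : ∀ x, e * (f * x) = 0 := fun x => by rw [← mul_assoc, hef, zero_mul]
  have hfe' : ∀ x, f * (e * x) = 0 := fun x => by rw [← mul_assoc, hfe, zero_mul]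
  have dl : ∀ x, x = e * x + f * x := fun x => by rw [← add_mul, h1, one_mul]
  have dr : ∀ x, x = x * e + x * f := fun x => by rw [← mul_add, h1, mul_one]
  have t0 : ∀ y, cb α e e y = 0 := fun y => by
    have := cb_alt hj y e e
    rw [cb_cyc α y e e] at this
    linear_combination 2⁻¹ * this
  have t1 : ∀ y z, cb α e (f * y) z = cb α e y (z * e) := fun y z => by
    have h := cb_coc ha e e y z
    rw [hee, t0, cb_cyc α (z * e)] at h
    have h2 := cb_add₂ α e (e * y) (f * y) z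
    rw [← dl] at h2
    linear_combination h - h2
  have t2 : ∀ y z, cb α e (f * y) (z * f) = 0 := fun y z => by
    rw [t1, mul_assoc, hfe, mul_zero, cb_zero₃]
  have t3 : ∀ y z, cb α e (e * y) (z * e) = 0 := fun y z => by
    rw [← t1, hfe', cb_zero₂]
  have t4 : ∀ y z, cb α e (y * f) (f * z) = 0 := fun y z => by rw [cb_alt hj, t2, neg_zero]
  have t5 : ∀ y z, cb α e (y * e) (e * z) = 0 := fun y z => by rw [cb_alt hj, t3, neg_zero]
  have t6 : ∀ y z, cb α e (e * y * e) (f * (z * f)) = 0 := fun y z => by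
    have h := cb_coc ha e (e * y * e) e (f * (z * f))
    have h2 := cb_alt hj e (e * y * e) (f * (z * f))
    rw [cb_cyc α (e * (e * y * e)), cb_cyc α (f * (z * f) * e), cb_cyc α (e * y * e)] at h
    simp only [mul_assoc, hee', hee, hef', hfe, mul_zero, cb_zero₂, cb_zero₃] at h h2 ⊢
    linear_combination 2⁻¹ * h2 - 2⁻¹ * h
  have t7 : ∀ y z, cb α e (e * y * f) (e * (z * f)) = 0 := fun y z => by
    have h := o1 y z
    simp only [cb, mul_assoc, hee', hfe', hfe, mul_zero, map_zero, LinearMap.zero_apply,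
      add_zero] at h ⊢
    exact h
  have t8 : ∀ y z, cb α e (f * y * e) (f * (z * e)) = 0 := fun y z => by
    have h := o2 z y
    simp only [cb, mul_assoc, hee, hef', mul_zero, map_zero, LinearMap.zero_apply,
      zero_add] at h ⊢
    exact h
  have s1 : cb α e (e * y) (z * f) = 0 := by
    rw [dr (e * y), dl (z * f), cb_add₂, cb_add₃, cb_add₃, t5, t6, t7, t4]; simp
  have s2 : cb α e (f * y) (z * e) = 0 := by
    rw [dr (f * y), dl (z * e), cb_add₂, cb_add₃, cb_add₃, t5, t8, t4, cb_alt hj, ← mul_assoc e z,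
      mul_assoc f y, t6]; simp
  rw [dl y, dr z, cb_add₂, cb_add₃, cb_add₃, t3, s1, s2, t2]; simp

include ha hj in
lemma cb_off {e f : A} (he : ∀ y z, cb α e y z = 0) (hf : ∀ y z, cb α f y z = 0)
    (hfe : f * e = 0) {x : A} (h1 : e * x = x) (h2 : x * f = x) (y z : A) : cb α x y z = 0 := by
  have bal : ∀ g, (∀ y z, cb α g y z = 0) → ∀ x y z, cb α x y (z * g) = cb α (g * x) y z :=
    fun g hg x y z => by
      have h := cb_coc ha g x y z
      rw [hg, hg, cb_cyc α (z * g)] at h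
      linear_combination -h
  have a1 : ∀ z, cb α x y z = cb α x y (f * z) := fun z => by
    have := bal f hf z y x
    rw [h2] at this
    rw [cb_alt hj x, cb_cyc α x, this, cb_alt hj x, cb_cyc α x]
  have a2 : cb α x y z = cb α x y (e * z) := by
    have b1 := bal e he x z y
    rw [h1] at b1
    have b2 := bal e he z x y
    rw [cb_alt hj x, ← b1, ← cb_alt hj x, ← cb_cyc α z, b2, cb_cyc]
  rw [a2, a1, ← mul_assoc, hfe, zero_mul, cb_zero₃]

include ha hj in
lemma cb_diag {p q : A} (hp : p * p = 0) (hq : q * q = 0) (h1 : p * q + q * p = 1)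
    (he : ∀ y z, cb α (p * q) y z = 0) (hf : ∀ y z, cb α (q * p) y z = 0) (x y z : A) :
    cb α (p * q * x) y z = 0 := by
  have hef : p * q * (q * p) = 0 := by rw [mul_assoc, ← mul_assoc q, hq, zero_mul, mul_zero]
  have hfe : q * p * (p * q) = 0 := by rw [mul_assoc, ← mul_assoc p, hp, zero_mul, mul_zero]
  have hpp : ∀ x, p * (p * x) = 0 := fun x => by rw [← mul_assoc, hp, zero_mul]
  have hqq : ∀ x, q * (q * x) = 0 := fun x => by rw [← mul_assoc, hq, zero_mul]
  have hpqp : ∀ x, p * (q * (p * x)) = p * x := fun x => by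
    have := congrArg (fun t => p * t * x) h1
    simpa only [mul_add, add_mul, mul_assoc, hpp, mul_one, zero_add] using this
  have hqpq : ∀ x, q * (p * (q * x)) = q * x := fun x => by
    have := congrArg (fun t => q * t * x) h1
    simpa only [mul_add, add_mul, mul_assoc, hqq, mul_one, add_zero] using this
  have hpqp' : p * (q * p) = p := by simpa using hpqp 1
  have hqpq' : q * (p * q) = q := by simpa using hqpq 1
  have c1 : ∀ y z, cb α (p * q * x * p) y z = 0 := cb_off ha hj he hf hfe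
    (by simp only [mul_assoc, hqpq]) (by simp only [mul_assoc, hpqp'])
  have c2 : ∀ y z, cb α q y z = 0 := cb_off ha hj hf he hef
    (by simp only [mul_assoc, hqpq']) hqpq'
  have c3 : cb α (p * q * x * (q * p)) y z = 0 := cb_off ha hj he hf hfe
    (by simp only [mul_assoc, hqpq]) (by simp only [mul_assoc, hpqp']) y z
  have h := cb_coc ha (p * q * x * p) q y z
  rw [c1, c1, cb_cyc α (z * _), c2, mul_assoc _ p q] at h
  have e : p * q * x = p * q * x * (p * q) + p * q * x * (q * p) := by rw [← mul_add, h1, mul_one]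
  rw [e, cb_add₁, c3]
  linear_combination h

include ha hj in
lemma cb_zero {p q : A} (hp : p * p = 0) (hq : q * q = 0) (h1 : p * q + q * p = 1) (x y z : A) :
    cb α x y z = 0 := by
  have h2 : q * p + p * q = 1 := by rwa [add_comm]
  have hef : p * q * (q * p) = 0 := by rw [mul_assoc, ← mul_assoc q, hq, zero_mul, mul_zero]
  have hfe : q * p * (p * q) = 0 := by rw [mul_assoc, ← mul_assoc p, hp, zero_mul, mul_zero]
  have he := cb_e ha hj h1 hef hfe (off hj hp h1) (off hj hq h2)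
  have hf := cb_e ha hj h2 hfe hef (off hj hq h2) (off hj hp h1)
  have e : x = p * q * x + q * p * x := by rw [← add_mul, h1, one_mul]
  rw [e, cb_add₁, cb_diag ha hj hp hq h1 he hf, cb_diag ha hj hq hp h2 hf he, add_zero]

end algebraic

/-- Circumcentres are fixed. -/
lemma circum {E : Type u} [NormedAddCommGroup E] [InnerProductSpace ℂ E] [CompleteSpace E]
    {G : Type u} (α : G → E → E) (hα : ∀ g x y, ‖α g x - α g y‖ ≤ ‖x - y‖) (S : Set E)
    (h0 : (0 : E) ∈ S) {R : ℝ} (hR : ∀ s ∈ S, ‖s‖ ≤ R) (hS : ∀ g, ∀ s ∈ S, ∃ t ∈ S, α g t = s) :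
    ∃ η : E, ‖η‖ ≤ R ∧ ∀ g, α g η = η := by
  let P : Set ℝ := {r | 0 ≤ r ∧ ∃ x : E, ∀ s ∈ S, ‖x - s‖ ≤ r}
  have hR0 : 0 ≤ R := by simpa using hR 0 h0
  have hRP : R ∈ P := ⟨hR0, 0, fun s hs => by simpa using hR s hs⟩
  have hbdd : BddBelow P := ⟨0, fun r hr => hr.1⟩
  set ρ := sInf P with hρ
  have hρ0 : 0 ≤ ρ := le_csInf ⟨R, hRP⟩ fun r hr => hr.1
  have key : ∀ (x y : E) (r : ℝ), 0 ≤ r → (∀ s ∈ S, ‖x - s‖ ≤ r) → (∀ s ∈ S, ‖y - s‖ ≤ r) →
      ‖x - y‖ ^ 2 ≤ 4 * (r ^ 2 - ρ ^ 2) := fun x y r hr hx hy => by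
    have h1 : ∀ s ∈ S, ‖(2⁻¹ : ℂ) • (x + y) - s‖ ^ 2 ≤ r ^ 2 - ‖x - y‖ ^ 2 / 4 := fun s hs => by
      have h := parallelogram_law_with_norm ℂ (x - s) (y - s)
      rw [show x - s + (y - s) = (2 : ℂ) • ((2⁻¹ : ℂ) • (x + y) - s) by module,
        sub_sub_sub_cancel_right, norm_smul, Complex.norm_ofNat] at h
      have a1 := pow_le_pow_left₀ (norm_nonneg _) (hx s hs) 2
      have a2 := pow_le_pow_left₀ (norm_nonneg _) (hy s hs) 2
      nlinarith
    have h2 : 0 ≤ r ^ 2 - ‖x - y‖ ^ 2 / 4 := (sq_nonneg _).trans (h1 0 h0)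
    have h3 : ρ ≤ √(r ^ 2 - ‖x - y‖ ^ 2 / 4) := csInf_le hbdd
      ⟨Real.sqrt_nonneg _, _, fun s hs => Real.le_sqrt_of_sq_le (h1 s hs)⟩
    have h4 := pow_le_pow_left₀ hρ0 h3 2
    rw [Real.sq_sqrt h2] at h4
    linarith
  have hex : ∀ n : ℕ, ∃ x : E, ∀ s ∈ S, ‖x - s‖ ≤ ρ + 1 / (n + 1) := fun n => by
    obtain ⟨r, ⟨-, x, hx⟩, hr⟩ := exists_lt_of_csInf_lt ⟨R, hRP⟩
      (lt_add_of_pos_right ρ (Nat.one_div_pos_of_nat (n := n)))
    exact ⟨x, fun s hs => (hx s hs).trans hr.le⟩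
  choose x hx using hex
  have hlim : Tendsto (fun n : ℕ => ρ + 1 / ((n : ℝ) + 1)) atTop (𝓝 ρ) := by
    simpa using tendsto_one_div_add_atTop_nhds_zero_nat.const_add ρ
  have hc : CauchySeq x := by
    refine cauchySeq_of_le_tendsto_0 (fun n : ℕ => √(4 * ((ρ + 1 / ((n : ℝ) + 1)) ^ 2 - ρ ^ 2)))
      (fun n m N hn hm => ?_) ?_
    · rw [dist_eq_norm]
      refine Real.le_sqrt_of_sq_le (key _ _ _ (by positivity) (fun s hs => (hx n s hs).trans ?_)
        fun s hs => (hx m s hs).trans ?_) <;> gcongr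
    · have := (((hlim.pow 2).sub_const (ρ ^ 2)).const_mul 4).sqrt
      simpa using this
  obtain ⟨η, hη⟩ := cauchySeq_tendsto_of_complete hc
  have hηS : ∀ s ∈ S, ‖η - s‖ ≤ ρ := fun s hs =>
    le_of_tendsto_of_tendsto' (hη.sub_const s).norm hlim fun n => hx n s hs
  refine ⟨η, ?_, fun g => ?_⟩
  · have := hηS 0 h0
    rw [sub_zero] at this
    exact this.trans (csInf_le hbdd hRP)
  · have := key (α g η) η ρ hρ0 (fun s hs => by
      obtain ⟨t, ht, rfl⟩ := hS g s hs
      exact (hα g _ _).trans (hηS t ht)) hηS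
    rw [_root_.sub_self, mul_zero] at this
    exact sub_eq_zero.1 (norm_eq_zero.1 (pow_eq_zero_iff two_ne_zero |>.1
      (le_antisymm this (sq_nonneg _))))

section trace
variable {A : Type u} [CStarAlgebra A] (T : Tr A)

/-- The image in `L²`. -/
noncomputable def hat (a : A) : UniformSpace.Completion T.L := (T.toL a : T.L)

lemma norm_hat (a : A) : ‖hat T a‖ = T.n2 a := UniformSpace.Completion.norm_coe _

lemma norm_le_of_hat {ξ : UniformSpace.Completion T.L} {R : ℝ} (hR : 0 ≤ R)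
    (h : ∀ a, ‖⟪ξ, hat T a⟫_ℂ‖ ≤ R * T.n2 a) : ‖ξ‖ ≤ R := by
  have h1 : ∀ v : UniformSpace.Completion T.L, ‖⟪ξ, v⟫_ℂ‖ ≤ R * ‖v‖ := fun v => by
    induction v using UniformSpace.Completion.induction_on with
    | hp => exact isClosed_le (by fun_prop) (by fun_prop)
    | ih a => rw [UniformSpace.Completion.norm_coe]; exact h (T.toL.symm a)
  have := h1 ξ
  rw [inner_self_eq_norm_sq_to_K, norm_pow, RCLike.norm_ofReal, abs_norm, sq] at this
  rcases (norm_nonneg ξ).eq_or_lt with h0 | h0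
  · rwa [← h0]
  · exact le_of_mul_le_mul_right this h0

lemma riesz (f : A →ₗ[ℂ] ℂ) {R : ℝ} (h : ∀ a, ‖f a‖ ≤ R * T.n2 a) :
    ∃ ξ : UniformSpace.Completion T.L, ∀ a, ⟪ξ, hat T a⟫_ℂ = f a := by
  let g : T.L →L[ℂ] ℂ := (f ∘ₗ T.toL.symm.toLinearMap).mkContinuous R fun a => h (T.toL.symm a)
  refine ⟨(InnerProductSpace.toDual ℂ _).symm g.fromCompletion, fun a => ?_⟩
  rw [InnerProductSpace.toDual_symm_apply, hat, ContinuousLinearMap.fromCompletion_apply_coe]
  rfl

/-- The functional of a vector. -/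
noncomputable def fn (ξ : UniformSpace.Completion T.L) : A →ₗ[ℂ] ℂ where
  toFun a := ⟪ξ, hat T a⟫_ℂ
  map_add' a b := by rw [hat, map_add, UniformSpace.Completion.coe_add, inner_add_right]; rfl
  map_smul' c a := by rw [hat, map_smul, UniformSpace.Completion.coe_smul, inner_smul_right]; rfl

lemma fn_apply (ξ : UniformSpace.Completion T.L) (a : A) : fn T ξ a = ⟪ξ, hat T a⟫_ℂ := rfl

lemma fn_le (ξ : UniformSpace.Completion T.L) (a : A) : ‖fn T ξ a‖ ≤ ‖ξ‖ * T.n2 a := by
  rw [← norm_hat, fn_apply]; exact norm_inner_le_norm (𝕜 := ℂ) ξ (hat T a)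

lemma n2_conj {c : A} (hc : c ∈ unitary A) (a : A) : T.n2 (c * a * star c) = T.n2 a := by
  rw [T.n2_mul_unitary (Unitary.star_mem hc), T.n2_unitary_mul hc]

lemma cocycle (b : unitary A → A →ₗ[ℂ] ℂ) {R : ℝ} (hR : 0 ≤ R)
    (hb : ∀ c a, ‖b c a‖ ≤ R * T.n2 a) (h1 : b 1 = 0)
    (hm : ∀ g c a, b (g * c) a = b g ((c : A) * a * star (c : A)) + b c a) :
    ∃ η : A →ₗ[ℂ] ℂ, (∀ a, ‖η a‖ ≤ R * T.n2 a) ∧
      ∀ (c : unitary A) a, η ((c : A) * a * star (c : A)) - η a = b c a := by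
  have hex : ∀ (c : unitary A) (ξ : UniformSpace.Completion T.L),
      ∃ ξ' : UniformSpace.Completion T.L,
        ∀ a, ⟪ξ', hat T a⟫_ℂ = fn T ξ ((c : A) * a * star (c : A)) - b c a := fun c ξ =>
    riesz T (fn T ξ ∘ₗ LinearMap.mulRight ℂ (star (c : A)) ∘ₗ LinearMap.mulLeft ℂ (c : A) - b c)
      (R := ‖ξ‖ + R) fun a => by
        have := fn_le T ξ ((c : A) * a * star (c : A))
        rw [n2_conj T c.2] at this
        refine (norm_sub_le _ _).trans ?_
        rw [add_mul]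
        exact add_le_add this (hb c a)
  choose α hα using hex
  have ext : ∀ ξ ξ' : UniformSpace.Completion T.L,
      (∀ a, ⟪ξ, hat T a⟫_ℂ = ⟪ξ', hat T a⟫_ℂ) → ξ = ξ' := fun ξ ξ' h =>
    sub_eq_zero.1 (norm_le_zero_iff.1 (norm_le_of_hat T le_rfl fun a => by
      rw [inner_sub_left, h]; simp))
  obtain ⟨η, hη, hfix⟩ := circum α (fun g x y => norm_le_of_hat T (norm_nonneg _) fun a => by
      rw [inner_sub_left, hα, hα, sub_sub_sub_cancel_right, fn_apply, fn_apply, ← inner_sub_left,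
        ← n2_conj T g.2 a]
      exact fn_le T _ _) (Set.range fun c => α c 0)
    ⟨1, ext _ _ fun a => by simp [hα, h1, fn_apply]⟩ (R := R)
    (by
      rintro _ ⟨c, rfl⟩
      exact norm_le_of_hat T hR fun a => by simpa [hα, fn_apply] using hb c a)
    (by
      rintro g _ ⟨c, rfl⟩
      refine ⟨_, ⟨c * g⁻¹, rfl⟩, ext _ _ fun a => ?_⟩
      have := hm (c * g⁻¹) g a
      rw [inv_mul_cancel_right] at this
      simp only [hα, fn_apply, inner_zero_left, this]
      ring)
  refine ⟨fn T η, fun a => (fn_le T η a).trans (by gcongr; exact T.n2_nonneg a), fun c a => ?_⟩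
  have := hα c η a
  rw [hfix] at this
  rw [fn_apply T η a, this]; ring

end trace

end BS

open BS in
theorem bStruct : BStruct.{u} := by
  intro A _ T v hv h1 B C κ hC hB hb hκ
  let β : A →ₗ[ℂ] A →ₗ[ℂ] ℂ := LinearMap.mk₂ ℂ (fun a b => B (a, b)) (fun a a' b => (hB.1 b).1 a a')
    (fun c a b => (hB.1 b).2 c a) (fun a => (hB.2 a).1) (fun c a => (hB.2 a).2 c)
  have hβ : ∀ a b, β a b = B (a, b) := fun _ _ => rfl
  have hb' : ∀ a b, ‖β a b‖ ≤ C * ‖a‖ * ‖b‖ := fun a b =>
    (hb a b).trans (by gcongr; exact T.n2_le_norm a)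
  have := T.nontrivial
  have hφ : ∀ a, ‖β a 1‖ ≤ C * T.n2 a := fun a => by simpa [hβ] using hb a 1
  have ha : ∀ x y, (β - β.flip) x y = -(β - β.flip) y x := fun x y => by simp
  have hz := cb_zero ha (jordan β hC hb' hκ) (p := star v) (q := v)
    (by rw [← star_mul, hv, star_zero]) hv h1
  have h2 := o2 β hC hb' hκ
  obtain ⟨η, hη, hc⟩ := cocycle T
    (fun c => (β - β.flip).flip (star (c : A)) ∘ₗ LinearMap.mulLeft ℂ (c : A)) (R := 4 * C)
    (by positivity)
    (fun c a => by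
      have e := h2 ((c : A) * a) (star (c : A))
      rw [← mul_assoc, Unitary.coe_star_mul_self, one_mul, map_add, LinearMap.add_apply] at e
      have a1 := hφ ((c : A) * a * star (c : A))
      rw [n2_conj T c.2] at a1
      have a2 := hb ((c : A) * a) (star (c : A))
      rw [T.n2_unitary_mul c.2, CStarRing.norm_of_mem_unitary (Unitary.star_mem c.2), mul_one,
        ← hβ] at a2
      change ‖β ((c : A) * a) (star (c : A)) - β (star (c : A)) ((c : A) * a)‖ ≤ _
      rw [show β ((c : A) * a) (star (c : A)) - β (star (c : A)) ((c : A) * a) =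
        β ((c : A) * a) (star (c : A)) + β ((c : A) * a) (star (c : A)) -
          (β ((c : A) * a * star (c : A)) 1 + β a 1) by linear_combination -e]
      refine (norm_sub_le _ _).trans ((add_le_add (norm_add_le _ _) (norm_add_le _ _)).trans ?_)
      linarith [hφ a])
    (by ext a; simp [o1 β hb' hκ a])
    (fun g c a => by
      have e := hz ((g : A) * ((c : A) * a)) (star (c : A)) (star (g : A))
      simp only [cb, ← mul_assoc, Unitary.coe_star_mul_self, one_mul] at e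
      simp only [LinearMap.comp_apply, LinearMap.flip_apply, LinearMap.mulLeft_apply,
        Submonoid.coe_mul, star_mul, ← mul_assoc]
      rw [ha (star (c : A) * star (g : A))] at e
      linear_combination -e)
  have hn := T.n2_nonneg
  refine ⟨(2⁻¹ : ℂ) • (β.flip 1 + η), (2⁻¹ : ℂ) • (β.flip 1 - η), fun y => ?_, fun y => ?_,
    fun a _ b hb => ?_⟩
  · change ‖(2⁻¹ : ℂ) * (β y 1 + η y)‖ ≤ _
    rw [norm_mul, norm_inv, Complex.norm_ofNat]
    nlinarith [norm_add_le (β y 1) (η y), hφ y, hη y, mul_nonneg hC (hn y)]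
  · change ‖(2⁻¹ : ℂ) * (β y 1 - η y)‖ ≤ _
    rw [norm_mul, norm_inv, Complex.norm_ofNat]
    nlinarith [norm_sub_le (β y 1) (η y), hφ y, hη y, mul_nonneg hC (hn y)]
  · have e := hc ⟨star b, Unitary.star_mem hb⟩ (b * a)
    have e2 := h2 a b
    simp only [LinearMap.comp_apply, LinearMap.flip_apply, LinearMap.mulLeft_apply, star_star,
      ← mul_assoc, Unitary.star_mul_self_of_mem hb, one_mul, LinearMap.sub_apply] at e
    rw [map_add, LinearMap.add_apply] at e2
    change β a b = (2⁻¹ : ℂ) * (β (a * b) 1 + η (a * b)) + (2⁻¹ : ℂ) * (β (b * a) 1 - η (b * a))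
    linear_combination 2⁻¹ * e2 - 2⁻¹ * e

end Crest.Agent.HH
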