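import Crest.Agent.HH.Mean
import Crest.Agent.GEN.Exp

/-! The core fixed point theorem: iteration of the random model and the Riesz projection. -/

set_option autoImplicit false
open scoped ComplexConjugate BigOperators
open Filter Topology

namespace Crest.Agent.HH
open Crest.Agent.GEN

universe u

namespace CoreX
variable {A : Type u} [CStarAlgebra A]

lemma star_gen (θ : ℝ) (k : Fin 4) (l : A) :
    star ((Complex.I * θ) • (ph k • l + conj (ph k) • star l)) =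
      (Complex.I * (-θ : ℝ)) • (ph k • l + conj (ph k) • star l) := by
  simp [star_smul, add_comm]

lemma eu_unitary (θ : ℝ) (k : Fin 4) (l : A) : eu θ k l ∈ unitary A := by
  refine exp_unitary ?_
  rw [star_gen, ← neg_smul]; simp

lemma star_eu (θ : ℝ) (k : Fin 4) (l : A) : star (eu θ k l) = eu (-θ) k l := by
  let _ : NormedAlgebra ℚ A := NormedAlgebra.restrictScalars ℚ ℂ A
  rw [eu, NormedSpace.star_exp, star_gen, eu]

lemma pow_pos_eq {ω : A} (hω : ω ∈ unitary A) (P e : A) (n : ℕ) :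
    (cj P e * ω) ^ n = ordp (fun s => cj (ω ^ s * P) e) n * ω ^ n := by
  induction n with
  | zero => simp [ordp]
  | succ n ih =>
    have h := Unitary.star_mul_self_of_mem (pow_mem hω n)
    rw [pow_succ, ih, ordp, pow_succ]
    simp only [cj, star_mul, mul_assoc]
    rw [← mul_assoc (star (ω ^ n)), h, one_mul]

lemma pow_neg_eq {ω : A} (hω : ω ∈ unitary A) (P e : A) (n : ℕ) :
    star (cj P e * ω) ^ n =
      ordp (fun s => cj (star ω ^ s * (star ω * P)) (star e)) n * star ω ^ n := by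
  induction n with
  | zero => simp [ordp]
  | succ n ih =>
    have h := Unitary.star_mul_self_of_mem (pow_mem (Unitary.star_mem hω) n)
    have h1 := Unitary.mul_star_self_of_mem hω
    rw [pow_succ, ih, ordp, pow_succ]
    simp only [cj, star_mul, mul_assoc, star_star]
    rw [← mul_assoc (star (star ω ^ n)), h, one_mul, h1, mul_one]

section nu
variable (hN : NuAPI.{u}) (T : Tr A)
include hN

lemma nu_comm (a b : A) : nu T (a * b) = nu T (b * a) := by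
  rw [nu, nu, (hN A T).2.1]

lemma nu_star (a : A) : nu T (star a) = nu T a := (hN A T).2.2.2.2.1 a

lemma nu_le_one {a : A} (ha : a ∈ unitary A) : nu T a ≤ 1 :=
  ((hN A T).2.2.1 a).trans (T.n2_unitary ha).le

lemma nu_pair {ϖ Q : A} (hϖ : ϖ ∈ unitary A) (hQ : Q ∈ unitary A) {s t : ℕ} (h : s ≤ t) :
    nu T (star (ϖ ^ s * Q) * (ϖ ^ t * Q)) = nu T (ϖ ^ (t - s)) := by
  obtain ⟨d, rfl⟩ := Nat.exists_eq_add_of_le h
  have h1 := Unitary.star_mul_self_of_mem (pow_mem hϖ s)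
  rw [Nat.add_sub_cancel_left, star_mul, pow_add, mul_assoc, mul_assoc, ← mul_assoc (star (ϖ ^ s)),
    h1, one_mul, nu_comm hN, mul_assoc, Unitary.mul_star_self_of_mem hQ, mul_one]

lemma nu_pair_le {ϖ Q : A} (hϖ : ϖ ∈ unitary A) (hQ : Q ∈ unitary A) {r : ℕ} {η : ℝ}
    (h : ∀ k, 0 < k → k < r → nu T (ϖ ^ k) ≤ η) :
    ∀ s < r, ∀ t < r, s ≠ t → nu T (star (ϖ ^ s * Q) * (ϖ ^ t * Q)) ≤ η := by
  intro s hs t ht hst
  rcases lt_or_gt_of_ne hst with h1 | h1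
  · rw [nu_pair hN T hϖ hQ h1.le]; exact h _ (by omega) (by omega)
  · rw [← nu_star hN, star_mul, star_star, nu_pair hN T hϖ hQ h1.le]
    exact h _ (by omega) (by omega)

end nu

lemma nonexp {n : ℕ} {θ D e : ℝ} (hθ : 2 * n * θ ^ 2 ≤ 1) {δ new : ℂ} {a : ℕ → ℂ} {S : ℝ}
    (hδ : ‖δ‖ ≤ D) (ha : ∑ s ∈ Finset.range n, ‖a s‖ ≤ S)
    (h : ‖new - ((1 - 2 * n * θ ^ 2) * δ + 2 * θ ^ 2 * ∑ s ∈ Finset.range n, a s)‖ ≤ e) :
    ‖new‖ ≤ (1 - 2 * n * θ ^ 2) * D + 2 * θ ^ 2 * S + e := by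
  have h1 : ‖(1 - 2 * n * θ ^ 2 : ℂ) * δ‖ ≤ (1 - 2 * n * θ ^ 2) * D := by
    rw [norm_mul, show (1 - 2 * n * θ ^ 2 : ℂ) = ((1 - 2 * n * θ ^ 2 : ℝ) : ℂ) by push_cast; ring,
      Complex.norm_real, Real.norm_of_nonneg (by linarith)]
    exact mul_le_mul_of_nonneg_left hδ (by linarith)
  have h2 : ‖(2 * θ ^ 2 : ℂ) * ∑ s ∈ Finset.range n, a s‖ ≤ 2 * θ ^ 2 * S := by
    rw [norm_mul, show (2 * θ ^ 2 : ℂ) = ((2 * θ ^ 2 : ℝ) : ℂ) by push_cast; ring,
      Complex.norm_real, Real.norm_of_nonneg (by positivity)]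
    exact mul_le_mul_of_nonneg_left ((norm_sum_le _ _).trans ha) (by positivity)
  have h3 := norm_add_le (new - ((1 - 2 * n * θ ^ 2) * δ + 2 * θ ^ 2 * ∑ s ∈ Finset.range n, a s))
    ((1 - 2 * n * θ ^ 2) * δ + 2 * θ ^ 2 * ∑ s ∈ Finset.range n, a s)
  rw [sub_add_cancel] at h3
  linarith [norm_add_le ((1 - 2 * n * θ ^ 2 : ℂ) * δ) (2 * θ ^ 2 * ∑ s ∈ Finset.range n, a s)]

lemma nonexp' {n : ℕ} {θ D e : ℝ} (hθ : 2 * n * θ ^ 2 ≤ 1) {α δ new : ℂ} {a : ℕ → ℂ}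
    (hδ : ‖δ - α‖ ≤ D) (ha : ∀ s < n, ‖a s - α‖ ≤ D)
    (h : ‖new - ((1 - 2 * n * θ ^ 2) * δ + 2 * θ ^ 2 * ∑ s ∈ Finset.range n, a s)‖ ≤ e) :
    ‖new - α‖ ≤ D + e := by
  have := nonexp (new := new - α) (a := fun s => a s - α) (e := e) (S := n * D) hθ hδ
    ((Finset.sum_le_sum fun s hs => ha s (Finset.mem_range.1 hs)).trans (by simp)) (by
      convert h using 2
      simp only [Finset.sum_sub_distrib, Finset.sum_const, Finset.card_range, nsmul_eq_mul]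
      ring)
  linarith

lemma contr {n : ℕ} (hn : 0 < n) {θ D e : ℝ} (hθ : 2 * n * θ ^ 2 ≤ 1) {α δ new : ℂ} {a : ℕ → ℂ}
    (hδ : ‖δ - α‖ ≤ D) (ha : ∀ s < n, ‖a s - α‖ ≤ D) (h0 : a 0 = α)
    (h : ‖new - ((1 - 2 * n * θ ^ 2) * δ + 2 * θ ^ 2 * ∑ s ∈ Finset.range n, a s)‖ ≤ e) :
    ‖new - α‖ ≤ (1 - 2 * θ ^ 2) * D + e := by
  obtain ⟨n, rfl⟩ := Nat.exists_eq_add_one_of_ne_zero hn.ne'
  have := nonexp (new := new - α) (a := fun s => a s - α) (e := e) (S := n * D) hθ hδ (by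
      rw [Finset.sum_range_succ', h0, _root_.sub_self, norm_zero, add_zero]
      exact (Finset.sum_le_sum fun s hs => ha (s + 1) (by
        have := Finset.mem_range.1 hs; omega)).trans (by simp)) (by
      convert h using 2
      simp only [Finset.sum_sub_distrib, Finset.sum_const, Finset.card_range, nsmul_eq_mul]
      ring)
  push_cast at this
  linarith

/-- States. -/
abbrev St (A : Type u) [CStarAlgebra A] := unitary A × unitary A

variable {T : Tr A} {C : ℝ} {Φ : A × A → ℂ} (𝔪 : Model T C Φ)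

/-- The next state. -/
noncomputable def nx (θ : ℝ) (P : St A → unitary A) (s : St A) (k : Fin 4)
    (ω : unitary A × unitary A) : St A :=
  (P s * star s.2 * ⟨eu θ k ω.1, eu_unitary _ _ _⟩ * star (P s * star s.2) * s.1, ω.2 * s.2)

lemma nx_fst (θ : ℝ) (P : St A → unitary A) (s : St A) (k : Fin 4) (ω : unitary A × unitary A) :
    ((nx θ P s k ω).1 : A) = cj ((P s : A) * star (s.2 : A)) (eu θ k ω.1) * s.1 := rfl

lemma nx_snd (θ : ℝ) (P : St A → unitary A) (s : St A) (k : Fin 4) (ω : unitary A × unitary A) :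
    ((nx θ P s k ω).2 : A) = ω.2 * s.2 := rfl

/-- The transition kernel. -/
noncomputable def ker (θ : ℝ) (P : St A → unitary A) (s : St A) : Mean (St A) :=
  𝔪.m.bind fun ω => (Mean.avg (Fin 4)).map fun k => nx θ P s k ω

lemma ker_L (θ : ℝ) (P : St A → unitary A) (s : St A) (f : St A → ℂ) :
    (ker 𝔪 θ P s).L f = 𝔪.m.L fun ω => (4 : ℂ)⁻¹ * ∑ k : Fin 4, f (nx θ P s k ω) := by
  simp [ker, Mean.avg_L]

/-- The value of a word. -/
def val (Φ : A × A → ℂ) (x z : A) (W : St A → A) (s : St A) : ℂ :=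
  Φ (x * W s * star (s.2 : A), (s.2 : A) * star (W s) * z)

/-- The sum of the squared central parts. -/
noncomputable def bb (T : Tr A) (K : ℕ) (s : St A) : ℝ :=
  ∑ k ∈ Finset.range K, nu T ((s.1 : A) ^ (k + 1)) ^ 2

def SM (x z : A) (K : ℕ) (D : ℝ) : Prop :=
  ∀ r ≤ K, ∀ (θ : ℝ), |θ| ≤ 1 → ∀ G : ℕ → A, (∀ s, G s ∈ unitary A) →
    ∀ X ∈ unitary A, ∀ (η : ℝ), 0 ≤ η →
    (∀ s < r, ∀ t < r, s ≠ t → nu T (star (G s) * G t) ≤ η) →
    ‖𝔪.m.L (fun ω => (4 : ℂ)⁻¹ * ∑ k : Fin 4,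
        Φ (x * ordp (fun s => cj (G s) (eu θ k ω.1)) r * X * star (ω.2 : A),
          (ω.2 : A) * star X * star (ordp (fun s => cj (G s) (eu θ k ω.1)) r) * z)) -
      ((1 - 2 * r * θ ^ 2) * Φ (x * X, star X * z) +
        2 * θ ^ 2 * ∑ s ∈ Finset.range r, Φ (x * G s, star (G s) * z))‖ ≤
      D * (θ ^ 2 * η + |θ| ^ 3)

def SN (K : ℕ) (D : ℝ) : Prop :=
  ∀ r ≤ K, ∀ (θ : ℝ), |θ| ≤ 1 → 2 * r * θ ^ 2 ≤ 1 → ∀ G : ℕ → A,
    (∀ s, G s ∈ unitary A) → ∀ X ∈ unitary A, ∀ η : ℝ, 0 ≤ η →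
    (∀ s < r, ∀ t < r, s ≠ t → nu T (star (G s) * G t) ≤ η) →
    (𝔪.m.L (fun ω => (4 : ℂ)⁻¹ * ∑ k : Fin 4,
        ((nu T (ordp (fun s => cj (G s) (eu θ k ω.1)) r * X) ^ 2 : ℝ) : ℂ))).re ≤
      nu T X ^ 2 + D * (θ ^ 2 * (nu T X * η) + |θ| ^ 3)

lemma bb_nonneg (T : Tr A) (K : ℕ) (s : St A) : 0 ≤ bb T K s :=
  Finset.sum_nonneg fun _ _ => sq_nonneg _

lemma bb_le (hN : NuAPI.{u}) (T : Tr A) (K : ℕ) (s : St A) : bb T K s ≤ K := by
  refine (Finset.sum_le_sum (g := fun _ => (1 : ℝ)) fun k _ => ?_).trans (by simp)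
  exact pow_le_one₀ (norm_nonneg _) (nu_le_one hN T (pow_mem s.1.2 _))

lemma nu_le_sqrt (T : Tr A) {K : ℕ} (s : St A) {k : ℕ} (h0 : 0 < k) (hk : k ≤ K) :
    nu T ((s.1 : A) ^ k) ≤ √(bb T K s) := by
  obtain ⟨k, rfl⟩ := Nat.exists_eq_add_one_of_ne_zero h0.ne'
  refine Real.le_sqrt_of_sq_le ?_
  exact Finset.single_le_sum (f := fun k => nu T ((s.1 : A) ^ (k + 1)) ^ 2)
    (fun _ _ => sq_nonneg _) (Finset.mem_range.2 (by omega))

include 𝔪 in
lemma norm_Phi (hC : 0 ≤ C) (a b : A) : ‖Φ (a, b)‖ ≤ C * ‖a‖ * ‖b‖ :=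
  𝔪.l1 a b _ fun m hm => (T.norm_τ_le _).trans ((norm_mul_le _ _).trans
    (mul_le_of_le_one_right (norm_nonneg _) hm))

include 𝔪 in
lemma norm_val (hC : 0 ≤ C) (x z : A) {W : St A → A} (hW : ∀ s, W s ∈ unitary A) (s : St A) :
    ‖val Φ x z W s‖ ≤ C * ‖x‖ * ‖z‖ := by
  have := norm_Phi 𝔪 hC (x * W s * star (s.2 : A)) ((s.2 : A) * star (W s) * z)
  rwa [CStarRing.norm_mul_mem_unitary _ (Unitary.star_mem s.2.2),
    CStarRing.norm_mul_mem_unitary _ (hW s),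
    CStarRing.norm_mem_unitary_mul _ (mul_mem s.2.2 (Unitary.star_mem (hW s)))] at this

lemma ker_const (θ : ℝ) (P : St A → unitary A) (x z y : A) (s : St A) :
    (ker 𝔪 θ P s).L (val Φ x z fun _ => y) = val Φ x z (fun _ => y) s := by
  rw [ker_L, val, ← 𝔪.m0]
  congr 1; ext ω
  simp only [val, nx_snd, star_mul, mul_assoc, Finset.sum_const, Finset.card_univ,
    Fintype.card_fin, nsmul_eq_mul]
  push_cast; ring

lemma stepB (hN : NuAPI.{u}) {K : ℕ} {D : ℝ} (hD : 0 ≤ D) (h : SN 𝔪 K D) {θ : ℝ} (h0 : 0 ≤ θ)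
    (h1 : θ ≤ 1) (hK : 2 * K * θ ^ 2 ≤ 1) (P : St A → unitary A) (μ : Mean (St A)) :
    ((μ.bind (ker 𝔪 θ P)).L fun s => (bb T K s : ℂ)).re ≤
      (1 + K * D * θ ^ 2) * (μ.L fun s => (bb T K s : ℂ)).re + K * D * θ ^ 3 := by
  have key : ∀ s, ((ker 𝔪 θ P s).L fun s => (bb T K s : ℂ)).re ≤
      (1 + K * D * θ ^ 2) * bb T K s + K * D * θ ^ 3 := fun s => by
    have e1 : ((ker 𝔪 θ P s).L fun s => (bb T K s : ℂ)) = ∑ k ∈ Finset.range K,
        (ker 𝔪 θ P s).L fun s => ((nu T ((s.1 : A) ^ (k + 1)) ^ 2 : ℝ) : ℂ) := by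
      rw [← Mean.sum]; simp [bb]
    rw [e1, Complex.re_sum]
    have e2 : ∀ k ∈ Finset.range K,
        ((ker 𝔪 θ P s).L fun s => ((nu T ((s.1 : A) ^ (k + 1)) ^ 2 : ℝ) : ℂ)).re ≤
          nu T ((s.1 : A) ^ (k + 1)) ^ 2 + D * (θ ^ 2 * bb T K s + θ ^ 3) := fun k hk => by
      have hk := Finset.mem_range.1 hk
      have hQ : (P s : A) * star (s.2 : A) ∈ unitary A :=
        mul_mem (P s).2 (Unitary.star_mem s.2.2)
      have := h (k + 1) hk θ (by rwa [abs_of_nonneg h0]) (le_trans (by gcongr; exact_mod_cast hk) hK)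
        (fun i => (s.1 : A) ^ i * ((P s : A) * star (s.2 : A)))
        (fun i => mul_mem (pow_mem s.1.2 i) hQ) _ (pow_mem s.1.2 (k + 1)) _ (Real.sqrt_nonneg _)
        (nu_pair_le hN T s.1.2 hQ fun j h0 hj => nu_le_sqrt T (K := K) s h0 (by omega))
      rw [ker_L]
      simp only [nx_fst, pow_pos_eq s.1.2]
      refine this.trans ?_
      rw [abs_of_nonneg h0]
      gcongr
      calc _ ≤ √(bb T K s) * √(bb T K s) := by
            gcongr; exact nu_le_sqrt T s (by omega) hk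
        _ = _ := Real.mul_self_sqrt (bb_nonneg T K s)
    refine (Finset.sum_le_sum e2).trans (le_of_eq ?_)
    rw [Finset.sum_add_distrib, Finset.sum_const, Finset.card_range, nsmul_eq_mul]
    change bb T K s + _ = _
    ring
  have hb := bb_le hN T K
  have hb0 := bb_nonneg T K
  rw [Mean.bind_L]
  rw [show (fun s => (ker 𝔪 θ P s).L fun s => (bb T K s : ℂ)) = fun s =>
    ((((ker 𝔪 θ P s).L fun s => (bb T K s : ℂ)).re : ℝ) : ℂ) from
      funext fun s => ((ker 𝔪 θ P s).ofReal_re hb0 hb).symm]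
  refine (μ.re_mono key (B := (1 + K * D * θ ^ 2) * K + K * D * θ ^ 3) fun s => ?_).trans
    (le_of_eq ?_)
  · have := (ker 𝔪 θ P s).re_nonneg hb0 hb
    have h2 : (1 + K * D * θ ^ 2) * bb T K s ≤ (1 + K * D * θ ^ 2) * K := by gcongr; exact hb s
    linarith
  · push_cast
    rw [μ.add, μ.cmul, μ.const, Complex.add_re]
    norm_cast
    rw [Complex.re_ofReal_mul]

lemma stepE (hN : NuAPI.{u}) {x z : A} {K : ℕ} {D : ℝ} (hD : 0 ≤ D) (h : SM 𝔪 x z K D) {θ θ' : ℝ}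
    (h1 : θ ≤ 1) (hθ : |θ'| = θ) (P : St A → unitary A) (μ : Mean (St A)) {ε β : ℝ} (hε : 0 < ε)
    (hβ : (μ.L fun s => (bb T K s : ℂ)).re ≤ β) {n : ℕ} (hn : n ≤ K) (ϖ Q Y W : St A → A)
    (hϖ : ∀ s, ϖ s ∈ unitary A) (hQ : ∀ s, Q s ∈ unitary A) (hY : ∀ s, Y s ∈ unitary A)
    (hν : ∀ s k, nu T (ϖ s ^ k) = nu T ((s.1 : A) ^ k))
    (hW : ∀ s k ω, W (nx θ P s k ω) =
      ordp (fun i => cj (ϖ s ^ i * (Q s * star (s.2 : A))) (eu θ' k ω.1)) n * Y s) :
    ‖(μ.bind (ker 𝔪 θ P)).L (val Φ x z W) - ((1 - 2 * n * θ ^ 2) * μ.L (val Φ x z Y) +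
      2 * θ ^ 2 * ∑ i ∈ Finset.range n, μ.L (val Φ x z fun s => ϖ s ^ i * Q s))‖ ≤
      D * (θ ^ 2 * (ε + β / ε) + θ ^ 3) := by
  have h0 : 0 ≤ θ := hθ ▸ abs_nonneg _
  have hsq : θ' ^ 2 = θ ^ 2 := by rw [← hθ, sq_abs]
  have hsq' : (θ' : ℂ) ^ 2 = (θ : ℂ) ^ 2 := by exact_mod_cast hsq
  have key : ∀ s, ‖(ker 𝔪 θ P s).L (val Φ x z W) - ((1 - 2 * n * θ ^ 2) * val Φ x z Y s +
      2 * θ ^ 2 * ∑ i ∈ Finset.range n, val Φ x z (fun s => ϖ s ^ i * Q s) s)‖ ≤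
      D * (θ ^ 2 * (ε + bb T K s / ε) + θ ^ 3) := fun s => by
    have hQ' : Q s * star (s.2 : A) ∈ unitary A := mul_mem (hQ s) (Unitary.star_mem s.2.2)
    have := h n hn θ' (by rwa [hθ]) (fun i => ϖ s ^ i * (Q s * star (s.2 : A)))
      (fun i => mul_mem (pow_mem (hϖ s) i) hQ') _ (mul_mem (hY s) (Unitary.star_mem s.2.2))
      _ (Real.sqrt_nonneg (bb T K s))
      (nu_pair_le hN T (hϖ s) hQ' fun j h0 hj => by
        rw [hν]; exact nu_le_sqrt T (K := K) s h0 (by omega))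
    rw [ker_L]
    simp only [val, hW, nx_snd, star_mul, star_star, mul_assoc]
    simp only [star_mul, star_star, mul_assoc, hsq', hsq, hθ] at this
    refine this.trans ?_
    gcongr
    have h2 := Real.sq_sqrt (bb_nonneg T K s)
    have h3 := Real.sqrt_nonneg (bb T K s)
    rw [← h2, Real.sqrt_sq h3, ← sub_nonneg]
    have : ε + √(bb T K s) ^ 2 / ε - √(bb T K s) =
        ((ε - √(bb T K s)) ^ 2 + ε * √(bb T K s)) / ε := by field_simp; ring
    rw [this]; positivity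
  have hb := bb_le hN T K
  have := μ.le _ _ (D * (θ ^ 2 * (ε + K / ε) + θ ^ 3)) (fun s => by gcongr; exact hb s) key
  rw [μ.sub, μ.add, μ.cmul, μ.cmul, μ.sum] at this
  refine this.trans ?_
  have e : (fun s => ((D * (θ ^ 2 * (ε + bb T K s / ε) + θ ^ 3) : ℝ) : ℂ)) = fun s =>
      ((D * θ ^ 2 / ε : ℝ) : ℂ) * (bb T K s : ℂ) + ((D * (θ ^ 2 * ε + θ ^ 3) : ℝ) : ℂ) := by
    ext s; push_cast; ring
  rw [e, μ.add, μ.cmul, μ.const, Complex.add_re, Complex.re_ofReal_mul, Complex.ofReal_re]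
  calc _ ≤ D * θ ^ 2 / ε * β + D * (θ ^ 2 * ε + θ ^ 3) := by gcongr
    _ = _ := by ring

/-- The conjugating unitaries of the two phases. -/
noncomputable def PP (u : unitary A) (m j : ℕ) (s : St A) : unitary A :=
  if j < m then s.1 * star u else 1

/-- The law of the state after `j` steps. -/
noncomputable def EE (θ : ℝ) (u : unitary A) (m : ℕ) (s₀ : St A) : ℕ → Mean (St A)
  | 0 => Mean.pure s₀
  | j + 1 => (EE θ u m s₀ j).bind (ker 𝔪 θ (PP u m j))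

lemma EE_const (θ : ℝ) (u : unitary A) (m : ℕ) (s₀ : St A) (x z y : A) (j : ℕ) :
    (EE 𝔪 θ u m s₀ j).L (val Φ x z fun _ => y) = val Φ x z (fun _ => y) s₀ := by
  induction j with
  | zero => rfl
  | succ j ih => rw [EE, Mean.bind_L, ← ih]; simp only [ker_const]

lemma EE_bb (hN : NuAPI.{u}) {K : ℕ} {D : ℝ} (hD : 0 ≤ D) (h : SN 𝔪 K D) {θ : ℝ} (h0 : 0 ≤ θ)
    (h1 : θ ≤ 1) (hK : 2 * K * θ ^ 2 ≤ 1) (u : unitary A) (m : ℕ) {s₀ : St A}
    (hs : bb T K s₀ = 0) (j : ℕ) :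
    ((EE 𝔪 θ u m s₀ j).L fun s => (bb T K s : ℂ)).re ≤
      j * (K * D * θ ^ 3) * (1 + K * D * θ ^ 2) ^ j := by
  induction j with
  | zero => simp [EE, hs]
  | succ j ih =>
    refine (stepB 𝔪 hN hD h h0 h1 hK _ _).trans ?_
    have hq : 1 ≤ (1 + K * D * θ ^ 2) ^ (j + 1) :=
      one_le_pow₀ (le_add_of_nonneg_right (by positivity))
    have hc : 0 ≤ K * D * θ ^ 3 := by positivity
    calc _ ≤ (1 + K * D * θ ^ 2) * (j * (K * D * θ ^ 3) * (1 + K * D * θ ^ 2) ^ j) +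
          K * D * θ ^ 3 * (1 + K * D * θ ^ 2) ^ (j + 1) := by
          exact add_le_add (mul_le_mul_of_nonneg_left ih (by positivity))
            (le_mul_of_one_le_right hc hq)
      _ = _ := by push_cast; ring

lemma est (hN : NuAPI.{u}) (hC : 0 ≤ C) {x z : A} {K : ℕ} {D : ℝ} (hD : 0 ≤ D)
    (hM : SM 𝔪 x z K D) {θ : ℝ} (h0 : 0 ≤ θ) (h1 : θ ≤ 1) (hK : 2 * K * θ ^ 2 ≤ 1)
    (h2 : 2 * θ ^ 2 ≤ 1) (u : unitary A) (m : ℕ) (s₀ : St A) {ε β : ℝ} (hε : 0 < ε) (hβ0 : 0 ≤ β)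
    (hβ : ∀ j ≤ 2 * m, ((EE 𝔪 θ u m s₀ j).L fun s => (bb T K s : ℂ)).re ≤ β) {n : ℕ} (hn0 : 0 < n)
    (hn : n ≤ K) :
    ‖(EE 𝔪 θ u m s₀ (m + m)).L (val Φ x z fun s => (s.1 : A) ^ n) - val Φ x z (fun _ => 1) s₀‖ ≤
      (1 - 2 * θ ^ 2) ^ m * (2 * (C * ‖x‖ * ‖z‖)) + (m + m) * (D * (θ ^ 2 * (ε + β / ε) + θ ^ 3)) ∧
    ‖(EE 𝔪 θ u m s₀ (m + m)).L (val Φ x z fun s => star (s.1 : A) ^ n) -
        val Φ x z (fun _ => star (u : A)) s₀‖ ≤
      (1 - 2 * θ ^ 2) ^ m * (2 * (C * ‖x‖ * ‖z‖)) +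
        (m + m) * (D * (θ ^ 2 * (ε + β / ε) + θ ^ 3)) := by
  set B := 2 * (C * ‖x‖ * ‖z‖) with hB
  set e := D * (θ ^ 2 * (ε + β / ε) + θ ^ 3) with he
  set ρ := 1 - 2 * θ ^ 2 with hρ
  have hB0 : 0 ≤ B := by positivity
  have he0 : 0 ≤ e := by positivity
  have hρ0 : 0 ≤ ρ := by linarith
  have hρ1 : ρ ≤ 1 := by nlinarith
  have hθn : ∀ n ≤ K, 2 * (n : ℝ) * θ ^ 2 ≤ 1 := fun n hn =>
    le_trans (by gcongr) hK
  have triv : ∀ (μ : Mean (St A)) (W : St A → A) (y : A), (∀ s, W s ∈ unitary A) →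
      y ∈ unitary A → ‖μ.L (val Φ x z W) - val Φ x z (fun _ => y) s₀‖ ≤ B := fun μ W y hW hy => by
    refine (norm_sub_le _ _).trans ?_
    have a1 := μ.norm_le (norm_val 𝔪 hC x z hW)
    have a2 := norm_val 𝔪 hC x z (W := fun _ => y) (fun _ => hy) s₀
    linarith
  have hus : star (u : A) ∈ unitary A := Unitary.star_mem u.2
  have hst : ∀ (s : St A) (k : ℕ), star (s.1 : A) ^ k ∈ unitary A := fun s k =>
    pow_mem (Unitary.star_mem s.1.2) k
  have hνs : ∀ (s : St A) (k : ℕ), nu T (star (s.1 : A) ^ k) = nu T ((s.1 : A) ^ k) :=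
    fun s k => by rw [← star_pow, nu_star hN]
  have up : ∀ j : ℕ, ρ * (ρ ^ j * B + j * e) + e ≤ ρ ^ (j + 1) * B + (j + 1 : ℕ) * e := fun j => by
    have : ρ * (j * e) ≤ j * e := mul_le_of_le_one_left (by positivity) hρ1
    push_cast; rw [pow_succ]; nlinarith
  -- phase one
  have p1 : ∀ j ≤ m, ∀ (y : A), y ∈ unitary A → ∀ n ≤ K, (y = star (u : A) ∨ (y = 1 ∧ 0 < n)) →
      ‖(EE 𝔪 θ u m s₀ j).L (val Φ x z fun s => star (s.1 : A) ^ n * y) -
        val Φ x z (fun _ => star (u : A)) s₀‖ ≤ ρ ^ j * B + j * e := by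
    intro j
    induction j with
    | zero =>
      intro _ y hy n _ _
      simpa using triv _ _ _ (fun s => mul_mem (hst s n) hy) hus
    | succ j ih =>
      intro hj y hy n hn hyn
      rcases Nat.eq_zero_or_pos n with rfl | hn0
      · obtain rfl : y = star (u : A) := by simpa using hyn
        simp only [pow_zero, one_mul, EE_const, _root_.sub_self, norm_zero]
        positivity
      refine le_trans (contr hn0 (hθn n hn) (ih (by omega) y hy n hn hyn)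
        (a := fun i => (EE 𝔪 θ u m s₀ j).L (val Φ x z fun s => star (s.1 : A) ^ i * star (u : A)))
        (fun i hi => ih (by omega) _ hus i (by omega) (Or.inl rfl)) ?_ ?_) (up j)
      · simp only [pow_zero, one_mul, EE_const]
      · refine stepE 𝔪 hN hD hM (θ' := -θ) h1 (by rw [abs_neg, abs_of_nonneg h0]) _ _ hε
          (hβ j (by omega)) hn (fun s => star (s.1 : A)) (fun _ => star (u : A)) _ _
          (fun s => Unitary.star_mem s.1.2) (fun _ => hus) (fun s => mul_mem (hst s n) hy) hνs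
          fun s k ω => ?_
        have hj' : j < m := hj
        rw [nx_fst, pow_neg_eq s.1.2, star_eu, mul_assoc]
        simp only [PP, if_pos hj', Submonoid.coe_mul, Unitary.coe_star, ← mul_assoc (star (s.1 : A)),
          Unitary.coe_star_mul_self, one_mul]
  -- phase two, negative powers
  have p2 : ∀ i ≤ m, ∀ n ≤ K, 0 < n →
      ‖(EE 𝔪 θ u m s₀ (m + i)).L (val Φ x z fun s => star (s.1 : A) ^ n) -
        val Φ x z (fun _ => star (u : A)) s₀‖ ≤ ρ ^ m * B + (m + i : ℕ) * e := by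
    intro i
    induction i with
    | zero =>
      intro _ n hn hn0
      simpa using p1 m le_rfl 1 (one_mem _) n hn (Or.inr ⟨rfl, hn0⟩)
    | succ i ih =>
      intro hi n hn hn0
      refine le_trans (nonexp' (e := e) (hθn n hn) (ih (by omega) n hn hn0)
        (a := fun k => (EE 𝔪 θ u m s₀ (m + i)).L
          (val Φ x z fun s => star (s.1 : A) ^ k * star (s.1 : A)))
        (fun k hk => by
          simpa only [← pow_succ] using ih (by omega) (k + 1) (by omega) (by omega)) ?_)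
        (by push_cast; linarith)
      refine stepE 𝔪 hN hD hM (θ' := -θ) h1 (by rw [abs_neg, abs_of_nonneg h0]) _ _ hε
        (hβ (m + i) (by omega)) hn (fun s => star (s.1 : A)) (fun s => star (s.1 : A)) _ _
        (fun s => Unitary.star_mem s.1.2) (fun s => Unitary.star_mem s.1.2) (fun s => hst s n) hνs
        fun s k ω => ?_
      rw [nx_fst, pow_neg_eq s.1.2, star_eu]
      simp only [PP, if_neg (show ¬ m.add i < m by simp), OneMemClass.coe_one, one_mul]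
  -- phase two, positive powers
  have p3 : ∀ i ≤ m, ∀ n ≤ K,
      ‖(EE 𝔪 θ u m s₀ (m + i)).L (val Φ x z fun s => (s.1 : A) ^ n) -
        val Φ x z (fun _ => 1) s₀‖ ≤ ρ ^ i * B + i * e := by
    intro i
    induction i with
    | zero =>
      intro _ n _
      simpa using triv _ _ _ (fun s => pow_mem s.1.2 n) (one_mem _)
    | succ i ih =>
      intro hi n hn
      rcases Nat.eq_zero_or_pos n with rfl | hn0
      · simp only [pow_zero, EE_const, _root_.sub_self, norm_zero]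
        positivity
      refine le_trans (contr hn0 (hθn n hn) (ih (by omega) n hn)
        (a := fun k => (EE 𝔪 θ u m s₀ (m + i)).L (val Φ x z fun s => (s.1 : A) ^ k * 1))
        (fun k hk => by simpa only [mul_one] using ih (by omega) k (by omega)) ?_ ?_) (up i)
      · simp only [pow_zero, one_mul, EE_const]
      · refine stepE 𝔪 hN hD hM (θ' := θ) h1 (abs_of_nonneg h0) _ _ hε
          (hβ (m + i) (by omega)) hn (fun s => (s.1 : A)) (fun _ => 1) _ _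
          (fun s => s.1.2) (fun _ => one_mem _) (fun s => pow_mem s.1.2 n) (fun _ _ => rfl)
          fun s k ω => ?_
        rw [nx_fst, pow_pos_eq s.1.2]
        simp only [PP, if_neg (show ¬ m.add i < m by simp), OneMemClass.coe_one]
  refine ⟨(p3 m le_rfl n hn).trans ?_, by simpa using p2 m le_rfl n hn hn0⟩
  have : (m : ℝ) * e ≤ (m + m) * e := by gcongr; linarith [(Nat.cast_nonneg m : (0 : ℝ) ≤ m)]
  linarith

lemma small (hN : NuAPI.{u}) (hC : 0 ≤ C) {x z : A} {K : ℕ} {D : ℝ} (hD : 0 ≤ D)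
    (hM : SM 𝔪 x z K D) (hS : SN 𝔪 K D) (u : unitary A) {s₀ : St A} (hs : bb T K s₀ = 0) {δ : ℝ}
    (hδ : 0 < δ) : ∃ μ : Mean (St A), ∀ n, 0 < n → n ≤ K →
      ‖μ.L (val Φ x z fun s => (s.1 : A) ^ n) - val Φ x z (fun _ => 1) s₀‖ ≤ δ ∧
      ‖μ.L (val Φ x z fun s => star (s.1 : A) ^ n) - val Φ x z (fun _ => star (u : A)) s₀‖ ≤ δ := by
  set B := 2 * (C * ‖x‖ * ‖z‖) with hB
  have hB0 : 0 ≤ B := by positivity
  -- the time
  obtain ⟨t, ht0, ht⟩ : ∃ t : ℝ, 0 < t ∧ Real.exp (-(2 * t)) * B ≤ δ / 3 := by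
    have h : Tendsto (fun t : ℝ => Real.exp (-(2 * t)) * B) atTop (𝓝 (0 * B)) :=
      (Real.tendsto_exp_neg_atTop_nhds_zero.comp
        (tendsto_id.const_mul_atTop two_pos)).mul_const B
    rw [zero_mul] at h
    exact ((eventually_gt_atTop 0).and (h.eventually (ge_mem_nhds (by positivity)))).exists
  set ε := δ / (3 * (2 * t * D + 1)) with hε
  have hε0 : 0 < ε := by positivity
  have hε1 : 2 * t * D * ε ≤ δ / 3 := by
    rw [hε, mul_div_assoc', div_le_div_iff₀ (by positivity) (by positivity)]; nlinarith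
  set c := 2 * t * (K * D) * Real.exp (2 * t * (K * D)) with hc
  have hc0 : 0 ≤ c := by positivity
  have hlim : Tendsto (fun m : ℕ => √(t / m)) atTop (𝓝 0) := by
    have := (Real.continuous_sqrt.tendsto 0).comp (tendsto_const_div_atTop_nhds_zero_nat t)
    rwa [Real.sqrt_zero] at this
  have ev : ∀ (f : ℝ → ℝ) (r : ℝ), Continuous f → f 0 < r →
      ∀ᶠ m : ℕ in atTop, f √(t / m) ≤ r := fun f r hf h =>
    ((hf.tendsto 0).comp hlim).eventually (ge_mem_nhds h)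
  obtain ⟨m, hm0, h1, hK, h2, h3⟩ := ((eventually_gt_atTop 0).and
    ((ev id 1 continuous_id one_pos).and ((ev (fun θ => 2 * K * θ ^ 2) 1 (by fun_prop) (by simp)).and
    ((ev (fun θ => 2 * θ ^ 2) 1 (by fun_prop) (by simp)).and
    (ev (fun θ => 2 * t * D * (c * θ / ε + θ)) (δ / 3) (by fun_prop) (by simpa using hδ)))))).exists
  set θ := √(t / m) with hθ
  have h0 : 0 ≤ θ := Real.sqrt_nonneg _
  have hmt : m * θ ^ 2 = t := by
    have : (0 : ℝ) < m := by exact_mod_cast hm0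
    rw [hθ, Real.sq_sqrt (by positivity)]; field_simp
  have hβ : ∀ j ≤ 2 * m, ((EE 𝔪 θ u m s₀ j).L fun s => (bb T K s : ℂ)).re ≤ c * θ := fun j hj => by
    refine (EE_bb 𝔪 hN hD hS h0 h1 hK u m hs j).trans ?_
    have hj' : (j : ℝ) ≤ 2 * m := by exact_mod_cast hj
    have a1 : (1 + K * D * θ ^ 2) ^ j ≤ Real.exp (2 * t * (K * D)) := by
      calc _ ≤ Real.exp (K * D * θ ^ 2) ^ j := by
            gcongr; rw [add_comm]; exact Real.add_one_le_exp _
        _ = Real.exp (j * (K * D * θ ^ 2)) := by rw [Real.exp_nat_mul]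
        _ ≤ Real.exp (2 * m * (K * D * θ ^ 2)) := by gcongr
        _ = _ := by rw [← hmt]; ring_nf
    calc _ ≤ 2 * m * (K * D * θ ^ 3) * Real.exp (2 * t * (K * D)) := by gcongr
      _ = 2 * (m * θ ^ 2) * (K * D) * Real.exp (2 * t * (K * D)) * θ := by ring
      _ = _ := by rw [hmt]
  refine ⟨EE 𝔪 θ u m s₀ (m + m), fun n hn0 hn => ?_⟩
  have key := est 𝔪 hN hC hD hM h0 h1 hK h2 u m s₀ hε0 (by positivity) hβ hn0 hn
  have fin : (1 - 2 * θ ^ 2) ^ m * B + (m + m) * (D * (θ ^ 2 * (ε + c * θ / ε) + θ ^ 3)) ≤ δ := by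
    have a1 : (1 - 2 * θ ^ 2) ^ m ≤ Real.exp (-(2 * t)) := by
      calc _ ≤ Real.exp (-(2 * θ ^ 2)) ^ m := by
            gcongr
            rw [sub_eq_neg_add]; exact Real.add_one_le_exp _
        _ = Real.exp (m * (-(2 * θ ^ 2))) := by rw [Real.exp_nat_mul]
        _ = _ := by rw [← hmt]; ring_nf
    have a2 : (m + m) * (D * (θ ^ 2 * (ε + c * θ / ε) + θ ^ 3)) =
        2 * t * D * ε + 2 * t * D * (c * θ / ε + θ) := by rw [← hmt]; ring
    have a3 : (1 - 2 * θ ^ 2) ^ m * B ≤ Real.exp (-(2 * t)) * B := by gcongr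
    rw [a2]
    linarith
  exact ⟨key.1.trans fin, key.2.trans fin⟩

end CoreX

open CoreX in
theorem core (hE : ExModel.{u}) (hM : StepM.{u}) (hS : StepN.{u}) (hR : Riesz.{u})
    (hN : NuAPI.{u}) (hσ : Sig.{u}) : Core.{u} := by
  intro A _ T hD hH C K hC hK hB
  obtain ⟨Φ, hΦ, ⟨𝔪⟩⟩ := hE A T hD hH C K hC hK hB
  refine ⟨Φ, hΦ, fun u hu x z => ?_⟩
  obtain ⟨R, hR⟩ := hR
  choose DM hDM0 hDM using hM
  choose DN hDN0 hDN using hS
  by_contra hne
  have hd : 0 < ‖Φ (x, z) - Φ (x * star u, u * z)‖ := norm_pos_iff.2 (sub_ne_zero.2 (Ne.symm hne))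
  set d := ‖Φ (x, z) - Φ (x * star u, u * z)‖ with hdd
  obtain ⟨N, c, hL, hc⟩ := hR ((|R * C * ‖x‖ * ‖z‖| + 2) / d)
  obtain ⟨σ, hσu, hσ⟩ := hσ A T hH N
  let D : ℝ := ∑ r ∈ Finset.range (N + 1), (DM r * C * ‖x‖ * ‖z‖ + DN r)
  have hterm : ∀ r, 0 ≤ DM r * C * ‖x‖ * ‖z‖ := fun r => by have := hDM0 r; positivity
  have hle : ∀ r ≤ N, DM r * C * ‖x‖ * ‖z‖ + DN r ≤ D := fun r hr =>
    Finset.single_le_sum (f := fun r => DM r * C * ‖x‖ * ‖z‖ + DN r)
      (fun r _ => add_nonneg (hterm r) (hDN0 r)) (Finset.mem_range.2 (by omega))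
  have hD0 : 0 ≤ D := Finset.sum_nonneg fun r _ => add_nonneg (hterm r) (hDN0 r)
  have h1 : SM 𝔪 x z N D := fun r hr θ hθ G hG X hX η hη h =>
    (hDM r A T C Φ 𝔪 hC θ hθ G hG X hX x z η hη h).trans (by
      gcongr; linarith [hle r hr, hDN0 r])
  have h2 : SN 𝔪 N D := fun r hr θ hθ hθ' G hG X hX η hη h =>
    (hDN r A T C Φ 𝔪 θ hθ hθ' G hG X hX η hη h).trans (by
      have : 0 ≤ nu T X := norm_nonneg _
      gcongr; linarith [hle r hr, hterm r])
  have hs : bb T N ((⟨σ, hσu⟩, 1) : St A) = 0 := Finset.sum_eq_zero fun k hk => by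
    rw [(hN A T).2.2.2.2.2.1 _ (hσ (k + 1) (by omega) (Finset.mem_range.1 hk))]; simp
  set S := ∑ n ∈ Finset.range N, |c n| with hS
  have hS0 : 0 ≤ S := Finset.sum_nonneg fun _ _ => abs_nonneg _
  obtain ⟨μ, hμ⟩ := small 𝔪 hN hC hD0 h1 h2 ⟨u, hu⟩ hs (δ := 1 / (2 * S + 1)) (by positivity)
  simp only [val, OneMemClass.coe_one, star_one, mul_one, one_mul, star_star] at hμ
  have hpt : ∀ s : St A, ‖∑ n ∈ Finset.range N, (c n : ℂ) *
      (val Φ x z (fun s => (s.1 : A) ^ (n + 1)) s -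
        val Φ x z (fun s => star (s.1 : A) ^ (n + 1)) s)‖ ≤ R * C * ‖x‖ * ‖z‖ := fun s => by
    have := hc A T (fun p => Φ (p.1 * star (s.2 : A), (s.2 : A) * p.2)) C hC
      ⟨fun b => ⟨fun a a' => by simp only [add_mul]; exact (𝔪.bil.1 _).1 _ _,
        fun t a => by simp only [smul_mul_assoc]; exact (𝔪.bil.1 _).2 _ _⟩,
       fun a => ⟨fun b b' => by simp only [mul_add]; exact (𝔪.bil.2 _).1 _ _,
        fun t b => by simp only [mul_smul_comm]; exact (𝔪.bil.2 _).2 _ _⟩⟩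
      (fun a b r h => by
        have := 𝔪.l1 (a * star (s.2 : A)) ((s.2 : A) * b) r fun m hm => by
          rw [mul_assoc]
          exact h _ (by rwa [CStarRing.norm_mem_unitary_mul _ (Unitary.star_mem s.2.2)])
        rwa [CStarRing.norm_mem_unitary_mul _ s.2.2] at this) s.1 s.1.2 x z
    simpa only [val, star_pow, star_star, mul_assoc] using this
  have h3 := μ.norm_le hpt
  rw [μ.sum] at h3
  simp only [μ.cmul, μ.sub] at h3
  have h4 : ‖∑ n ∈ Finset.range N, (c n : ℂ) * (Φ (x, z) - Φ (x * star u, u * z)) -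
      ∑ n ∈ Finset.range N, (c n : ℂ) * (μ.L (val Φ x z fun s => (s.1 : A) ^ (n + 1)) -
        μ.L (val Φ x z fun s => star (s.1 : A) ^ (n + 1)))‖ ≤ S * (2 * (1 / (2 * S + 1))) := by
    rw [← Finset.sum_sub_distrib, hS, Finset.sum_mul]
    refine (norm_sum_le _ _).trans (Finset.sum_le_sum fun n hn => ?_)
    rw [← mul_sub, norm_mul, Complex.norm_real, Real.norm_eq_abs]
    gcongr
    obtain ⟨a1, a2⟩ := hμ (n + 1) (by omega) (Finset.mem_range.1 hn)
    rw [norm_sub_rev] at a1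
    refine le_trans (le_of_eq ?_) ((norm_add_le _ _).trans ((add_le_add a1 a2).trans (by linarith)))
    congr 1; ring
  have h5 : S * (2 * (1 / (2 * S + 1))) ≤ 1 := by
    rw [mul_one_div, mul_div_assoc', div_le_one (by positivity)]; linarith
  have h6 : ‖∑ n ∈ Finset.range N, (c n : ℂ) * (Φ (x, z) - Φ (x * star u, u * z))‖ =
      |∑ n ∈ Finset.range N, c n| * d := by
    rw [← Finset.sum_mul, norm_mul, ← Complex.ofReal_sum, Complex.norm_real, Real.norm_eq_abs]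
  have h7 := norm_sub_norm_le (∑ n ∈ Finset.range N, (c n : ℂ) * (Φ (x, z) - Φ (x * star u, u * z)))
    (∑ n ∈ Finset.range N, (c n : ℂ) * (μ.L (val Φ x z fun s => (s.1 : A) ^ (n + 1)) -
        μ.L (val Φ x z fun s => star (s.1 : A) ^ (n + 1))))
  rw [div_le_iff₀ hd] at hL
  have h8 : (∑ n ∈ Finset.range N, c n) * d ≤ |∑ n ∈ Finset.range N, c n| * d := by
    gcongr; exact le_abs_self _
  linarith [le_abs_self (R * C * ‖x‖ * ‖z‖)]

end Crest.Agent.HH
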