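import Crest.Agent.GEN.VN
import Crest.Agent.GEN.Corner
import Crest.Prelude.Def_Hochschild

/-! Interfaces for the vanishing of the bounded Hochschild cohomology of von Neumann algebras. -/

set_option autoImplicit false
open scoped ComplexConjugate InnerProductSpace BigOperators
open Filter Topology

namespace Crest.Agent.HH
open Crest.Agent.GEN

universe u v w

/-! ### Means -/

/-- A mean: a linear functional on all functions which is a state on the bounded ones. -/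
structure Mean (X : Type v) where
  L : (X → ℂ) →ₗ[ℂ] ℂ
  one : L (fun _ => 1) = 1
  le : ∀ (f : X → ℂ) (g : X → ℝ) (B : ℝ), (∀ x, g x ≤ B) → (∀ x, ‖f x‖ ≤ g x) →
    ‖L f‖ ≤ (L fun x => (g x : ℂ)).re

/-! ### Flows on `J → ℂ` -/

def Inv {J : Type v} {G : Type w} (T : G → (J → ℂ) → (J → ℂ)) (K : Set (J → ℂ)) : Prop :=
  K.Nonempty ∧ IsCompact K ∧ Convex ℝ K ∧ ∀ g, Set.MapsTo (T g) K K

def Min {J : Type v} {G : Type w} (T : G → (J → ℂ) → (J → ℂ)) (K : Set (J → ℂ)) : Prop :=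
  Inv T K ∧ ∀ K' ⊆ K, Inv T K' → K' = K

/-- Job F. -/
def ExMin : Prop :=
  ∀ (J G : Type u) (T : G → (J → ℂ) → (J → ℂ)) (K : Set (J → ℂ)), Inv T K → ∃ K' ⊆ K, Min T K'

/-- Job F. -/
def FixC : Prop :=
  ∀ (J G : Type u) (T : G → (J → ℂ) → (J → ℂ)) (K : Set (J → ℂ)) (S : (J → ℂ) → (J → ℂ)),
    Min T K → Continuous S → IsLinearMap ℝ S → Set.MapsTo S K K →
    (∀ g, ∀ ψ ∈ K, S (T g ψ) = T g (S ψ)) → ∀ ψ ∈ K, S ψ = ψ

/-- Job F. -/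
def Bary : Prop :=
  ∀ (J X : Type u) (K : Set (J → ℂ)), IsCompact K → Convex ℝ K → ∀ (m : Mean X) (F : X → J → ℂ),
    (∀ x, F x ∈ K) → (fun j => m.L fun x => F x j) ∈ K

/-- Job F. -/
def Collapse : Prop :=
  ∀ (J G : Type u) (σ : G → J → J) (K : Set (J → ℂ)), Nonempty G →
    (∀ g h, ∃ k, ∀ j, σ k j = σ h (σ g j)) → Min (fun g ψ => ψ ∘ σ g) K →
    ∃ Φ ∈ K, ∃ s : Mean G, ∀ ψ ∈ K, ∀ j, s.L (fun g => ψ (σ g j)) = Φ j

/-! ### Cochains on lists -/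

section cochain
variable {A : Type u} [CStarAlgebra A]

/-- The Hochschild differential without its first term. -/
def del : (List A → A) → List A → A
  | _, [] => 0
  | φ, [x] => -(φ [] * x)
  | φ, x :: y :: r => -φ (x * y :: r) - del (fun l => φ (x :: l)) (y :: r)

/-- The first term of the Hochschild differential. -/
def lam (φ : List A → A) : List A → A
  | [] => 0
  | x :: r => x * φ r

def dd (φ : List A → A) (l : List A) : A := lam φ l + del φ l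

def Lin (n : ℕ) (φ : List A → A) : Prop :=
  ∀ p q : List A, p.length + q.length + 1 = n → IsLinearMap ℂ fun x => φ (p ++ x :: q)

/-- Product of the norms. -/
noncomputable def np (l : List A) : ℝ := (l.map fun x => ‖x‖).prod

def Bd (n : ℕ) (C : ℝ) (φ : List A → A) : Prop := ∀ l : List A, l.length = n → ‖φ l‖ ≤ C * np l

/-- `φ` is an `n`-cocycle. -/
def Coc (n : ℕ) (φ : List A → A) : Prop := ∀ l : List A, l.length = n + 1 → dd φ l = 0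

/-- `φ` is the coboundary of a bounded `n`-cochain. -/
def Cob (n : ℕ) (φ : List A → A) : Prop :=
  ∃ (g : List A → A) (C : ℝ), Lin n g ∧ Bd n C g ∧ ∀ l : List A, l.length = n + 1 → dd g l = φ l

/-! ### Algebraic notions -/

def Cen (z : A) : Prop := ∀ x, z * x = x * z

/-- Central projection. -/
def CP (c : A) : Prop := IsStarProjection c ∧ Cen c

/-- Partial isometry. -/
def PI (v : A) : Prop := v * star v * v = v

/-- `c` is properly infinite (or zero). -/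
def PIP (c : A) : Prop := ∃ s : ℕ → A, ∀ i j, star (s i) * s j = if i = j then c else 0

/-- All projections under `c` are finite. -/
def FinP (c : A) : Prop :=
  ∀ v : A, PI v → c * v = v → star v * v * v = v → v * star v = star v * v

/-- Projections under `c` can be halved. -/
def Halv (c : A) : Prop :=
  ∀ p : A, IsStarProjection p → c * p = p →
    ∃ v : A, PI v ∧ v * v = 0 ∧ star v * v + v * star v = p

/-- Norm Dixmier property. -/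
def DixN (A : Type u) [CStarAlgebra A] : Prop :=
  ∀ (F : Finset A) (ε : ℝ), 0 < ε → ∃ (ι : Type) (_ : Fintype ι) (_ : Nonempty ι) (w : ι → A),
    (∀ k, w k ∈ unitary A) ∧
    ∀ x ∈ F, ∃ z, Cen z ∧ ‖(Fintype.card ι : ℂ)⁻¹ • ∑ k, w k * x * star (w k) - z‖ ≤ ε

/-- Bilinear forms. -/
def Bil (Φ : A × A → ℂ) : Prop :=
  (∀ b, IsLinearMap ℂ fun a => Φ (a, b)) ∧ ∀ a, IsLinearMap ℂ fun b => Φ (a, b)

/-- `|Φ (a, b)| ≤ C ‖a‖₁ ‖b‖`. -/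
def L1B (T : Tr A) (Φ : A × A → ℂ) (C : ℝ) : Prop :=
  ∀ (a b : A) (r : ℝ), (∀ m : A, ‖m‖ ≤ 1 → ‖T.τ (a * m)‖ ≤ r) → ‖Φ (a, b)‖ ≤ C * r * ‖b‖

/-- The closure in `L²` of the centre. -/
noncomputable def ZS (T : Tr A) : Submodule ℂ (UniformSpace.Completion T.L) :=
  (Submodule.span ℂ {v | ∃ z : A, Cen z ∧ v = ((T.toL z : T.L) : UniformSpace.Completion T.L)}
    ).topologicalClosure

instance (T : Tr A) : CompleteSpace (ZS T) :=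
  (Submodule.isClosed_topologicalClosure _).completeSpace_coe

/-- The central part in `L²`. -/
noncomputable def piZ (T : Tr A) (a : A) : UniformSpace.Completion T.L :=
  (ZS T).starProjection ((T.toL a : T.L) : UniformSpace.Completion T.L)

noncomputable def nu (T : Tr A) (a : A) : ℝ := ‖piZ T a‖

/-- The four phases. -/
noncomputable def ph (k : Fin 4) : ℂ := Complex.I ^ (k : ℕ)

/-- The small unitary step. -/
noncomputable def eu (θ : ℝ) (k : Fin 4) (l : A) : A :=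
  NormedSpace.exp ((Complex.I * θ) • (ph k • l + conj (ph k) • star l))

/-- Ordered product `F 0 * F 1 * ⋯ * F (r - 1)`. -/
def ordp (F : ℕ → A) : ℕ → A
  | 0 => 1
  | r + 1 => ordp F r * F r

/-- `G l G⋆`. -/
def cj (G l : A) : A := G * l * star G

/-- The random model. -/
structure Model (T : Tr A) (C : ℝ) (Φ : A × A → ℂ) where
  bil : Bil Φ
  l1 : L1B T Φ C
  bal : ∀ z a b : A, Cen z → Φ (a * z, b) = Φ (a, z * b)
  m : Mean (unitary A × unitary A)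
  m0 : ∀ p q : A, m.L (fun ω => Φ (p * star (ω.2 : A), (ω.2 : A) * q)) = Φ (p, q)
  d1 : ∀ p q a : A, a ∈ unitary A → m.L (fun ω =>
    Φ (p * (ω.1 : A) * star a * star (ω.2 : A), (ω.2 : A) * a * star (ω.1 : A) * q)) = Φ (p, q)
  d2 : ∀ p q a : A, a ∈ unitary A → m.L (fun ω =>
    Φ (p * star (ω.1 : A) * star a * star (ω.2 : A), (ω.2 : A) * a * (ω.1 : A) * q)) = Φ (p, q)
  c1 : ∀ p q a b : A, a ∈ unitary A → b ∈ unitary A → ‖m.L (fun ω =>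
    Φ (p * (ω.1 : A) * a * star (ω.2 : A), (ω.2 : A) * b * star (ω.1 : A) * q))‖ ≤
      6 * C * ‖p‖ * ‖q‖ * nu T (a * b)
  c2 : ∀ p q a b : A, a ∈ unitary A → b ∈ unitary A → ‖m.L (fun ω =>
    Φ (p * star (ω.1 : A) * a * star (ω.2 : A), (ω.2 : A) * b * (ω.1 : A) * q))‖ ≤
      6 * C * ‖p‖ * ‖q‖ * nu T (a * b)
  e1 : ∀ (Λ : unitary A → A → ℂ) (B B' : ℝ) (V : A), 0 ≤ B → (∀ k, IsLinearMap ℂ (Λ k)) →
    (∀ k y, ‖Λ k y‖ ≤ B' * ‖y‖) → (∀ k z, Cen z → ‖Λ k z‖ ≤ B * T.n2 z) →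
    ‖m.L (fun ω => Λ ω.2 ((ω.1 : A) * V * star (ω.1 : A)))‖ ≤ B * nu T V
  e2 : ∀ (Λ : unitary A → A → ℂ) (B B' : ℝ) (V : A), 0 ≤ B → (∀ k, IsLinearMap ℂ (Λ k)) →
    (∀ k y, ‖Λ k y‖ ≤ B' * ‖y‖) → (∀ k z, Cen z → ‖Λ k z‖ ≤ B * T.n2 z) →
    ‖m.L (fun ω => Λ ω.2 (star (ω.1 : A) * V * (ω.1 : A)))‖ ≤ B * nu T V
  n1 : ∀ Y : A, m.L (fun ω => ((nu T ((ω.1 : A) * Y) ^ 2 : ℝ) : ℂ)) = 0
  n2 : ∀ Y : A, m.L (fun ω => ((nu T (star (ω.1 : A) * Y) ^ 2 : ℝ) : ℂ)) = 0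

end cochain

/-! ### The finite core -/

/-- Job N: the central part. -/
def NuAPI : Prop :=
  ∀ (A : Type u) [CStarAlgebra A] (T : Tr A),
    IsLinearMap ℂ (piZ T) ∧ (∀ a b, piZ T (a * b) = piZ T (b * a)) ∧ (∀ a, nu T a ≤ T.n2 a) ∧
    (∀ z, Cen z → nu T z = T.n2 z) ∧ (∀ a, nu T (star a) = nu T a) ∧
    (∀ a, (∀ z, Cen z → T.τ (z * a) = 0) → nu T a = 0) ∧
    (∀ (N : ℕ) (σ : Fin N → A) (Y : A), (∀ b, σ b ∈ unitary A) →
      (∀ b b', b ≠ b' → nu T (σ b * star (σ b')) = 0) →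
      ∑ b, nu T (σ b * Y) ^ 2 ≤ ‖Y‖ ^ 2) ∧
    (∀ S : Submodule ℂ A, (∀ u ∈ unitary A, Cen u → u ∈ S) → ∀ z, Cen z → z ∈ S)

/-- Job N: free-looking unitaries from halving. -/
def Sig : Prop :=
  ∀ (A : Type u) [CStarAlgebra A] (T : Tr A), Halv (1 : A) → ∀ N : ℕ,
    ∃ σ ∈ unitary A, ∀ k : ℕ, 0 < k → k ≤ N → ∀ z, Cen z → T.τ (z * σ ^ k) = 0

/-- Job B: structure of forms that are constant on `(u⋆, u)`. -/
def BStruct : Prop :=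
  ∀ (A : Type u) [CStarAlgebra A] (T : Tr A) (v : A), v * v = 0 → star v * v + v * star v = 1 →
    ∀ (B : A × A → ℂ) (C : ℝ) (κ : ℂ), 0 ≤ C → Bil B → (∀ a b, ‖B (a, b)‖ ≤ C * T.n2 a * ‖b‖) →
    (∀ u ∈ unitary A, B (star u, u) = κ) →
    ∃ f g : A →ₗ[ℂ] ℂ, (∀ y, ‖f y‖ ≤ 3 * C * T.n2 y) ∧ (∀ y, ‖g y‖ ≤ 3 * C * T.n2 y) ∧
      ∀ a ∈ unitary A, ∀ b ∈ unitary A, B (a, b) = f (a * b) + g (b * a)

/-- Job R: unboundedness of the Riesz projection. -/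
def Riesz : Prop :=
  ∃ R : ℝ, ∀ L : ℝ, ∃ (K : ℕ) (c : ℕ → ℝ), L ≤ ∑ n ∈ Finset.range K, c n ∧
    ∀ (A : Type u) [CStarAlgebra A] (T : Tr A) (Φ : A × A → ℂ) (C : ℝ), 0 ≤ C → Bil Φ →
      L1B T Φ C → ∀ w ∈ unitary A, ∀ x z : A,
      ‖∑ n ∈ Finset.range K, (c n : ℂ) * (Φ (x * w ^ (n + 1), star w ^ (n + 1) * z) -
        Φ (x * star w ^ (n + 1), w ^ (n + 1) * z))‖ ≤ R * C * ‖x‖ * ‖z‖

/-- Job R: second order expansion. -/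
def Expand : Prop :=
  ∀ r : ℕ, ∃ D : ℝ, 0 ≤ D ∧ ∀ (A : Type u) [CStarAlgebra A] (Γ : A × A → ℂ) (C : ℝ), 0 ≤ C →
    Bil Γ → (∀ a b, ‖Γ (a, b)‖ ≤ C * ‖a‖ * ‖b‖) → ∀ (θ : ℝ), |θ| ≤ 1 → ∀ l ∈ unitary A,
    ∀ G : ℕ → A, (∀ s, G s ∈ unitary A) →
    ‖(4 : ℂ)⁻¹ * ∑ k : Fin 4, Γ (ordp (fun s => cj (G s) (eu θ k l)) r,
        star (ordp (fun s => cj (G s) (eu θ k l)) r)) -
      ((1 - 2 * r * θ ^ 2) * Γ (1, 1) +
        θ ^ 2 * ∑ s ∈ Finset.range r, ∑ t ∈ Finset.range r,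
          (Γ (cj (G s) l, cj (G t) (star l)) + Γ (cj (G s) (star l), cj (G t) l)) -
        θ ^ 2 * ∑ t ∈ Finset.range r, ∑ s ∈ Finset.range t,
          (Γ (cj (G s) l * cj (G t) (star l), 1) + Γ (cj (G s) (star l) * cj (G t) l, 1) +
            Γ (1, cj (G t) l * cj (G s) (star l)) + Γ (1, cj (G t) (star l) * cj (G s) l)))‖ ≤
      D * C * |θ| ^ 3

/-- Job M: existence of the random model. -/
def ExModel : Prop :=
  ∀ (A : Type u) [CStarAlgebra A] (T : Tr A), DixN A → Halv (1 : A) →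
    ∀ (C : ℝ) (K : Set (A × A → ℂ)), 0 ≤ C →
    Inv (fun (u : unitary A) (Φ : A × A → ℂ) =>
      Φ ∘ fun p => (p.1 * star (u : A), (u : A) * p.2)) K →
    (∀ Φ ∈ K, Bil Φ ∧ L1B T Φ C) → ∃ Φ ∈ K, Nonempty (Model T C Φ)

/-- Job S: one step for the form. -/
def StepM : Prop :=
  ∀ r : ℕ, ∃ D : ℝ, 0 ≤ D ∧ ∀ (A : Type u) [CStarAlgebra A] (T : Tr A) (C : ℝ) (Φ : A × A → ℂ)
    (𝔪 : Model T C Φ), 0 ≤ C → ∀ (θ : ℝ), |θ| ≤ 1 → ∀ G : ℕ → A, (∀ s, G s ∈ unitary A) →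
    ∀ X ∈ unitary A, ∀ (x z : A) (η : ℝ), 0 ≤ η →
    (∀ s < r, ∀ t < r, s ≠ t → nu T (star (G s) * G t) ≤ η) →
    ‖𝔪.m.L (fun ω => (4 : ℂ)⁻¹ * ∑ k : Fin 4,
        Φ (x * ordp (fun s => cj (G s) (eu θ k ω.1)) r * X * star (ω.2 : A),
          (ω.2 : A) * star X * star (ordp (fun s => cj (G s) (eu θ k ω.1)) r) * z)) -
      ((1 - 2 * r * θ ^ 2) * Φ (x * X, star X * z) +
        2 * θ ^ 2 * ∑ s ∈ Finset.range r, Φ (x * G s, star (G s) * z))‖ ≤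
      D * C * ‖x‖ * ‖z‖ * (θ ^ 2 * η + |θ| ^ 3)

/-- Job S: one step for the central part. -/
def StepN : Prop :=
  ∀ r : ℕ, ∃ D : ℝ, 0 ≤ D ∧ ∀ (A : Type u) [CStarAlgebra A] (T : Tr A) (C : ℝ) (Φ : A × A → ℂ)
    (𝔪 : Model T C Φ), ∀ (θ : ℝ), |θ| ≤ 1 → 2 * r * θ ^ 2 ≤ 1 → ∀ G : ℕ → A,
    (∀ s, G s ∈ unitary A) → ∀ X ∈ unitary A, ∀ η : ℝ, 0 ≤ η →
    (∀ s < r, ∀ t < r, s ≠ t → nu T (star (G s) * G t) ≤ η) →
    (𝔪.m.L (fun ω => (4 : ℂ)⁻¹ * ∑ k : Fin 4,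
        ((nu T (ordp (fun s => cj (G s) (eu θ k ω.1)) r * X) ^ 2 : ℝ) : ℂ))).re ≤
      nu T X ^ 2 + D * (θ ^ 2 * (nu T X * η) + |θ| ^ 3)

/-- The core fixed point theorem (job I, lead). -/
def Core : Prop :=
  ∀ (A : Type u) [CStarAlgebra A] (T : Tr A), DixN A → Halv (1 : A) →
    ∀ (C : ℝ) (K : Set (A × A → ℂ)), 0 ≤ C →
    Inv (fun (u : unitary A) (Φ : A × A → ℂ) =>
      Φ ∘ fun p => (p.1 * star (u : A), (u : A) * p.2)) K →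
    (∀ Φ ∈ K, Bil Φ ∧ L1B T Φ C) →
    ∃ Φ ∈ K, ∀ u ∈ unitary A, ∀ a b : A, Φ (a * star u, u * b) = Φ (a, b)

/-! ### Von Neumann algebras -/

section vn
variable {H : Type u} [NormedAddCommGroup H] [InnerProductSpace ℂ H] [CompleteSpace H]

/-- The von Neumann algebra as a type. -/
abbrev Al (M : VonNeumannAlgebra H) : Type u := M.toStarSubalgebra

variable {M : VonNeumannAlgebra H}

/-- Application to a vector. -/
abbrev ap (a : Al M) (ξ : H) : H := (a : H →L[ℂ] H) ξ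

/-- Weak operator convergence. -/
def WL {I : Type v} (𝓕 : Filter I) (x : I → Al M) (a : Al M) : Prop :=
  ∀ η ξ : H, Tendsto (fun i => ⟪η, ap (x i) ξ⟫_ℂ) 𝓕 (𝓝 ⟪η, ap a ξ⟫_ℂ)

/-- Strong operator convergence. -/
def SL {I : Type v} (𝓕 : Filter I) (x : I → Al M) (a : Al M) : Prop :=
  ∀ ξ : H, Tendsto (fun i => ap (x i) ξ) 𝓕 (𝓝 (ap a ξ))

/-- Matrix coefficients of a family of maps. -/
noncomputable def emb {ι : Type u} (ψ : ι → Al M → Al M) : ι × Al M × H × H → ℂ :=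
  fun j => ⟪j.2.2.1, ap (ψ j.1 j.2.1) j.2.2.2⟫_ℂ

/-- Closed under pointwise weak limits. -/
def WCl {ι : Type u} (𝒦 : Set (ι → Al M → Al M)) : Prop :=
  ∀ (𝓕 : Filter (ι → Al M → Al M)), 𝓕.NeBot → 𝒦 ∈ 𝓕 → ∀ ψ : ι → Al M → Al M,
    (∀ i a, WL 𝓕 (fun φ => φ i a) (ψ i a)) → ψ ∈ 𝒦

/-- The rectangular operator matrix `x` has norm at most `c`. -/
def RC {α β : Type} [Fintype α] [Fintype β] (x : α → β → Al M) (c : ℝ) : Prop :=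
  ∀ ξ : β → H, ∑ a, ‖∑ b, ap (x a b) (ξ b)‖ ^ 2 ≤ c ^ 2 * ∑ b, ‖ξ b‖ ^ 2

/-- Bounded on matrices of size at most `k`. -/
def CBk (k : ℕ) (ψ : Al M → Al M) (C : ℝ) : Prop :=
  ∀ (α β : Type) [Fintype α] [Fintype β], Fintype.card α ≤ k → Fintype.card β ≤ k →
    ∀ x : α → β → Al M, RC x 1 → RC (fun a b => ψ (x a b)) C

/-- Evaluation of a formal combination. -/
noncomputable def ev (ψ : Al M → Al M) (ζ : (Al M × H) →₀ ℝ) : H :=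
  ζ.sum fun p t => t • ap (ψ p.1) p.2

/-- Left multiplication on formal combinations. -/
noncomputable def act (m : Al M) (ζ : (Al M × H) →₀ ℝ) : (Al M × H) →₀ ℝ :=
  ζ.mapDomain fun p => (m * p.1, p.2)

end vn

/-- A statement about all von Neumann algebras. -/
def AllVN (P : ∀ (H : Type u) [NormedAddCommGroup H] [InnerProductSpace ℂ H] [CompleteSpace H],
    VonNeumannAlgebra H → Prop) : Prop :=
  ∀ (H : Type u) [NormedAddCommGroup H] [InnerProductSpace ℂ H] [CompleteSpace H]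
    (M : VonNeumannAlgebra H), P H M

/-- Job V0: range projection. -/
def RPj : Prop := AllVN.{u} fun _ _ _ _ M =>
  ∀ x : Al M, ∃ e : Al M, IsStarProjection e ∧ e * x = x ∧ ∀ y : Al M, y * x = 0 → y * e = 0

/-- Job V0: spectral projections. -/
def SpecP : Prop := AllVN.{u} fun H _ _ _ M =>
  ∀ (h : Al M) (t : ℝ), star h = h → ∃ e : Al M, IsStarProjection e ∧
    (∀ y : Al M, y * h = h * y → y * e = e * y) ∧
    (∀ ξ : H, ap e ξ = ξ → t * ‖ξ‖ ^ 2 ≤ (⟪ξ, ap h ξ⟫_ℂ).re) ∧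
    (∀ ξ : H, ap e ξ = 0 → (⟪ξ, ap h ξ⟫_ℂ).re ≤ t * ‖ξ‖ ^ 2)

/-- Job V0: polar decomposition. -/
def Polar : Prop := AllVN.{u} fun _ _ _ _ M =>
  ∀ x : Al M, ∃ v g : Al M, PI v ∧ star g = g ∧ x = v * (g * g) ∧ star v * x = g * g ∧
    (∀ y : Al M, y * x = 0 → y * v = 0) ∧ ∀ y : Al M, x * y = 0 → v * y = 0

/-- Job V0: central support. -/
def CSupp : Prop := AllVN.{u} fun _ _ _ _ M =>
  ∀ x : Al M, ∃ z : Al M, CP z ∧ z * x = x ∧ ∀ y : Al M, (∀ m, y * m * x = 0) → y * z = 0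

/-- Job V0: increasing families of partial isometries converge. -/
def MonoLim : Prop := AllVN.{u} fun _ _ _ _ M =>
  ∀ (I : Type u) [Preorder I] [IsDirectedOrder I] [Nonempty I] (w : I → Al M), (∀ i, PI (w i)) →
    (∀ i j, i ≤ j → w j * (star (w i) * w i) = w i) →
    ∃ v : Al M, PI v ∧ SL atTop w v ∧ SL atTop (fun i => star (w i)) (star v) ∧
      ∀ i, v * (star (w i) * w i) = w i

/-- Job V0: sums of orthogonal sequences of partial isometries. -/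
def SumPI : Prop := AllVN.{u} fun _ _ _ _ M =>
  ∀ w : ℕ → Al M, (∀ i, PI (w i)) → (∀ i j, i ≠ j → star (w i) * w j = 0) →
    (∀ i j, i ≠ j → w i * star (w j) = 0) →
    ∃ v : Al M, PI v ∧ SL atTop (fun n => ∑ i ∈ Finset.range n, w i) v ∧
      SL atTop (fun n => ∑ i ∈ Finset.range n, star (w i)) (star v)

/-- Job V0: maximal tuples of partial isometries. -/
def MaxPI : Prop := AllVN.{u} fun _ _ _ _ M =>
  ∀ (k : ℕ) (𝒮 : Set (Fin k → Al M)), (∀ w ∈ 𝒮, ∀ i, PI (w i)) → 𝒮.Nonempty →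
    (∀ 𝓕 : Filter (Fin k → Al M), 𝓕.NeBot → 𝒮 ∈ 𝓕 → ∀ v : Fin k → Al M,
      (∀ i, PI (v i) ∧ SL 𝓕 (fun w => w i) (v i) ∧ SL 𝓕 (fun w => star (w i)) (star (v i))) →
      v ∈ 𝒮) →
    ∃ v ∈ 𝒮, ∀ w ∈ 𝒮, (∀ i, w i * (star (v i) * v i) = v i) → w = v

/-- Job V1: comparison. -/
def Cmp : Prop := AllVN.{u} fun _ _ _ _ M =>
  ∀ p q : Al M, IsStarProjection p → IsStarProjection q → ∃ z v w : Al M, CP z ∧
    star v * v = z * p ∧ q * v = v ∧ star w * w = (1 - z) * q ∧ p * w = w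

/-- Job V1: splitting into properly infinite and finite parts. -/
def Split : Prop := AllVN.{u} fun _ _ _ _ M => ∃ c : Al M, CP c ∧ PIP c ∧ FinP (1 - c)

/-- Job V2: Dixmier approximation. -/
def DixThmN : Prop := AllVN.{u} fun _ _ _ _ M => DixN (Al M)

/-- Job V2: covering a central projection by finitely many copies of parts of `p`. -/
def Cover : Prop := AllVN.{u} fun _ _ _ _ M =>
  ∀ c₀ p : Al M, CP c₀ → FinP c₀ → IsStarProjection p → p ≠ 0 → c₀ * p = p →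
    ∃ (c : Al M) (k : ℕ) (v : Fin k → Al M), CP c ∧ c ≠ 0 ∧ c₀ * c = c ∧
      (∀ i, PI (v i) ∧ v i * p = v i) ∧ (∀ i j, i ≠ j → star (v i) * v j = 0) ∧
      ∑ i, v i * star (v i) = c

/-- Job V3: type I pieces or halving. -/
def Dich : Prop := AllVN.{u} fun _ _ _ _ M =>
  ∀ c₀ : Al M, CP c₀ → FinP c₀ → Halv c₀ ∨
    ∃ (c : Al M) (k : ℕ) (e : Fin k → Fin k → Al M), CP c ∧ c ≠ 0 ∧ c₀ * c = c ∧
      (∀ i j, star (e i j) = e j i) ∧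
      (∀ i j i' j', e i j * e i' j' = if j = i' then e i j' else 0) ∧ ∑ i, e i i = c ∧
      ∀ x : Al M, ∃ z : Fin k → Fin k → Al M, (∀ i j, Cen (z i j)) ∧
        c * x = ∑ i, ∑ j, z i j * e i j

/-- Job T1: approximate traces. -/
def AppTr : Prop := AllVN.{u} fun H _ _ _ M =>
  ∀ c₀ : Al M, CP c₀ → FinP c₀ → c₀ ≠ 0 → ∀ δ : ℝ, 0 < δ →
    ∃ (c : Al M) (r : ℕ) (ξ : Fin r → H), CP c ∧ c₀ * c = c ∧ (∀ i, ap c (ξ i) = ξ i) ∧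
      ∑ i, ‖ξ i‖ ^ 2 = 1 ∧
      (∀ x : Al M, ∑ i, ‖ap x (ξ i)‖ ^ 2 ≤ (1 + δ) * ∑ i, ‖ap (star x) (ξ i)‖ ^ 2) ∧
      ∀ x : Al M, (∀ i, ap x (ξ i) = 0) → c * x = 0

/-- Job T2: normal traces. -/
def TraceThm : Prop := AllVN.{u} fun H _ _ _ M =>
  ∀ c₀ : Al M, CP c₀ → FinP c₀ → c₀ ≠ 0 →
    ∃ (c : Al M) (T : Tr (Al M)) (r : ℕ) (η ξ : Fin r → H), CP c ∧ c₀ * c = c ∧ T.τ c = 1 ∧
      (∀ x : Al M, T.τ x = ∑ i, ⟪η i, ap x (ξ i)⟫_ℂ) ∧ ∀ x : Al M, T.n2 x = 0 → c * x = 0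

/-- Job C1: factorisation of completely bounded maps. -/
def Fact : Prop := AllVN.{u} fun H _ _ _ M =>
  ∀ (ψ : Al M → Al M) (C : ℝ), 0 ≤ C → IsLinearMap ℂ ψ → (∀ k, CBk k ψ C) →
    ∃ β : ((Al M × H) →₀ ℝ) →ₗ[ℝ] ((Al M × H) →₀ ℝ) →ₗ[ℝ] ℝ,
      (∀ ζ ζ', β ζ ζ' = β ζ' ζ) ∧ (∀ ζ, 0 ≤ β ζ ζ) ∧
      (∀ a ξ, β (Finsupp.single (a, ξ) 1) (Finsupp.single (a, ξ) 1) ≤ ‖a‖ ^ 2 * ‖ξ‖ ^ 2) ∧
      (∀ (k : ℕ) (m : Fin k → Al M), ∑ j, star (m j) * m j = 1 →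
        ∀ ζ, ∑ j, β (act (m j) ζ) (act (m j) ζ) = β ζ ζ) ∧
      ∀ ζ, ‖ev ψ ζ‖ ^ 2 ≤ C ^ 2 * β ζ ζ

/-- Job C2: module maps from a completely bounded member. -/
def FixCB : Prop := AllVN.{u} fun _ _ _ _ M =>
  ∀ (ι : Type u) (C : ι → ℝ) (𝒦 : Set (ι → Al M → Al M)), Convex ℝ 𝒦 → WCl 𝒦 →
    (∀ ψ ∈ 𝒦, ∀ i, IsLinearMap ℂ (ψ i)) →
    (∀ ψ ∈ 𝒦, ∀ (k : ℕ) (m : Fin k → Al M), ∑ j, star (m j) * m j = 1 →
      (fun i a => ∑ j, star (m j) * ψ i (m j * a)) ∈ 𝒦) →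
    (∀ i, 0 ≤ C i) → (∃ ψ ∈ 𝒦, ∀ i k, CBk k (ψ i) (C i)) →
    ∃ ψ ∈ 𝒦, ∀ i, (∀ a, ‖ψ i a‖ ≤ C i * ‖a‖) ∧ ∀ m a, ψ i (m * a) = m * ψ i a

/-- Job P: the prism homotopy. -/
def Prism : Prop := AllVN.{u} fun _ _ _ _ M =>
  ∀ c : Al M, CP c → PIP c → ∀ (n : ℕ) (φ : List (Al M) → Al M) (C : ℝ), 0 ≤ C →
    Lin (n + 1) φ → Bd (n + 1) C φ → Coc (n + 1) φ → (∀ l, c * φ l = φ l) → ∀ k : ℕ,
    ∃ g : List (Al M) → Al M, Lin n g ∧ Bd n ((n + 1) * C) g ∧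
      ∀ l : List (Al M), l.length = n →
        CBk k (fun x => φ (x :: l) + dd g (x :: l)) (C * np l)

/-- Job X: module maps in the finite case. -/
def FixFin : Prop := AllVN.{u} fun _ _ _ _ M =>
  ∀ z : Al M, CP z → FinP z →
  ∀ (ι : Type u) (C : ι → ℝ) (𝒦 : Set (ι → Al M → Al M)), 𝒦.Nonempty → Convex ℝ 𝒦 → WCl 𝒦 →
    (∀ i, 0 ≤ C i) →
    (∀ ψ ∈ 𝒦, ∀ i, IsLinearMap ℂ (ψ i) ∧ ∀ a, ‖ψ i a‖ ≤ C i * ‖a‖ ∧ z * ψ i a = ψ i a) →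
    (∀ ψ ∈ 𝒦, ∀ u ∈ unitary (Al M), (fun i a => star u * ψ i (u * a)) ∈ 𝒦) →
    ∃ ψ ∈ 𝒦, ∀ i m a, ψ i (m * a) = m * ψ i a

/-- Job L: the theorem for list cochains. -/
def ListThm : Prop := AllVN.{u} fun _ _ _ _ M =>
  ∀ (n : ℕ) (φ : List (Al M) → Al M) (C : ℝ), 0 ≤ C →
    Lin (n + 1) φ → Bd (n + 1) C φ → Coc (n + 1) φ → Cob n φ

end Crest.Agent.HH
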