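import Crest.Agent.HH.Defs
import Crest.Agent.GEN.Exp

/-! Second order expansion of products of small unitary steps. -/

set_option autoImplicit false
open scoped ComplexConjugate BigOperators
open Filter Topology

namespace Crest.Agent.HH
open Crest.Agent.GEN

universe u

namespace ExpX
variable {A : Type u} [CStarAlgebra A]

/-- First order part. -/
def S1 (y : ℕ → A) (r : ℕ) : A := ∑ s ∈ Finset.range r, y s

/-- Second order part. -/
noncomputable def S2 (y : ℕ → A) (r : ℕ) : A :=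
  ∑ s ∈ Finset.range r, (2⁻¹ : ℂ) • (y s * y s) +
    ∑ t ∈ Finset.range r, ∑ s ∈ Finset.range t, y s * y t

lemma S1_succ (y : ℕ → A) (r : ℕ) : S1 y (r + 1) = S1 y r + y r := Finset.sum_range_succ _ _

lemma S2_succ (y : ℕ → A) (r : ℕ) :
    S2 y (r + 1) = S2 y r + (2⁻¹ : ℂ) • (y r * y r) + S1 y r * y r := by
  simp only [S2, S1, Finset.sum_range_succ, Finset.sum_mul]; abel

lemma half_le {y : A} {δ : ℝ} (hy : ‖y‖ ≤ δ) : ‖(2⁻¹ : ℂ) • (y * y)‖ ≤ δ ^ 2 := by
  rw [norm_smul, norm_inv, Complex.norm_ofNat]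
  have := norm_mul_le y y
  nlinarith [norm_nonneg y, norm_nonneg (y * y)]

lemma S1_le {y : ℕ → A} {δ : ℝ} (hy : ∀ s, ‖y s‖ ≤ δ) (r : ℕ) : ‖S1 y r‖ ≤ r * δ :=
  (norm_sum_le _ _).trans ((Finset.sum_le_card_nsmul _ _ δ fun s _ => hy s).trans (by simp))

lemma S2_le {y : ℕ → A} {δ : ℝ} (hy : ∀ s, ‖y s‖ ≤ δ) (r : ℕ) : ‖S2 y r‖ ≤ r ^ 2 * δ ^ 2 := by
  have h0 : 0 ≤ δ := (norm_nonneg _).trans (hy 0)
  induction r with
  | zero => simp [S2]
  | succ r ih =>
    rw [S2_succ]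
    have h1 := half_le (hy r)
    have h2 : ‖S1 y r * y r‖ ≤ r * δ * δ :=
      (norm_mul_le _ _).trans (by gcongr; exacts [S1_le hy r, hy r])
    have h3 : 0 ≤ r * δ ^ 2 := by positivity
    push_cast
    nlinarith [norm_add_le (S2 y r + (2⁻¹ : ℂ) • (y r * y r)) (S1 y r * y r),
      norm_add_le (S2 y r) ((2⁻¹ : ℂ) • (y r * y r))]

lemma ordp_unitary {F : ℕ → A} (hF : ∀ s, F s ∈ unitary A) (r : ℕ) : ordp F r ∈ unitary A := by
  induction r with
  | zero => exact one_mem _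
  | succ r ih => exact mul_mem ih (hF r)

lemma prod_est (c : ℝ) (hc : 0 ≤ c) (r : ℕ) : ∃ D : ℝ, 0 ≤ D ∧
    ∀ (A : Type u) [CStarAlgebra A] (F y : ℕ → A) (δ : ℝ), δ ≤ 2 → (∀ s, F s ∈ unitary A) →
      (∀ s, ‖y s‖ ≤ δ) → (∀ s, ‖F s - (1 + y s + (2⁻¹ : ℂ) • (y s * y s))‖ ≤ c * δ ^ 3) →
      ‖ordp F r - (1 + S1 y r + S2 y r)‖ ≤ D * δ ^ 3 := by
  induction r with
  | zero => exact ⟨0, le_rfl, fun A _ F y δ _ _ _ _ => by simp [ordp, S1, S2]⟩
  | succ r ih =>
    obtain ⟨D, hD0, hD⟩ := ih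
    refine ⟨c + 7 * D + r + 3 * r ^ 2, by positivity, fun A _ F y δ h2 hF hy he => ?_⟩
    have h0 : 0 ≤ δ := (norm_nonneg _).trans (hy 0)
    have e1 := hD A F y δ h2 hF hy he
    rw [ordp, S1_succ, S2_succ]
    set R := ordp F r
    set q := (2⁻¹ : ℂ) • (y r * y r) with hq
    set e := R - (1 + S1 y r + S2 y r) with hee
    have hR : R ∈ unitary A := ordp_unitary hF r
    rw [show R * F r - (1 + (S1 y r + y r) + (S2 y r + q + S1 y r * y r)) =
      R * (F r - (1 + y r + q)) + (e + e * y r + e * q) + (S1 y r * q + S2 y r * y r + S2 y r * q) by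
        rw [hee]; noncomm_ring]
    have a1 : ‖R * (F r - (1 + y r + q))‖ ≤ c * δ ^ 3 := by
      rw [CStarRing.norm_mem_unitary_mul _ hR]; exact he r
    have hq2 : ‖q‖ ≤ δ ^ 2 := half_le (hy r)
    have hq4 : ‖q‖ ≤ 4 := by nlinarith
    have a2 : ‖e * y r‖ ≤ D * δ ^ 3 * 2 :=
      (norm_mul_le _ _).trans (by gcongr; exact (hy r).trans h2)
    have a3 : ‖e * q‖ ≤ D * δ ^ 3 * 4 := (norm_mul_le _ _).trans (by gcongr)
    have a4 : ‖S1 y r * q‖ ≤ r * δ * δ ^ 2 := (norm_mul_le _ _).trans (by gcongr; exact S1_le hy r)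
    have a5 : ‖S2 y r * y r‖ ≤ r ^ 2 * δ ^ 2 * δ :=
      (norm_mul_le _ _).trans (by gcongr; exacts [S2_le hy r, hy r])
    have a6 : ‖S2 y r * q‖ ≤ r ^ 2 * δ ^ 2 * (δ * 2) :=
      (norm_mul_le _ _).trans (by gcongr; exacts [S2_le hy r, by nlinarith])
    have b1 := norm_add₃_le (a := R * (F r - (1 + y r + q))) (b := e + e * y r + e * q)
      (c := S1 y r * q + S2 y r * y r + S2 y r * q)
    have b2 := norm_add₃_le (a := e) (b := e * y r) (c := e * q)
    have b3 := norm_add₃_le (a := S1 y r * q) (b := S2 y r * y r) (c := S2 y r * q)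
    nlinarith

lemma avg1 (f : A →ₗ[ℂ] ℂ) (θ : ℝ) (a a' : A) :
    ∑ k : Fin 4, f ((Complex.I * θ) • (ph k • a + conj (ph k) • a')) = 0 := by
  simp only [Fin.sum_univ_four, ph, map_smul, map_add, smul_eq_mul, map_pow, Complex.conj_I]
  simp only [Fin.val_zero, Fin.val_one, Fin.val_two, show ((3 : Fin 4) : ℕ) = 3 from rfl]
  linear_combination (θ * Complex.I * ((1 + Complex.I) * f a + (1 - Complex.I) * f a')) *
    Complex.I_sq

lemma avg2 (b : A →ₗ[ℂ] A →ₗ[ℂ] ℂ) (θ : ℝ) (a a' c c' : A) :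
    ∑ k : Fin 4, b ((Complex.I * θ) • (ph k • a + conj (ph k) • a'))
      ((Complex.I * θ) • (ph k • c + conj (ph k) • c')) = -4 * θ ^ 2 * (b a c' + b a' c) := by
  simp only [Fin.sum_univ_four, ph, map_smul, map_add, smul_eq_mul, map_pow, Complex.conj_I,
    LinearMap.add_apply, LinearMap.smul_apply]
  simp only [Fin.val_zero, Fin.val_one, Fin.val_two, show ((3 : Fin 4) : ℕ) = 3 from rfl,
    neg_pow Complex.I, pow_succ, pow_zero, one_mul, Complex.I_mul_I]
  ring_nf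
  simp only [Complex.I_sq, Complex.I_pow_four]
  ring

end ExpX

open ExpX in
theorem expand : Expand.{u} := by
  intro r
  obtain ⟨D, hD0, hD⟩ := prod_est.{u} (Real.exp 4) (Real.exp_pos 4).le r
  refine ⟨8 * (D + (1 + 2 * r + 4 * r ^ 2) * D + 2 * r ^ 3 + 2 * r ^ 4), by positivity,
    fun A _ Γ C hC hB hb θ hθ l hl G hG => ?_⟩
  let β : A →ₗ[ℂ] A →ₗ[ℂ] ℂ := LinearMap.mk₂ ℂ (fun a b => Γ (a, b)) (fun a a' b => (hB.1 b).1 a a')
    (fun c a b => (hB.1 b).2 c a) (fun a => (hB.2 a).1) (fun c a => (hB.2 a).2 c)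
  have hβ : ∀ a b, Γ (a, b) = β a b := fun _ _ => rfl
  simp only [hβ] at hb ⊢
  rcases subsingleton_or_nontrivial A with hA | hA
  · have h0 : ∀ a b, β a b = 0 := fun a b => by rw [Subsingleton.elim b 0, map_zero]
    simp only [h0, Finset.sum_const_zero, mul_zero, add_zero, sub_zero, norm_zero]
    positivity
  set δ := 2 * |θ| with hδ
  have hδ0 : 0 ≤ δ := by positivity
  have hδ2 : δ ≤ 2 := by linarith
  let g : Fin 4 → A := fun k => (Complex.I * θ) • (ph k • l + conj (ph k) • star l)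
  let y : Fin 4 → ℕ → A := fun k s =>
    (Complex.I * θ) • (ph k • cj (G s) l + conj (ph k) • cj (G s) (star l))
  have hyg : ∀ k s, y k s = G s * g k * star (G s) := fun k s => by
    simp only [y, g, cj, mul_smul_comm, smul_mul_assoc, mul_add, add_mul]
  have hG' := fun s => Unitary.star_mem (hG s)
  have ncj : ∀ s a, ‖G s * a * star (G s)‖ = ‖a‖ := fun s a => by
    rw [CStarRing.norm_mul_mem_unitary _ (hG' s), CStarRing.norm_mem_unitary_mul _ (hG s)]
  have hg : ∀ k, ‖g k‖ ≤ δ := fun k => by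
    have h1 : ‖ph k‖ = 1 := by simp [ph]
    have h2 := norm_add_le (ph k • l) (conj (ph k) • star l)
    rw [norm_smul, norm_smul, RCLike.norm_conj, h1, norm_star,
      CStarRing.norm_of_mem_unitary hl] at h2
    simp only [g, norm_smul, norm_mul, Complex.norm_I, Complex.norm_real, Real.norm_eq_abs, one_mul]
    nlinarith [abs_nonneg θ]
  have hgs : ∀ k, star (g k) = -g k := fun k => by
    simp [g, star_smul, add_comm]
  have hy : ∀ k s, ‖y k s‖ ≤ δ := fun k s => by rw [hyg, ncj]; exact hg k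
  have hys : ∀ k s, star (y k s) = -y k s := fun k s => by
    rw [hyg]; simp only [star_mul, star_star, hgs, mul_assoc, neg_mul, mul_neg]
  have hFu : ∀ k s, cj (G s) (eu θ k l) ∈ unitary A := fun k s =>
    mul_mem (mul_mem (hG s) (exp_unitary (hgs k))) (hG' s)
  have hF : ∀ k s, ‖cj (G s) (eu θ k l) - (1 + y k s + (2⁻¹ : ℂ) • (y k s * y k s))‖ ≤
      Real.exp 4 * δ ^ 3 := fun k s => by
    have h1 : ‖y k s‖ ≤ 4 := by linarith [hy k s]
    have := exp_taylor3 h1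
    rw [cj, show eu θ k l = NormedSpace.exp (g k) from rfl, ← exp_conj_unitary (hG s), ← hyg]
    exact this.trans (by gcongr; exact hy k s)
  have key : ∀ k, ‖β (ordp (fun s => cj (G s) (eu θ k l)) r)
      (star (ordp (fun s => cj (G s) (eu θ k l)) r)) -
      (β 1 1 + β (S1 (y k) r) 1 + β 1 (star (S1 (y k) r)) + β (S1 (y k) r) (star (S1 (y k) r)) +
        β (S2 (y k) r) 1 + β 1 (star (S2 (y k) r)))‖ ≤
      (D + (1 + 2 * r + 4 * r ^ 2) * D + 2 * r ^ 3 + 2 * r ^ 4) * C * δ ^ 3 := fun k => by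
    have e1 := hD A _ (y k) δ hδ2 (hFu k) (hy k) (hF k)
    have hR := ordp_unitary (hFu k) r
    set R := ordp (fun s => cj (G s) (eu θ k l)) r
    have s1 := S1_le (hy k) r
    have s2 := S2_le (hy k) r
    set P := S1 (y k) r
    set Q := S2 (y k) r
    set e := R - (1 + P + Q) with he
    have hRe : R = e + (1 + P + Q) := by rw [he]; abel
    have id : β R (star R) - (β 1 1 + β P 1 + β 1 (star P) + β P (star P) + β Q 1 + β 1 (star Q)) =
        β e (star R) + β (1 + P + Q) (star e) +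
          (β P (star Q) + β Q (star P) + β Q (star Q)) := by
      conv_lhs => rw [hRe, map_add, LinearMap.add_apply, ← hRe]
      conv_lhs => enter [1, 2]; rw [hRe]
      simp only [star_add, star_one, map_add, LinearMap.add_apply]
      ring
    rw [id]
    have n1 : ‖1 + P + Q‖ ≤ 1 + 2 * r + 4 * r ^ 2 := by
      have := norm_add₃_le (a := (1 : A)) (b := P) (c := Q)
      rw [norm_one] at this
      have a1 : r * δ ≤ r * 2 := by gcongr
      have a2 : r ^ 2 * δ ^ 2 ≤ r ^ 2 * 2 ^ 2 := by gcongr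
      linarith
    have a1 : ‖β e (star R)‖ ≤ C * (D * δ ^ 3) * 1 := (hb _ _).trans (by
      rw [CStarRing.norm_of_mem_unitary (Unitary.star_mem hR)]; gcongr)
    have a2 : ‖β (1 + P + Q) (star e)‖ ≤ C * (1 + 2 * r + 4 * r ^ 2) * (D * δ ^ 3) :=
      (hb _ _).trans (by rw [norm_star]; gcongr)
    have a3 : ‖β P (star Q)‖ ≤ C * (r * δ) * (r ^ 2 * δ ^ 2) :=
      (hb _ _).trans (by rw [norm_star]; gcongr)
    have a4 : ‖β Q (star P)‖ ≤ C * (r ^ 2 * δ ^ 2) * (r * δ) :=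
      (hb _ _).trans (by rw [norm_star]; gcongr)
    have a5 : ‖β Q (star Q)‖ ≤ C * (r ^ 2 * δ ^ 2) * (r ^ 2 * (δ * 2)) :=
      (hb _ _).trans (by rw [norm_star]; gcongr; exact s2.trans (by gcongr; nlinarith))
    have b1 := norm_add₃_le (a := β e (star R)) (b := β (1 + P + Q) (star e))
      (c := β P (star Q) + β Q (star P) + β Q (star Q))
    have b2 := norm_add₃_le (a := β P (star Q)) (b := β Q (star P)) (c := β Q (star Q))
    nlinarith
  have hll : ∀ s, cj (G s) l * cj (G s) (star l) = 1 := fun s => by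
    have := Unitary.mul_star_self_of_mem (mul_mem (mul_mem (hG s) hl) (hG' s))
    simpa only [cj, star_mul, star_star, mul_assoc] using this
  have hll' : ∀ s, cj (G s) (star l) * cj (G s) l = 1 := fun s => by
    have := Unitary.star_mul_self_of_mem (mul_mem (mul_mem (hG s) hl) (hG' s))
    simpa only [cj, star_mul, star_star, mul_assoc] using this
  have m1 : ∀ s, ∑ k, β (y k s) 1 = 0 := fun s => avg1 (β.flip 1) θ _ _
  have m2 : ∀ s, ∑ k, β 1 (y k s) = 0 := fun s => avg1 (β 1) θ _ _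
  have m3 : ∀ s t, ∑ k, β (y k s) (y k t) = -4 * θ ^ 2 *
      (β (cj (G s) l) (cj (G t) (star l)) + β (cj (G s) (star l)) (cj (G t) l)) :=
    fun s t => avg2 β θ _ _ _ _
  have m4 : ∀ s t, ∑ k, β (y k s * y k t) 1 = -4 * θ ^ 2 *
      (β (cj (G s) l * cj (G t) (star l)) 1 + β (cj (G s) (star l) * cj (G t) l) 1) :=
    fun s t => avg2 ((LinearMap.mul ℂ A).compr₂ (β.flip 1)) θ _ _ _ _
  have m5 : ∀ s t, ∑ k, β 1 (y k s * y k t) = -4 * θ ^ 2 *
      (β 1 (cj (G s) l * cj (G t) (star l)) + β 1 (cj (G s) (star l) * cj (G t) l)) :=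
    fun s t => avg2 ((LinearMap.mul ℂ A).compr₂ (β 1)) θ _ _ _ _
  have sw : ∀ (f : Fin 4 → ℕ → ℂ) (n : ℕ), ∑ k, ∑ s ∈ Finset.range n, f k s =
      ∑ s ∈ Finset.range n, ∑ k, f k s := fun f n => Finset.sum_comm
  have main : ∑ k, (β 1 1 + β (S1 (y k) r) 1 + β 1 (star (S1 (y k) r)) +
      β (S1 (y k) r) (star (S1 (y k) r)) + β (S2 (y k) r) 1 + β 1 (star (S2 (y k) r))) =
      4 * ((1 - 2 * r * θ ^ 2) * β 1 1 +
        θ ^ 2 * ∑ s ∈ Finset.range r, ∑ t ∈ Finset.range r,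
          (β (cj (G s) l) (cj (G t) (star l)) + β (cj (G s) (star l)) (cj (G t) l)) -
        θ ^ 2 * ∑ t ∈ Finset.range r, ∑ s ∈ Finset.range t,
          (β (cj (G s) l * cj (G t) (star l)) 1 + β (cj (G s) (star l) * cj (G t) l) 1 +
            β 1 (cj (G t) l * cj (G s) (star l)) + β 1 (cj (G t) (star l) * cj (G s) l))) := by
    simp only [S1, S2, star_sum, star_add, star_smul, star_mul, hys, neg_mul, mul_neg, neg_neg,
      map_sum, map_add, map_smul, map_neg, LinearMap.sum_apply, LinearMap.add_apply,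
      LinearMap.smul_apply, smul_eq_mul, Finset.sum_neg_distrib]
    simp only [Finset.sum_add_distrib, Finset.sum_neg_distrib, sw, ← Finset.mul_sum, m1, m2, m3, m4,
      m5, hll, hll', Finset.sum_const, Finset.card_range, Finset.card_univ, Fintype.card_fin,
      nsmul_eq_mul, star_inv₀, star_ofNat]
    rw [Finset.sum_comm (f := fun s t => β (cj (G t) l) (cj (G s) (star l))),
      Finset.sum_comm (f := fun s t => β (cj (G t) (star l)) (cj (G s) l))]
    push_cast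
    ring
  have fin : ∀ (X : Fin 4 → ℂ) (Y : Fin 4 → ℂ) (Z : ℂ) (b : ℝ), ∑ k, Y k = 4 * Z →
      (∀ k, ‖X k - Y k‖ ≤ b) → ‖(4 : ℂ)⁻¹ * ∑ k, X k - Z‖ ≤ b := fun X Y Z b h1 h2 => by
    rw [show (4 : ℂ)⁻¹ * ∑ k, X k - Z = (4 : ℂ)⁻¹ * ∑ k, (X k - Y k) by
      rw [Finset.sum_sub_distrib, h1]; ring, norm_mul, norm_inv, Complex.norm_ofNat]
    have := (norm_sum_le _ _).trans (Finset.sum_le_card_nsmul Finset.univ _ b fun k _ => h2 k)
    simp only [Finset.card_univ, Fintype.card_fin, nsmul_eq_mul, Nat.cast_ofNat] at this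
    linarith
  refine (fin _ _ _ _ main key).trans (le_of_eq ?_)
  rw [hδ]; ring

end Crest.Agent.HH
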