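import Crest.Agent.HH.Wot
import Crest.Agent.H0164.HB

/-! Job C1: factorisation of completely bounded maps. -/

set_option autoImplicit false
open scoped ComplexConjugate InnerProductSpace BigOperators
open Filter Topology

namespace Crest.Agent.HH
open Crest.Agent.GEN

universe u v w

namespace Factx

theorem exists_compl {A : Type u} [CStarAlgebra A] (a : A) :
    ∃ b : A, star a * a = (‖a‖ ^ 2 : ℝ) • (1 : A) - star b * b := by
  let := CStarAlgebra.spectralOrder A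
  have := CStarAlgebra.spectralOrderedRing A
  obtain ⟨b, hb⟩ := CStarAlgebra.nonneg_iff_eq_star_mul_self.1
    (sub_nonneg.2 (CStarAlgebra.star_mul_le_algebraMap_norm_sq (a := a)))
  exact ⟨b, by rw [← hb, Algebra.algebraMap_eq_smul_one, sub_sub_cancel]⟩

theorem eq_zero_of_sum {A : Type u} [CStarAlgebra A] {κ : Type} [Fintype κ] {a : κ → A}
    (h : ∑ l, star (a l) * a l = 0) (l : κ) : a l = 0 := by
  let := CStarAlgebra.spectralOrder A
  have := CStarAlgebra.spectralOrderedRing A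
  exact (CStarRing.star_mul_self_eq_zero_iff _).1
    ((Finset.sum_eq_zero_iff_of_nonneg fun l _ => star_mul_self_nonneg (a l)).1 h l
      (Finset.mem_univ _))

variable {H : Type u} [NormedAddCommGroup H] [InnerProductSpace ℂ H] [CompleteSpace H]
variable {M : VonNeumannAlgebra H}

/-- Gram matrix -/
noncomputable def K : (H →₀ Al M) →ₗ[ℝ] (H →₀ Al M) →ₗ[ℝ] (H → H → Al M) :=
  LinearMap.mk₂ ℝ (fun x y ξ η => star (x ξ) * y η)
    (fun _ _ _ => by ext1; ext1; simp [add_mul]) (fun _ _ _ => by ext1; ext1; simp)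
    (fun _ _ _ => by ext1; ext1; simp [mul_add]) (fun _ _ _ => by ext1; ext1; simp)

theorem K_apply (x y : H →₀ Al M) (ξ η : H) : K x y ξ η = star (x ξ) * y η := rfl

theorem K_single (ξ : H) (a : Al M) : ∃ b : Al M, K (.single ξ a) (.single ξ a) =
    ‖a‖ ^ 2 • K (.single ξ (1 : Al M)) (.single ξ 1) - K (.single ξ b) (.single ξ b) := by
  classical
  obtain ⟨b, hb⟩ := exists_compl a
  refine ⟨b, funext fun η => funext fun η' => ?_⟩
  simp only [K_apply, Pi.sub_apply, Pi.smul_apply, Finsupp.single_apply]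
  split_ifs <;> simp [hb]

/-- evaluation -/
noncomputable def E {ψ : Al M → Al M} (hψ : IsLinearMap ℂ ψ) : (H →₀ Al M) →ₗ[ℝ] H :=
  Finsupp.lsum ℝ fun ξ =>
    { toFun := fun a => ap (ψ a) ξ
      map_add' := fun a b => by rw [hψ.map_add, ap_add]
      map_smul' := fun t a => by
        rw [← Complex.coe_smul, hψ.map_smul, ap_smul, Complex.coe_smul]; rfl }

theorem E_single {ψ : Al M → Al M} (hψ : IsLinearMap ℂ ψ) (ξ : H) (a : Al M) :
    E hψ (.single ξ a) = ap (ψ a) ξ := by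
  rw [E, Finsupp.lsum_single]; rfl

theorem E_eq {ψ : Al M → Al M} (hψ : IsLinearMap ℂ ψ) (y : H →₀ Al M) {F : Finset H}
    (hF : y.support ⊆ F) : E hψ y = ∑ ξ ∈ F, ap (ψ (y ξ)) ξ := by
  rw [E, Finsupp.lsum_apply, Finsupp.sum_of_support_subset _ hF]
  · rfl
  · intro ξ _; exact map_zero _

open Classical in
/-- diagonal matrices -/
noncomputable def D (s : H →₀ ℝ) : H → H → Al M := fun ξ η => if ξ = η then s ξ • 1 else 0

theorem key {ψ : Al M → Al M} (hψ : IsLinearMap ℂ ψ) {C : ℝ} (hC : 0 < C) (h : ∀ k, CBk k ψ C)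
    {κ : Type} [Fintype κ] (y : κ → H →₀ Al M) (s : H →₀ ℝ) (hs : ∀ ξ, 0 ≤ s ξ)
    (he : D s = C ^ 2 • ∑ l, K (y l) (y l)) :
    ∑ l, ‖E hψ (y l)‖ ^ 2 ≤ s.sum fun ξ t => t * ‖ξ‖ ^ 2 := by
  classical
  set F : Finset H := s.support ∪ Finset.univ.biUnion fun l => (y l).support
  have hF : ∀ l, (y l).support ⊆ F := fun l =>
    (Finset.subset_biUnion_of_mem (fun l => (y l).support) (Finset.mem_univ l)).trans
      Finset.subset_union_right
  let e : Fin F.card ≃ F := F.equivFin.symm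
  have he' : ∀ ξ η, ∑ l, star (y l ξ) * y l η = if ξ = η then (s ξ / C ^ 2) • 1 else 0 := by
    intro ξ η
    have := congrFun (congrFun he ξ) η
    simp only [D, Pi.smul_apply, Finset.sum_apply, K_apply] at this
    have h2 : (C ^ 2)⁻¹ • (C ^ 2 • ∑ l, star (y l ξ) * y l η) = ∑ l, star (y l ξ) * y l η :=
      inv_smul_smul₀ (by positivity) _
    rw [← h2, ← this]
    split_ifs
    · rw [smul_smul, div_eq_inv_mul]
    · simp
  let x : κ → Fin F.card → Al M := fun l j => (C / √(s (e j))) • y l (e j)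
  have hx : RC x 1 := fun η => by
    have e1 : ∀ l, ((‖∑ j, ap (x l j) (η j)‖ ^ 2 : ℝ) : ℂ) =
        ∑ j, ∑ j', ⟪η j, ap (star (x l j) * x l j') (η j')⟫_ℂ := fun l => by
      simp only [ap_mul, ← inner_ap_left, ← inner_sum, ← sum_inner, inner_self_eq_norm_sq_to_K]
      simp
    have e2 : ∀ j j', ∑ l, star (x l j) * x l j' =
        if j = j' then ((C / √(s (e j))) ^ 2 * (s (e j) / C ^ 2)) • 1 else 0 := fun j j' => by
      simp only [x, star_smul, smul_mul_smul_comm, ← Finset.smul_sum, he', star_trivial]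
      by_cases hj : j = j'
      · subst hj; simp [smul_smul, sq]
      · have : (e j : H) ≠ e j' := fun h => hj (e.injective (Subtype.ext h))
        simp [hj, this]
    have e3 : ((∑ l, ‖∑ j, ap (x l j) (η j)‖ ^ 2 : ℝ) : ℂ) =
        ((∑ j, ((C / √(s (e j))) ^ 2 * (s (e j) / C ^ 2)) * ‖η j‖ ^ 2 : ℝ) : ℂ) := by
      rw [Complex.ofReal_sum, Complex.ofReal_sum]
      simp only [e1]
      rw [Finset.sum_comm]
      refine Finset.sum_congr rfl fun j _ => ?_
      rw [Finset.sum_comm]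
      simp only [← inner_sum, ← ap_sum, e2]
      rw [Finset.sum_eq_single j (fun j' _ hj => by simp [Ne.symm hj]) (by simp), if_pos rfl,
        ap_rsmul, ap_one, ← Complex.coe_smul, inner_smul_right, inner_self_eq_norm_sq_to_K]
      simp
    rw [Complex.ofReal_injective e3, one_pow, one_mul]
    refine Finset.sum_le_sum fun j _ => mul_le_of_le_one_left (by positivity) ?_
    rw [div_pow, Real.sq_sqrt (hs _)]
    by_cases h0 : s (e j) = 0
    · simp [h0]
    · exact le_of_eq (by field_simp)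
  have h1 := h (max (Fintype.card κ) F.card) κ _ (le_max_left _ _) (by simp) x hx
    fun j => (√(s (e j)) / C) • (e j : H)
  have e4 : ∀ l, ∑ j, ap (ψ (x l j)) ((√(s (e j)) / C) • (e j : H)) = E hψ (y l) := fun l => by
    rw [E_eq hψ _ (hF l), ← Finset.sum_coe_sort F, ← Equiv.sum_comp e]
    refine Finset.sum_congr rfl fun j _ => ?_
    by_cases h0 : s (e j) = 0
    · have : y l (e j) = 0 := eq_zero_of_sum (a := fun l => y l (e j)) (by simp [he', h0]) l
      simp [x, this, hψ.map_zero]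
    · have : √(s (e j)) ≠ 0 := by simpa [Real.sqrt_eq_zero (hs _)] using h0
      simp only [x]
      rw [← Complex.coe_smul, ← Complex.coe_smul, hψ.map_smul, ap_smul, ap, map_smul, smul_smul,
        ← Complex.ofReal_mul, show C / √(s (e j)) * (√(s (e j)) / C) = 1 by field_simp]
      simp
  simp only [e4] at h1
  refine h1.trans (le_of_eq ?_)
  rw [Finsupp.sum_of_support_subset _ (Finset.subset_union_left : _ ⊆ F) _ (by simp),
    ← Finset.sum_coe_sort F, ← Equiv.sum_comp e, Finset.mul_sum]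
  refine Finset.sum_congr rfl fun j _ => ?_
  rw [norm_smul, mul_pow, Real.norm_eq_abs, sq_abs, div_pow, Real.sq_sqrt (hs _)]
  field_simp

theorem hb_span {V : Type v} {Y : Type w} [AddCommGroup V] [Module ℝ V] (𝒞 : Set (V × ℝ))
    (hadd : ∀ p ∈ 𝒞, ∀ q ∈ 𝒞, p + q ∈ 𝒞) (hsmul : ∀ t : ℝ, 0 ≤ t → ∀ p ∈ 𝒞, t • p ∈ 𝒞)
    (h0 : ∀ r : ℝ, ((0 : V), r) ∈ 𝒞 → 0 ≤ r) (Q : Y → V) (y₀ : Y)
    (Pp : ∀ y, ∃ r, (Q y, r) ∈ 𝒞) (Pn : ∀ y, ∃ r, (-Q y, r) ∈ 𝒞) :
    ∃ g : V →ₗ[ℝ] ℝ, ∀ (t : ℝ) y r, (t • Q y, r) ∈ 𝒞 → t * g (Q y) ≤ r := by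
  let P : V → Prop := fun v => ∃ r, (v, r) ∈ 𝒞
  have Padd : ∀ v w, P v → P w → P (v + w) := fun v w ⟨r, hr⟩ ⟨r', hr'⟩ => ⟨_, hadd _ hr _ hr'⟩
  have Psmul : ∀ t : ℝ, 0 ≤ t → ∀ v, P v → P (t • v) := fun t ht v ⟨r, hr⟩ => ⟨_, hsmul t ht _ hr⟩
  let W : Submodule ℝ V := Submodule.span ℝ (Set.range Q)
  have hW : ∀ y, Q y ∈ W := fun y => Submodule.subset_span ⟨y, rfl⟩
  have hall : ∀ v ∈ W, P v ∧ P (-v) := fun v hv => by
    induction hv using Submodule.span_induction with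
    | mem v hv => obtain ⟨y, rfl⟩ := hv; exact ⟨Pp y, Pn y⟩
    | zero => simpa using Psmul 0 le_rfl _ (Pp y₀)
    | add v w _ _ hv hw => exact ⟨Padd _ _ hv.1 hw.1, by rw [neg_add]; exact Padd _ _ hv.2 hw.2⟩
    | smul t v _ hv =>
      rcases le_total 0 t with ht | ht
      · exact ⟨Psmul t ht _ hv.1, by rw [← smul_neg]; exact Psmul t ht _ hv.2⟩
      · exact ⟨by simpa using Psmul (-t) (by linarith) _ hv.2,
          by simpa using Psmul (-t) (by linarith) _ hv.1⟩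
  obtain ⟨Φ, hΦ⟩ := H0164.hb_cone (V := W) {p | (p.1.1, p.2) ∈ 𝒞}
    (fun p hp q hq => hadd _ hp _ hq) (fun t ht p hp => hsmul t ht.le _ hp) h0
    fun v => (hall v.1 v.2).1
  obtain ⟨g, hg⟩ := Φ.exists_extend
  refine ⟨g, fun t y r hr => ?_⟩
  have := hΦ ⟨t • Q y, W.smul_mem _ (hW y)⟩ r hr
  rw [← hg] at this
  simpa using this

/-- the cone -/
def Cn {ψ : Al M → Al M} (hψ : IsLinearMap ℂ ψ) (C : ℝ) : Set ((H → H → Al M) × ℝ) :=
  {p | ∃ (κ : Type) (_ : Fintype κ) (y : κ → H →₀ Al M)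
    (s : H →₀ ℝ), (∀ ξ, 0 ≤ s ξ) ∧ p.1 = D s - C ^ 2 • ∑ l, K (y l) (y l) ∧
      (s.sum fun ξ t => t * ‖ξ‖ ^ 2) - ∑ l, ‖E hψ (y l)‖ ^ 2 ≤ p.2}

theorem Cn_add {ψ : Al M → Al M} (hψ : IsLinearMap ℂ ψ) (C : ℝ) :
    ∀ p ∈ Cn hψ C, ∀ q ∈ Cn hψ C, p + q ∈ Cn hψ C := by
  have Dadd : ∀ s s' : H →₀ ℝ, (D (s + s') : H → H → Al M) = D s + D s' := fun s s' => by
    funext ξ η; simp only [D, Pi.add_apply]; split_ifs <;> simp [add_smul]
  rintro p ⟨κ, _, y, s, h1, h2, h3⟩ q ⟨κ', _, y', s', h1', h2', h3'⟩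
  refine ⟨κ ⊕ κ', inferInstance, Sum.elim y y', s + s', fun ξ => add_nonneg (h1 ξ) (h1' ξ),
    ?_, ?_⟩
  · simp only [Prod.fst_add, h2, h2', Dadd, Fintype.sum_sum_type, Sum.elim_inl, Sum.elim_inr,
      smul_add]
    abel
  · rw [Finsupp.sum_add_index' (by simp) (fun _ _ _ => add_mul _ _ _)]
    simp only [Prod.snd_add, Fintype.sum_sum_type, Sum.elim_inl, Sum.elim_inr]
    linarith

theorem Cn_smul {ψ : Al M → Al M} (hψ : IsLinearMap ℂ ψ) (C : ℝ) :
    ∀ t : ℝ, 0 ≤ t → ∀ p ∈ Cn hψ C, t • p ∈ Cn hψ C := by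
  have Dsmul : ∀ (t : ℝ) (s : H →₀ ℝ), (D (t • s) : H → H → Al M) = t • D s := fun t s => by
    funext ξ η; simp only [D, Pi.smul_apply]; split_ifs <;> simp [smul_smul]
  rintro t ht p ⟨κ, _, y, s, h1, h2, h3⟩
  refine ⟨κ, inferInstance, fun l => √t • y l, t • s, fun ξ => mul_nonneg ht (h1 ξ), ?_, ?_⟩
  · simp only [Prod.smul_fst, h2, Dsmul, map_smul, LinearMap.smul_apply, smul_smul,
      Real.mul_self_sqrt ht, ← Finset.smul_sum, smul_sub, mul_comm]
  · rw [Finsupp.sum_smul_index' (by simp)]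
    simp only [Prod.smul_snd, map_smul, norm_smul, mul_pow, Real.norm_eq_abs, sq_abs,
      Real.sq_sqrt ht, smul_eq_mul, mul_assoc, ← Finset.mul_sum, ← Finsupp.mul_sum, ← mul_sub]
    exact mul_le_mul_of_nonneg_left h3 ht

theorem Cn_one {ψ : Al M → Al M} (hψ : IsLinearMap ℂ ψ) (C : ℝ) (ξ : H) :
    (K (.single ξ (1 : Al M)) (.single ξ 1), ‖ξ‖ ^ 2) ∈ Cn hψ C := by
  classical
  refine ⟨Empty, inferInstance, fun _ => 0, .single ξ 1, fun η => ?_, ?_, by simp⟩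
  · rw [Finsupp.single_apply]; split_ifs <;> norm_num
  · funext η η'
    simp only [K_apply, D, Finsupp.single_apply, Finset.univ_eq_empty, Finset.sum_empty,
      smul_zero, sub_zero]
    by_cases h1 : ξ = η <;> by_cases h2 : η = η' <;> simp_all

theorem Cn_neg {ψ : Al M → Al M} (hψ : IsLinearMap ℂ ψ) (C : ℝ) (y : H →₀ Al M) :
    ((-C ^ 2) • K y y, -‖E hψ y‖ ^ 2) ∈ Cn hψ C :=
  ⟨Unit, inferInstance, fun _ => y, 0, by simp, by funext η η'; simp [D], by simp⟩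

theorem exists_g {ψ : Al M → Al M} (hψ : IsLinearMap ℂ ψ) {C : ℝ} (hC : 0 < C)
    (h : ∀ k, CBk k ψ C) : ∃ g : (H → H → Al M) →ₗ[ℝ] ℝ,
      (∀ ξ, g (K (.single ξ (1 : Al M)) (.single ξ 1)) ≤ ‖ξ‖ ^ 2) ∧
      ∀ y, ‖E hψ y‖ ^ 2 ≤ C ^ 2 * g (K y y) := by
  have Padd : ∀ v w, (∃ r, (v, r) ∈ Cn hψ C) → (∃ r, (w, r) ∈ Cn hψ C) →
    ∃ r, (v + w, r) ∈ Cn hψ C := fun v w ⟨r, hr⟩ ⟨r', hr'⟩ => ⟨_, Cn_add hψ C _ hr _ hr'⟩
  have Pn : ∀ y, ∃ r, (-K y y, r) ∈ Cn hψ C := fun y => by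
    have := Cn_smul hψ C (C ^ 2)⁻¹ (by positivity) _ (Cn_neg hψ C y)
    rw [Prod.smul_mk, smul_smul, mul_neg, inv_mul_cancel₀ (by positivity), neg_one_smul] at this
    exact ⟨_, this⟩
  have Pp : ∀ y, ∃ r, (K y y, r) ∈ Cn hψ C := fun y => by
    induction y using Finsupp.induction_linear with
    | zero => simpa using Pn 0
    | add x y hx hy =>
      have e : K (x + y) (x + y) = K x x + K x x + (K y y + K y y) + -K (x - y) (x - y) := by
        simp only [map_add, map_sub, LinearMap.add_apply, LinearMap.sub_apply]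
        abel
      rw [e]
      exact Padd _ _ (Padd _ _ (Padd _ _ hx hx) (Padd _ _ hy hy)) (Pn (x - y))
    | single ξ a =>
      obtain ⟨b, hb⟩ := K_single ξ a
      rw [hb, sub_eq_add_neg]
      exact Padd _ _ ⟨_, Cn_smul hψ C _ (sq_nonneg _) _ (Cn_one hψ C ξ)⟩ (Pn _)
  obtain ⟨g, hg⟩ := hb_span (Cn hψ C) (Cn_add hψ C) (Cn_smul hψ C) (by
      rintro r ⟨κ, _, y, s, h1, h2, h3⟩
      have := key hψ hC h y s h1 (sub_eq_zero.1 h2.symm)
      simp only at h3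
      linarith) (fun y => K y y) 0 Pp Pn
  refine ⟨g, fun ξ => ?_, fun y => ?_⟩
  · simpa using hg 1 _ _ (by rw [one_smul]; exact Cn_one hψ C ξ)
  · have := hg _ _ _ (Cn_neg hψ C y)
    linarith

/-- collecting terms -/
noncomputable def hat : ((Al M × H) →₀ ℝ) →ₗ[ℝ] (H →₀ Al M) :=
  Finsupp.linearCombination ℝ fun p => Finsupp.single p.2 p.1

theorem hat_act (m : Al M) (ζ : (Al M × H) →₀ ℝ) (ξ : H) : hat (act m ζ) ξ = m * hat ζ ξ := by
  classical
  induction ζ using Finsupp.induction_linear with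
  | zero => simp [act]
  | add x y hx hy => simp only [act, Finsupp.mapDomain_add, map_add, Finsupp.add_apply, mul_add] at *; rw [hx, hy]
  | single p t => by_cases h : p.2 = ξ <;> simp [act, hat, h]

theorem E_hat {ψ : Al M → Al M} (hψ : IsLinearMap ℂ ψ) (ζ : (Al M × H) →₀ ℝ) :
    E hψ (hat ζ) = ev ψ ζ := by
  simp only [hat, Finsupp.linearCombination_apply, Finsupp.sum, map_sum, map_smul, E_single, ev]

end Factx

open Factx in
theorem fact : Fact.{u} := by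
  intro H _ _ _ M ψ C hC hψ h
  rcases hC.eq_or_lt with rfl | hC
  · refine ⟨0, by simp, by simp, fun _ _ => by simp; positivity, by simp, fun ζ => ?_⟩
    have : ∀ a ξ, ap (ψ a) ξ = 0 := fun a ξ => by
      have h0 : (0 : ℝ) < ‖a‖ + 1 := by positivity
      have := h 1 Unit Unit (by simp) (by simp) (fun _ _ => (((‖a‖ + 1)⁻¹ : ℝ) : ℂ) • a) (fun η => by
        simp only [Finset.univ_unique, Finset.sum_singleton, one_pow, one_mul]
        refine pow_le_pow_left₀ (norm_nonneg _) ((ap_le _ _).trans ?_) 2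
        refine mul_le_of_le_one_left (norm_nonneg _) ?_
        rw [norm_smul, Complex.norm_real, Real.norm_of_nonneg (by positivity), inv_mul_le_iff₀ h0]
        linarith) fun _ => ξ
      simp only [Finset.univ_unique, Finset.sum_singleton, hψ.map_smul, ap_smul] at this
      have h2 := pow_eq_zero_iff (two_ne_zero) |>.1 (le_antisymm (by simpa using this) (sq_nonneg
        ‖(((‖a‖ + 1)⁻¹ : ℝ) : ℂ) • ap (ψ a) ξ‖))
      rw [norm_eq_zero, smul_eq_zero] at h2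
      exact h2.resolve_left (by exact_mod_cast (inv_pos.2 h0).ne')
    simp [ev, Finsupp.sum, this]
  obtain ⟨g, h1, h2⟩ := exists_g hψ hC h
  let γ : ((Al M × H) →₀ ℝ) →ₗ[ℝ] ((Al M × H) →₀ ℝ) →ₗ[ℝ] ℝ := (K.compl₁₂ hat hat).compr₂ g
  have hb : ∀ ζ, ((1 / 2 : ℝ) • (γ + γ.flip)) ζ ζ = g (K (hat ζ) (hat ζ)) := fun ζ => by
    simp [γ]; ring
  have h0 : ∀ y, 0 ≤ g (K y y) := fun y =>
    nonneg_of_mul_nonneg_right ((sq_nonneg _).trans (h2 y)) (by positivity)
  refine ⟨(1 / 2 : ℝ) • (γ + γ.flip), fun ζ ζ' => by simp [add_comm], fun ζ => ?_, fun a ξ => ?_,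
    fun k m hm ζ => ?_, fun ζ => ?_⟩
  · rw [hb]; exact h0 _
  · obtain ⟨b, hb'⟩ := K_single ξ a
    rw [hb, hat, Finsupp.linearCombination_single, one_smul, hb', map_sub, map_smul, smul_eq_mul]
    nlinarith [h0 (.single ξ b), mul_le_mul_of_nonneg_left (h1 ξ) (sq_nonneg ‖a‖)]
  · simp only [hb, ← map_sum]
    congr 1
    funext ξ η
    simp only [Finset.sum_apply, K_apply, hat_act, star_mul, mul_assoc, ← Finset.mul_sum]
    simp only [← mul_assoc, ← Finset.sum_mul, hm, one_mul]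
  · rw [hb, ← E_hat hψ]; exact h2 _

end Crest.Agent.HH
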