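import Crest.Agent.HH.Wot

/-! Job C2: module maps from a completely bounded member. -/

set_option autoImplicit false
open scoped ComplexConjugate InnerProductSpace BigOperators
open Filter Topology

namespace Crest.Agent.HH
open Crest.Agent.GEN

universe u v w

namespace FixCBx

theorem exists_inv_sqrt {A : Type u} [CStarAlgebra A] {κ : Type v} (F : Finset κ) (y : κ → A) :
    ∃ s : A, star s = s ∧ s * (1 + ∑ x ∈ F, star (y x) * y x) * s = 1 := by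
  let := CStarAlgebra.spectralOrder A
  have := CStarAlgebra.spectralOrderedRing A
  have h0 : (0 : A) ≤ ∑ x ∈ F, star (y x) * y x :=
    Finset.sum_nonneg fun x _ => star_mul_self_nonneg _
  have h1 : IsStrictlyPositive (1 + ∑ x ∈ F, star (y x) * y x) :=
    ⟨add_nonneg zero_le_one h0, CStarAlgebra.isUnit_of_le 1 (le_add_of_nonneg_right h0)⟩
  exact ⟨_, (IsSelfAdjoint.of_nonneg CFC.rpow_nonneg).star_eq,
    CFC.conjugate_rpow_neg_one_half _ h1⟩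

theorem paral {V : Type v} [AddCommGroup V] [Module ℝ V] (β : V →ₗ[ℝ] V →ₗ[ℝ] ℝ)
    (hs : ∀ x y, β x y = β y x) (h0 : ∀ x, 0 ≤ β x x) (f g : V →ₗ[ℝ] ℝ) {P : ℝ}
    (hf : ∀ x, f x ^ 2 ≤ P * β x x) (hg : ∀ x, g x ^ 2 ≤ P * β x x) (x y : V) :
    ((f x + g x) / 2) ^ 2 * β y y + ((f y - g y) / 2) ^ 2 * β x x ≤ P * β x x * β y y := by
  set h := (f x + g x) / 2
  set k := (f y - g y) / 2
  set a := h * β y y
  set b := k * β x x
  have e1 := hf (a • x + b • y)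
  have e2 := hg (a • x - b • y)
  simp only [map_add, map_sub, map_smul, LinearMap.add_apply, LinearMap.sub_apply,
    LinearMap.smul_apply, smul_eq_mul, hs y x] at e1 e2
  have e3 : (a * h + b * k) ^ 2 ≤ P * (a ^ 2 * β x x + b ^ 2 * β y y) := by
    have : a * h + b * k = ((a * f x + b * f y) + (a * g x - b * g y)) / 2 := by
      simp only [h, k]; ring
    rw [this]
    nlinarith [sq_nonneg ((a * f x + b * f y) - (a * g x - b * g y))]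
  have e4 : a * h + b * k = h ^ 2 * β y y + k ^ 2 * β x x := by simp only [a, b]; ring
  have e5 : P * (a ^ 2 * β x x + b ^ 2 * β y y) =
      P * β x x * β y y * (h ^ 2 * β y y + k ^ 2 * β x x) := by simp only [a, b]; ring
  rw [e4, e5] at e3
  have e6 : 0 ≤ P * β x x * β y y := mul_nonneg ((sq_nonneg _).trans (hf x)) (h0 y)
  have e7 : 0 ≤ h ^ 2 * β y y + k ^ 2 * β x x :=
    add_nonneg (mul_nonneg (sq_nonneg _) (h0 y)) (mul_nonneg (sq_nonneg _) (h0 x))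
  rcases e7.eq_or_lt with e | e
  · rw [← e]; exact e6
  · rw [sq] at e3; exact le_of_mul_le_mul_right e3 e

variable {H : Type u} [NormedAddCommGroup H] [InnerProductSpace ℂ H] [CompleteSpace H]
variable {M : VonNeumannAlgebra H}

/-- the real functional `ζ ↦ Re ⟪η, ev ψ ζ⟫` -/
noncomputable def fn (ψ : Al M → Al M) (η : H) : ((Al M × H) →₀ ℝ) →ₗ[ℝ] ℝ :=
  Finsupp.linearCombination ℝ fun p => (⟪η, ap (ψ p.1) p.2⟫_ℂ).re

theorem fn_apply (ψ : Al M → Al M) (η : H) (ζ : (Al M × H) →₀ ℝ) :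
    fn ψ η ζ = ∑ p ∈ ζ.support, ζ p * (⟪η, ap (ψ p.1) p.2⟫_ℂ).re := rfl

theorem fn_single (ψ : Al M → Al M) (η : H) (a : Al M) (ξ : H) :
    fn ψ η (Finsupp.single (a, ξ) 1) = (⟪η, ap (ψ a) ξ⟫_ℂ).re := by simp [fn]

theorem fn_ev (ψ : Al M → Al M) (η : H) (ζ : (Al M × H) →₀ ℝ) :
    fn ψ η ζ = (⟪η, ev ψ ζ⟫_ℂ).re := by
  rw [fn_apply, ev, Finsupp.sum, inner_sum, Complex.re_sum]
  refine Finset.sum_congr rfl fun p _ => ?_
  rw [← Complex.coe_smul, inner_smul_right, Complex.re_ofReal_mul]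

theorem fn_act (ψ : Al M → Al M) (η : H) (m : Al M) (ζ : (Al M × H) →₀ ℝ) :
    fn ψ η (act m ζ) = fn (fun a => ψ (m * a)) η ζ := by
  simp only [fn, act, Finsupp.linearCombination_mapDomain]
  rfl

theorem fn_avg {κ : Type} [Fintype κ] (ψ : Al M → Al M) (η : H) (m : κ → Al M)
    (ζ : (Al M × H) →₀ ℝ) :
    fn (fun a => ∑ j, star (m j) * ψ (m j * a)) η ζ = ∑ j, fn ψ (ap (m j) η) (act (m j) ζ) := by
  simp only [fn_act]
  simp only [fn_apply, ap_sum, inner_sum, Complex.re_sum, Finset.mul_sum, ap_mul, inner_ap_left]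
  exact Finset.sum_comm

theorem fn_comb (ψ φ : Al M → Al M) (η : H) (a b : ℝ) (ζ : (Al M × H) →₀ ℝ) :
    fn (a • ψ + b • φ) η ζ = a * fn ψ η ζ + b * fn φ η ζ := by
  simp only [fn_apply, Finset.mul_sum, ← Finset.sum_add_distrib, Pi.add_apply, Pi.smul_apply,
    ap_add, ap_rsmul, inner_add_right, Complex.add_re]
  refine Finset.sum_congr rfl fun p _ => ?_
  rw [← Complex.coe_smul, ← Complex.coe_smul, inner_smul_right, inner_smul_right,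
    Complex.re_ofReal_mul, Complex.re_ofReal_mul]
  ring

theorem fn_tendsto {I : Type v} {𝓕 : Filter I} {x : I → Al M → Al M} {ψ : Al M → Al M}
    (h : ∀ a, WL 𝓕 (fun k => x k a) (ψ a)) (η : H) (ζ : (Al M × H) →₀ ℝ) :
    Tendsto (fun k => fn (x k) η ζ) 𝓕 (𝓝 (fn ψ η ζ)) := by
  simp only [fn_apply]
  exact tendsto_finsetSum _ fun p _ =>
    ((Complex.continuous_re.tendsto _).comp (h p.1 η p.2)).const_mul _

theorem sum_norm_sq {κ : Type} [Fintype κ] {m : κ → Al M} (hm : ∑ j, star (m j) * m j = 1)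
    (η : H) : ∑ j, ‖ap (m j) η‖ ^ 2 = ‖η‖ ^ 2 := by
  have : ⟪η, ap (∑ j, star (m j) * m j) η⟫_ℂ = ⟪η, η⟫_ℂ := by rw [hm, ap_one]
  simp only [ap_sum, inner_sum, ap_mul, ← inner_ap_left, inner_self_eq_norm_sq_to_K] at this
  exact_mod_cast this

/-- the averaged map -/
noncomputable def av {ι : Type u} {κ : Type} [Fintype κ] (m : κ → Al M) (ψ : ι → Al M → Al M) :
    ι → Al M → Al M := fun i a => ∑ j, star (m j) * ψ i (m j * a)

/-- good sets -/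
structure Good {ι : Type u} (𝒦 : Set (ι → Al M → Al M)) : Prop where
  cvx : Convex ℝ 𝒦
  wcl : WCl 𝒦
  inv : ∀ ψ ∈ 𝒦, ∀ (κ : Type) [Fintype κ] (m : κ → Al M), ∑ j, star (m j) * m j = 1 → av m ψ ∈ 𝒦

theorem Good.inter {ι : Type u} {𝒦 𝒦' : Set (ι → Al M → Al M)} (h : Good 𝒦) (h' : Good 𝒦') :
    Good (𝒦 ∩ 𝒦') :=
  ⟨h.cvx.inter h'.cvx, fun 𝓕 hne hm ψ hψ =>
    ⟨h.wcl 𝓕 hne (mem_of_superset hm Set.inter_subset_left) ψ hψ,
      h'.wcl 𝓕 hne (mem_of_superset hm Set.inter_subset_right) ψ hψ⟩,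
    fun ψ hψ κ _ m hm => ⟨h.inv ψ hψ.1 κ m hm, h'.inv ψ hψ.2 κ m hm⟩⟩

theorem of_fin {P : ∀ (κ : Type) [Fintype κ], (κ → Al M) → Prop}
    (hP : ∀ (κ : Type) [Fintype κ] (m : κ → Al M),
      P _ (fun j => m ((Fintype.equivFin κ).symm j)) → P κ m)
    (h : ∀ (k : ℕ) (m : Fin k → Al M), ∑ j, star (m j) * m j = 1 → P _ m)
    (κ : Type) [Fintype κ] (m : κ → Al M) (hm : ∑ j, star (m j) * m j = 1) : P κ m :=
  hP κ m (h _ _ (by rw [← hm]; exact (Fintype.equivFin κ).symm.sum_comp fun j => star (m j) * m j))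

theorem exists_min (hE : ExMin.{u}) {ι : Type u} {𝒦 : Set (ι → Al M → Al M)} (h : Good 𝒦)
    (hne : 𝒦.Nonempty) (B : ι → Al M → ℝ) (hB : ∀ ψ ∈ 𝒦, ∀ i a, ‖ψ i a‖ ≤ B i a) :
    ∃ 𝒦₁ ⊆ 𝒦, 𝒦₁.Nonempty ∧ Good 𝒦₁ ∧ ∀ 𝒦₂ ⊆ 𝒦₁, 𝒦₂.Nonempty → Good 𝒦₂ → 𝒦₁ ⊆ 𝒦₂ := by
  let G := Σ k : ℕ, {m : Fin k → Al M // ∑ j, star (m j) * m j = 1}
  let T : G → (ι × Al M × H × H → ℂ) → ι × Al M × H × H → ℂ := fun g φ j =>
    ∑ l, φ (j.1, g.2.1 l * j.2.1, ap (g.2.1 l) j.2.2.1, j.2.2.2)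
  have hT : ∀ g ψ, T g (emb ψ) = emb (av g.2.1 ψ) := fun g ψ => by
    funext j
    simp only [T, emb, av, ap_sum, inner_sum, ap_mul, inner_ap_left]
  have hI : ∀ 𝒦' ⊆ 𝒦, 𝒦'.Nonempty → Good 𝒦' → Inv T (emb '' 𝒦') := fun 𝒦' hs hn hg =>
    ⟨hn.image _, emb_compact hg.wcl B fun ψ hψ => hB ψ (hs hψ), emb_convex hg.cvx, by
      rintro g _ ⟨ψ, hψ, rfl⟩
      exact ⟨_, hg.inv ψ hψ _ _ g.2.2, (hT g ψ).symm⟩⟩
  obtain ⟨K, hK, ⟨⟨x, hx⟩, hcp, hcv, hmap⟩, hmin⟩ := hE _ _ T _ (hI 𝒦 subset_rfl hne h)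
  have hg : Good (emb ⁻¹' K : Set (ι → Al M → Al M)) :=
    ⟨fun ψ hψ φ hφ a b ha hb hab => by
      rw [Set.mem_preimage, emb_add, emb_smul, emb_smul]; exact hcv hψ hφ ha hb hab,
    fun 𝓕 hne hm ψ hψ => hcp.isClosed.mem_of_tendsto (tendsto_emb_iff.2 hψ) hm,
    fun ψ hψ => of_fin (P := fun κ _ m => av m ψ ∈ emb ⁻¹' K) (fun κ _ m hm => by
      convert hm using 1
      funext i a
      exact ((Fintype.equivFin κ).symm.sum_comp fun j => star (m j) * ψ i (m j * a)).symm)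
      fun k m hm => by
        have := hmap ⟨k, m, hm⟩ hψ
        rwa [hT] at this⟩
  obtain ⟨ψ, hψ, rfl⟩ := hK hx
  refine ⟨𝒦 ∩ emb ⁻¹' K, Set.inter_subset_left, ⟨ψ, hψ, hx⟩, h.inter hg,
    fun 𝒦₂ hs hn hg₂ φ hφ => ?_⟩
  have := hmin (emb '' 𝒦₂) (by rintro _ ⟨χ, hχ, rfl⟩; exact (hs hχ).2)
    (hI 𝒦₂ (hs.trans Set.inter_subset_left) hn hg₂)
  have h2 := hφ.2
  rw [Set.mem_preimage, ← this] at h2
  obtain ⟨χ, hχ, he⟩ := h2
  rwa [← emb_injective he]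

/-- the hypotheses on the form -/
structure Fm (β : ((Al M × H) →₀ ℝ) →ₗ[ℝ] ((Al M × H) →₀ ℝ) →ₗ[ℝ] ℝ) : Prop where
  symm : ∀ ζ ζ', β ζ ζ' = β ζ' ζ
  pos : ∀ ζ, 0 ≤ β ζ ζ
  one : ∀ a ξ, β (Finsupp.single (a, ξ) 1) (Finsupp.single (a, ξ) 1) ≤ ‖a‖ ^ 2 * ‖ξ‖ ^ 2
  sum : ∀ (κ : Type) [Fintype κ] (m : κ → Al M), ∑ j, star (m j) * m j = 1 →
    ∀ ζ, ∑ j, β (act (m j) ζ) (act (m j) ζ) = β ζ ζ

/-- the norm condition -/
def Nc (β : ((Al M × H) →₀ ℝ) →ₗ[ℝ] ((Al M × H) →₀ ℝ) →ₗ[ℝ] ℝ) (R : ℝ) (ψ : Al M → Al M)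
    (η : H) : Prop := ∀ ζ, fn ψ η ζ ^ 2 ≤ R * ‖η‖ ^ 2 * β ζ ζ

theorem Fm.avg {β : ((Al M × H) →₀ ℝ) →ₗ[ℝ] ((Al M × H) →₀ ℝ) →ₗ[ℝ] ℝ} (hβ : Fm β) {κ : Type}
    [Fintype κ] {m : κ → Al M} (hm : ∑ j, star (m j) * m j = 1) {ψ : Al M → Al M} {η : H}
    {R : κ → ℝ} (hR : ∀ j, 0 ≤ R j) (h : ∀ j, Nc β (R j) ψ (ap (m j) η)) (ζ : (Al M × H) →₀ ℝ) :
    fn (fun a => ∑ j, star (m j) * ψ (m j * a)) η ζ ^ 2 ≤
      (∑ j, R j * ‖ap (m j) η‖ ^ 2) * β ζ ζ := by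
  rw [fn_avg, ← hβ.sum κ m hm ζ]
  exact Finset.sum_sq_le_sum_mul_sum_of_sq_le_mul _ (fun j _ => mul_nonneg (hR j) (sq_nonneg _))
    (fun j _ => hβ.pos _) fun j _ => h j _

theorem good_Nc {ι : Type u} {β : ι → ((Al M × H) →₀ ℝ) →ₗ[ℝ] ((Al M × H) →₀ ℝ) →ₗ[ℝ] ℝ}
    (hβ : ∀ i, Fm (β i)) {R : ι → ℝ} (hR : ∀ i, 0 ≤ R i) (W : ι → Set H)
    (hW : ∀ i, ∀ η ∈ W i, ∀ m : Al M, ap m η ∈ W i) :
    Good {ψ : ι → Al M → Al M | ∀ i, ∀ η ∈ W i, Nc (β i) (R i) (ψ i) η} := by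
  refine ⟨fun ψ hψ φ hφ a b ha hb hab i η hη ζ => ?_, fun 𝓕 hne hm ψ hψ i η hη ζ => ?_,
    fun ψ hψ κ _ m hm i η hη ζ => ?_⟩
  · have e : (a • ψ + b • φ) i = a • ψ i + b • φ i := rfl
    rw [e, fn_comb]
    have h1 := hψ i η hη ζ
    have h2 := hφ i η hη ζ
    obtain rfl : b = 1 - a := by linarith
    nlinarith [mul_le_mul_of_nonneg_left h1 ha, mul_le_mul_of_nonneg_left h2 hb,
      mul_nonneg (mul_nonneg ha hb) (sq_nonneg (fn (ψ i) η ζ - fn (φ i) η ζ))]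
  · exact le_of_tendsto ((fn_tendsto (hψ i) η ζ).pow 2)
      (mem_of_superset hm fun φ hφ => hφ i η hη ζ)
  · have := (hβ i).avg hm (R := fun _ => R i) (fun _ => hR i)
      (fun j => hψ i _ (hW i η hη (m j))) ζ
    rwa [← Finset.mul_sum, sum_norm_sq hm] at this

theorem pow_le_pow_left_iff_aux {x C a b : ℝ} (h0 : 0 < x)
    (h : (x ^ 2) ^ 2 ≤ C ^ 2 * x ^ 2 * (a ^ 2 * b ^ 2)) (hC : 0 ≤ C) (ha : 0 ≤ a) (hb : 0 ≤ b) :
    x ≤ C * a * b := by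
  rw [← sq_le_sq₀ h0.le (by positivity)]
  refine le_of_mul_le_mul_right ?_ (show 0 < x ^ 2 by positivity)
  nlinarith

theorem Nc.norm_le {β : ((Al M × H) →₀ ℝ) →ₗ[ℝ] ((Al M × H) →₀ ℝ) →ₗ[ℝ] ℝ} (hβ : Fm β) {C : ℝ}
    (hC : 0 ≤ C) {ψ : Al M → Al M} (h : ∀ η, Nc β (C ^ 2) ψ η) (a : Al M) : ‖ψ a‖ ≤ C * ‖a‖ := by
  refine norm_le_of_ap (by positivity) fun ξ => ?_
  have h1 := h (ap (ψ a) ξ) (Finsupp.single (a, ξ) 1)
  rw [fn_single, inner_self_eq_norm_sq_to_K] at h1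
  have h2 := mul_le_mul_of_nonneg_left (hβ.one a ξ)
    (show 0 ≤ C ^ 2 * ‖ap (ψ a) ξ‖ ^ 2 by positivity)
  have e : ((‖ap (ψ a) ξ‖ : ℂ) ^ 2).re = ‖ap (ψ a) ξ‖ ^ 2 := by
    rw [← Complex.ofReal_pow, Complex.ofReal_re]
  have h3 : (‖ap (ψ a) ξ‖ ^ 2) ^ 2 ≤ C ^ 2 * ‖ap (ψ a) ξ‖ ^ 2 * (‖a‖ ^ 2 * ‖ξ‖ ^ 2) := by
    rw [← e]; refine le_trans h1 ?_; rw [e]; exact h2
  rcases (norm_nonneg (ap (ψ a) ξ)).eq_or_lt with h0 | h0
  · rw [← h0]; positivity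
  · refine pow_le_pow_left_iff_aux h0 h3 hC (norm_nonneg _) (norm_nonneg _)

theorem spread {ι : Type u} {𝒦 : Set (ι → Al M → Al M)} (h : Good 𝒦)
    (hmin : ∀ 𝒦₂ ⊆ 𝒦, 𝒦₂.Nonempty → Good 𝒦₂ → 𝒦 ⊆ 𝒦₂) (B : ι → Al M → ℝ)
    (hB : ∀ ψ ∈ 𝒦, ∀ i a, ‖ψ i a‖ ≤ B i a)
    {β : ((Al M × H) →₀ ℝ) →ₗ[ℝ] ((Al M × H) →₀ ℝ) →ₗ[ℝ] ℝ} (hβ : Fm β) (i : ι) {e : Al M}
    (he : IsStarProjection e) {R r : ℝ} (hR : 0 ≤ R) (hr : 0 ≤ r) {ψ₀ : ι → Al M → Al M}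
    (h₀ : ψ₀ ∈ 𝒦) (h₁ : ∀ η, Nc β R (ψ₀ i) η) (h₂ : ∀ η, ap e η = η → Nc β r (ψ₀ i) η) :
    ∀ ψ ∈ 𝒦, ∀ η, ap e η = η → Nc β r (ψ i) η := by
  classical
  let W : Submodule ℂ H := Submodule.span ℂ {η | ∃ (x : Al M) (ξ : H), η = ap (x * e) ξ}
  have hW : ∀ η ∈ W, ∀ m : Al M, ap m η ∈ W := fun η hη m => by
    induction hη using Submodule.span_induction with
    | mem η hη =>
      obtain ⟨x, ξ, rfl⟩ := hη
      exact Submodule.subset_span ⟨m * x, ξ, by simp⟩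
    | zero => simp [ap]
    | add x y _ _ hx hy => simpa [ap] using W.add_mem hx hy
    | smul c x _ hx => simpa [ap] using W.smul_mem c hx
  choose s hs1 hs2 using fun p : Finset (Al M) × ℕ =>
    exists_inv_sqrt p.1 fun x => (√(p.2 : ℝ) : ℝ) • (e * star x)
  let m : (p : Finset (Al M) × ℕ) → Option (Fin p.1.card) → Al M := fun p o =>
    o.elim (s p) fun j => ((√(p.2 : ℝ) : ℝ) • (e * star (p.1.equivFin.symm j : Al M))) * s p
  have hm : ∀ p, ∑ j, star (m p j) * m p j = 1 := fun p => by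
    rw [← hs2 p, Fintype.sum_option, mul_add, add_mul, mul_one, Finset.mul_sum, Finset.sum_mul,
      ← Finset.sum_coe_sort p.1, ← p.1.equivFin.symm.sum_comp]
    simp only [m, Option.elim, star_mul, hs1, mul_assoc]
  have h0 : ∀ η ∈ W, Tendsto (fun p => ap (s p) η) atTop (𝓝 0) := fun η hη => by
    induction hη using Submodule.span_induction with
    | mem η hη =>
      obtain ⟨x, ξ, rfl⟩ := hη
      have hb : ∀ᶠ p : Finset (Al M) × ℕ in atTop,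
          ‖ap (s p) (ap (x * e) ξ)‖ ≤ (√(p.2 : ℝ))⁻¹ * ‖ξ‖ := by
        filter_upwards [eventually_ge_atTop (({x} : Finset (Al M)), 1)] with p hp
        have hx : x ∈ p.1 := hp.1 (Finset.mem_singleton_self x)
        have hn : (0 : ℝ) < √(p.2 : ℝ) := Real.sqrt_pos.2 (by exact_mod_cast hp.2)
        have h1 : ‖m p (some (p.1.equivFin ⟨x, hx⟩))‖ ≤ 1 := norm_le_of_ap zero_le_one fun η => by
          rw [one_mul, ← sq_le_sq₀ (norm_nonneg _) (norm_nonneg _), ← sum_norm_sq (hm p) η]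
          exact Finset.single_le_sum (f := fun j => ‖ap (m p j) η‖ ^ 2)
            (fun _ _ => sq_nonneg _) (Finset.mem_univ _)
        simp only [m, Option.elim, Equiv.symm_apply_apply, smul_mul_assoc] at h1
        rw [norm_smul, Real.norm_of_nonneg hn.le, ← norm_star, star_mul, star_mul, star_star, hs1,
          he.isSelfAdjoint.star_eq, ← le_div_iff₀' hn, one_div] at h1
        rw [← ap_mul]
        exact (ap_le _ _).trans (mul_le_mul_of_nonneg_right h1 (norm_nonneg _))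
      refine squeeze_zero_norm' hb ?_
      have : Tendsto (fun p : Finset (Al M) × ℕ => p.2) atTop atTop := by
        rw [← prod_atTop_atTop_eq]; exact tendsto_snd
      simpa using (tendsto_inv_atTop_zero.comp (Real.tendsto_sqrt_atTop.comp
        (tendsto_natCast_atTop_atTop.comp this))).mul_const ‖ξ‖
    | zero => simp [ap]
    | add x y _ _ hx hy => simpa [ap] using hx.add hy
    | smul c x _ hx => simpa [ap] using hx.const_smul c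
  obtain ⟨ψ₁, hψ₁, hl⟩ := h.wcl.ulim (Ultrafilter.of (atTop : Filter (Finset (Al M) × ℕ)))
    (fun p => av (m p) ψ₀) (Eventually.of_forall fun p => h.inv _ h₀ _ _ (hm p)) B
    fun i a => Eventually.of_forall fun p => hB _ (h.inv _ h₀ _ _ (hm p)) i a
  have h3 : ∀ η ∈ W, Nc β r (ψ₁ i) η := fun η hη ζ => by
    have t1 := (fn_tendsto (fun a => (hl i a).2) η ζ).pow 2
    have t2 : Tendsto (fun p => (R * ‖ap (s p) η‖ ^ 2 + r * ‖η‖ ^ 2) * β ζ ζ) atTop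
        (𝓝 (r * ‖η‖ ^ 2 * β ζ ζ)) := by
      simpa using ((((h0 η hη).norm.pow 2).const_mul R).add_const (r * ‖η‖ ^ 2)).mul_const (β ζ ζ)
    refine le_of_tendsto_of_tendsto' t1 (t2.mono_left (Ultrafilter.of_le _)) fun p => ?_
    refine (hβ.avg (hm p) (R := fun o => o.elim R fun _ => r) (fun o => by cases o <;> assumption)
      (fun o => ?_) ζ).trans (mul_le_mul_of_nonneg_right ?_ (hβ.pos ζ))
    · cases o with
      | none => exact h₁ _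
      | some j =>
        refine h₂ _ ?_
        rw [← ap_mul]
        simp only [m, Option.elim, smul_mul_assoc, mul_smul_comm, ← mul_assoc,
          he.isIdempotentElem.eq]
    · have := sum_norm_sq (hm p) η
      rw [Fintype.sum_option] at this ⊢
      simp only [Option.elim, ← Finset.mul_sum]
      refine add_le_add le_rfl (mul_le_mul_of_nonneg_left ?_ hr)
      rw [← this]
      exact le_add_of_nonneg_left (sq_nonneg _)
  have hg := good_Nc (β := fun _ : ι => β) (fun _ => hβ) (R := fun _ => r) (fun _ => hr)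
    (fun j => {η | j = i ∧ η ∈ W}) fun j η hη m => ⟨hη.1, hW η hη.2 m⟩
  have := hmin _ Set.inter_subset_left ⟨ψ₁, hψ₁, by rintro j η ⟨rfl, hη⟩; exact h3 η hη⟩
    (h.inter hg)
  intro ψ hψ η hη
  exact (this hψ).2 i η ⟨rfl, Submodule.subset_span ⟨1, η, by rw [one_mul, hη]⟩⟩

theorem gain {β : ((Al M × H) →₀ ℝ) →ₗ[ℝ] ((Al M × H) →₀ ℝ) →ₗ[ℝ] ℝ} (hβ : Fm β)
    {φ ψ : Al M → Al M} {y : Al M} {R τ : ℝ} (hτ : 0 < τ) {η : H} (h1 : Nc β R φ η)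
    (h2 : Nc β R ψ η) (hη : τ * ‖η‖ ^ 2 ≤ ‖ap (star (φ y - ψ y)) η‖ ^ 2) :
    Nc β (R - τ / (4 * (‖y‖ ^ 2 + 1))) ((1 / 2 : ℝ) • φ + (1 / 2 : ℝ) • ψ) η ∧
      (η ≠ 0 → 0 ≤ R - τ / (4 * (‖y‖ ^ 2 + 1))) := by
  set ξ := ap (star (φ y - ψ y)) η with hξ
  set Y : (Al M × H) →₀ ℝ := Finsupp.single (y, ξ) 1 with hY
  have e1 : fn φ η Y - fn ψ η Y = ‖ξ‖ ^ 2 := by
    rw [fn_single, fn_single, ← Complex.sub_re, ← inner_sub_right, ← ap_sub, inner_ap_right, ← hξ,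
      inner_self_eq_norm_sq_to_K]
    norm_cast
  have hYb : β Y Y ≤ (‖y‖ ^ 2 + 1) * ‖ξ‖ ^ 2 :=
    (hβ.one y ξ).trans (mul_le_mul_of_nonneg_right (by linarith) (sq_nonneg _))
  by_cases h0 : η = 0
  · refine ⟨fun ζ => ?_, fun h => absurd h0 h⟩
    simp [h0, fn_apply]
  have hη0 : 0 < ‖η‖ ^ 2 := by positivity
  have hY0 : 0 < β Y Y := by
    refine (hβ.pos Y).lt_of_ne fun h => ?_
    have a1 := h1 Y
    have a2 := h2 Y
    rw [← h, mul_zero] at a1 a2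
    have a3 : fn φ η Y = 0 := by nlinarith
    have a4 : fn ψ η Y = 0 := by nlinarith
    rw [a3, a4] at e1
    nlinarith [mul_pos hτ hη0]
  have hN : Nc β (R - τ / (4 * (‖y‖ ^ 2 + 1))) ((1 / 2 : ℝ) • φ + (1 / 2 : ℝ) • ψ) η := fun ζ => by
    have := paral β hβ.symm hβ.pos (fn φ η) (fn ψ η) h1 h2 ζ Y
    rw [e1] at this
    rw [fn_comb]
    refine le_of_mul_le_mul_right ?_ hY0
    have a1 : τ / (4 * (‖y‖ ^ 2 + 1)) * ‖η‖ ^ 2 * β Y Y ≤ (‖ξ‖ ^ 2 / 2) ^ 2 := by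
      calc _ ≤ τ / (4 * (‖y‖ ^ 2 + 1)) * ‖η‖ ^ 2 * ((‖y‖ ^ 2 + 1) * ‖ξ‖ ^ 2) := by gcongr
        _ = τ * ‖η‖ ^ 2 * ‖ξ‖ ^ 2 / 4 := by field_simp
        _ ≤ ‖ξ‖ ^ 2 * ‖ξ‖ ^ 2 / 4 := by gcongr
        _ = _ := by ring
    have a2 := mul_le_mul_of_nonneg_right a1 (hβ.pos ζ)
    nlinarith
  refine ⟨hN, fun _ => ?_⟩
  have := (sq_nonneg _).trans (hN Y)
  exact nonneg_of_mul_nonneg_left (nonneg_of_mul_nonneg_left this hY0) hη0

end FixCBx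

open FixCBx in
theorem fixCB (hF : Fact.{u}) (hE : ExMin.{u}) (hS : SpecP.{u}) : FixCB.{u} := by
  intro H _ _ _ M ι C 𝒦 hc hw hlin hinv hC ⟨ψ₀, hψ₀, hcb⟩
  choose β hβ1 hβ2 hβ3 hβ4 hβ5 using fun i => hF H M (ψ₀ i) (C i) (hC i) (hlin _ hψ₀ i) (hcb i)
  have hβ : ∀ i, Fm (β i) := fun i => ⟨hβ1 i, hβ2 i, hβ3 i,
    of_fin (P := fun κ _ m => ∀ ζ, ∑ j, β i (act (m j) ζ) (act (m j) ζ) = β i ζ ζ)
      (fun κ _ m hm ζ => by
        rw [← hm ζ]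
        exact ((Fintype.equivFin κ).symm.sum_comp
          fun j => β i (act (m j) ζ) (act (m j) ζ)).symm) (hβ4 i)⟩
  have hg : Good 𝒦 := ⟨hc, hw, fun ψ hψ => of_fin (P := fun κ _ m => av m ψ ∈ 𝒦)
    (fun κ _ m hm => by
      convert hm using 1
      funext i a
      exact ((Fintype.equivFin κ).symm.sum_comp fun j => star (m j) * ψ i (m j * a)).symm)
    (hinv ψ hψ)⟩
  have hg' := hg.inter (good_Nc hβ (R := fun i => C i ^ 2) (fun i => sq_nonneg _)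
    (fun _ => Set.univ) fun _ _ _ _ => trivial)
  obtain ⟨𝒦₁, hs, ⟨ψ, hψ⟩, hg₁, hmin⟩ := exists_min hE hg' ⟨ψ₀, hψ₀, fun i η _ ζ => by
    rw [fn_ev]
    have a1 : |(⟪η, ev (ψ₀ i) ζ⟫_ℂ).re| ≤ ‖η‖ * ‖ev (ψ₀ i) ζ‖ :=
      (Complex.abs_re_le_norm _).trans (norm_inner_le_norm _ _)
    have a2 := pow_le_pow_left₀ (abs_nonneg _) a1 2
    rw [sq_abs, mul_pow] at a2
    nlinarith [mul_le_mul_of_nonneg_left (hβ5 i ζ) (sq_nonneg ‖η‖)]⟩ (fun i a => C i * ‖a‖)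
    fun φ hφ i => Nc.norm_le (hβ i) (hC i) fun η => hφ.2 i η trivial
  have hB : ∀ φ ∈ 𝒦₁, ∀ i a, ‖φ i a‖ ≤ C i * ‖a‖ := fun φ hφ i =>
    Nc.norm_le (hβ i) (hC i) fun η => (hs hφ).2 i η trivial
  refine ⟨ψ, (hs hψ).1, fun i => ⟨hB ψ hψ i, fun m a => ?_⟩⟩
  have hu : ∀ u ∈ unitary (Al M), star u * ψ i (u * a) = ψ i a := by
    intro u hu
    by_contra hne
    have hφ := hg₁.inv ψ hψ Unit (fun _ => u) (by simpa using hu.1)
    set φ := av (fun _ : Unit => u) ψ with hφd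
    have ht : φ i a - ψ i a ≠ 0 := by simpa [hφd, av, sub_eq_zero] using hne
    obtain ⟨ξ, hξ⟩ : ∃ ξ, ap (star (φ i a - ψ i a)) ξ ≠ 0 := by
      by_contra! h
      exact ht (star_eq_zero.1 (ap_ext h))
    have hξ0 : ξ ≠ 0 := by rintro rfl; simp [ap] at hξ
    set τ := ‖ap (star (φ i a - ψ i a)) ξ‖ ^ 2 / (2 * ‖ξ‖ ^ 2) with hτd
    have hτ : 0 < τ := by positivity
    have hq : ∀ η, (⟪η, ap ((φ i a - ψ i a) * star (φ i a - ψ i a)) η⟫_ℂ).re =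
        ‖ap (star (φ i a - ψ i a)) η‖ ^ 2 := fun η => by
      rw [ap_mul, inner_ap_right, inner_self_eq_norm_sq_to_K]; norm_cast
    obtain ⟨e, he, -, he1, he2⟩ := hS H M ((φ i a - ψ i a) * star (φ i a - ψ i a)) τ (by simp)
    simp only [hq] at he1 he2
    have hη0 : ap e ξ ≠ 0 := fun h => by
      have := he2 ξ h
      have e1 : τ * ‖ξ‖ ^ 2 = ‖ap (star (φ i a - ψ i a)) ξ‖ ^ 2 / 2 := by rw [hτd]; field_simp
      have : 0 < ‖ap (star (φ i a - ψ i a)) ξ‖ ^ 2 := by positivity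
      linarith
    have hη1 : ap e (ap e ξ) = ap e ξ := by rw [← ap_mul, he.isIdempotentElem.eq]
    set κ := τ / (4 * (‖a‖ ^ 2 + 1)) with hκ
    have hκ0 : 0 < κ := by positivity
    have key : ∀ n : ℕ, 0 ≤ C i ^ 2 - n * κ ∧
        ∀ χ ∈ 𝒦₁, ∀ η, ap e η = η → Nc (β i) (C i ^ 2 - n * κ) (χ i) η := by
      intro n
      induction n with
      | zero => exact ⟨by simpa using sq_nonneg _, fun χ hχ η _ => by
          simpa using (hs hχ).2 i η trivial⟩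
      | succ n ih =>
        have e1 : C i ^ 2 - ((n + 1 : ℕ) : ℝ) * κ = C i ^ 2 - n * κ - κ := by push_cast; ring
        rw [e1]
        have g := fun η (h : ap e η = η) => gain (hβ i) hτ (ih.2 φ hφ η h) (ih.2 ψ hψ η h) (he1 η h)
        have hr := (g _ hη1).2 hη0
        have hmid := hg₁.cvx hφ hψ (a := 1 / 2) (b := 1 / 2) (by norm_num) (by norm_num)
          (by norm_num)
        exact ⟨hr, spread hg₁ hmin _ hB (hβ i) i he (sq_nonneg (C i)) hr hmid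
          (fun η => (hs hmid).2 i η trivial) fun η h => (g η h).1⟩
    obtain ⟨n, hn⟩ := exists_nat_gt (C i ^ 2 / κ)
    rw [div_lt_iff₀ hκ0] at hn
    linarith [(key n).1]
  have hl := hlin ψ (hs hψ).1 i
  have hm : m ∈ Submodule.span ℂ (unitary (Al M) : Set (Al M)) := by
    rw [CStarAlgebra.span_unitary]; trivial
  induction hm using Submodule.span_induction with
  | mem u hu' => rw [← hu u hu', ← mul_assoc, hu'.2, one_mul]
  | zero => simp [hl.map_zero]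
  | add x y _ _ hx hy => rw [add_mul, hl.map_add, hx, hy, add_mul]
  | smul c x _ hx => rw [smul_mul_assoc, hl.map_smul, hx, smul_mul_assoc]

end Crest.Agent.HH
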