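import Crest.Agent.HH.Wot

/-! Job X: module maps in the finite case. -/

set_option autoImplicit false
open scoped ComplexConjugate InnerProductSpace BigOperators
open Filter Topology

namespace Crest.Agent.HH
open Crest.Agent.GEN

universe u v w

namespace FixFinx

section cut
variable {A : Type u} [CStarAlgebra A] {c : A}

theorem cut_val' (hc : CP c) (x : A) : (Cor.cut hc.1 x).val = c * x := by
  rw [Cor.val_cut, mul_assoc, ← hc.2 x, ← mul_assoc, hc.1.isIdempotentElem.eq]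

theorem cc (hc : CP c) (x : A) : c * (c * x) = c * x := by
  rw [← mul_assoc, hc.1.isIdempotentElem.eq]

theorem cut_mul (hc : CP c) (x y : A) :
    Cor.cut hc.1 (x * y) = Cor.cut hc.1 x * Cor.cut hc.1 y := Cor.ext (by
  rw [Cor.val_mul, cut_val' hc, cut_val' hc, cut_val' hc, mul_assoc, ← mul_assoc x, ← hc.2 x,
    mul_assoc, cc hc])

theorem cut_star (hc : CP c) (x : A) : Cor.cut hc.1 (star x) = star (Cor.cut hc.1 x) :=
  Cor.ext (by rw [Cor.val_star, cut_val' hc, cut_val' hc, star_mul, hc.1.isSelfAdjoint.star_eq, hc.2])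

theorem cut_one (hc : CP c) : Cor.cut hc.1 1 = 1 := Cor.ext (by rw [cut_val' hc, mul_one]; rfl)

theorem cut_norm (hc : CP c) (x : A) : ‖Cor.cut hc.1 x‖ ≤ ‖x‖ := by
  rw [← Cor.norm_val, cut_val' hc]
  exact (norm_mul_le _ _).trans (mul_le_of_le_one_left (norm_nonneg _) hc.1.norm_le)

theorem dix_cor (hc : CP c) (h : DixN A) : DixN (Cor hc.1) := by
  classical
  intro F ε hε
  obtain ⟨ι, _, _, w, hw, hF⟩ := h (F.image Cor.val) ε hε
  refine ⟨ι, inferInstance, inferInstance, fun k => Cor.cut hc.1 (w k), fun k => ⟨?_, ?_⟩,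
    fun x hx => ?_⟩
  · rw [← cut_star hc, ← cut_mul hc, (hw k).1, cut_one hc]
  · rw [← cut_star hc, ← cut_mul hc, (hw k).2, cut_one hc]
  · obtain ⟨z, hz, hn⟩ := hF x.val (Finset.mem_image_of_mem _ hx)
    refine ⟨Cor.cut hc.1 z, fun y => ?_, le_trans (le_of_eq ?_) ((cut_norm hc _).trans hn)⟩
    · rw [← Cor.cut_val y, ← cut_mul hc, ← cut_mul hc, hz]
    · congr 1
      conv_lhs => rw [← Cor.cut_val x]
      simp only [← cut_star hc, ← cut_mul hc]
      refine Cor.ext ?_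
      simp only [Cor.val_sub, Cor.val_smul, Cor.val_sum, cut_val' hc, mul_sub, mul_smul_comm,
        Finset.mul_sum]

theorem halv_cor {c₀ : A} (hc : CP c) (h0 : c₀ * c = c) (h : Halv c₀) : Halv (1 : Cor hc.1) := by
  intro p hp _
  obtain ⟨v, h1, h2, h3⟩ := h p.val ((Cor.isStarProjection_iff p).1 hp)
    (by rw [← p.e_mul, ← mul_assoc, h0])
  refine ⟨Cor.cut hc.1 v, ?_, ?_, ?_⟩
  · rw [PI, ← cut_star hc, ← cut_mul hc, ← cut_mul hc, h1]
  · rw [← cut_mul hc, h2]; exact Cor.ext (by simp)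
  · rw [← cut_star hc, ← cut_mul hc, ← cut_mul hc]
    refine Cor.ext ?_
    rw [Cor.val_add, cut_val' hc, cut_val' hc, ← mul_add, h3, p.e_mul]

theorem lift_unitary (hc : CP c) {u : Cor hc.1} (hu : u ∈ unitary (Cor hc.1)) :
    u.val + (1 - c) ∈ unitary A := by
  have h1 : star u.val * u.val = c := congrArg Cor.val hu.1
  have h2 : u.val * star u.val = c := congrArg Cor.val hu.2
  have h3 := u.e_mul
  have h4 := u.mul_e
  have h5 := (star u).e_mul
  have h6 := (star u).mul_e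
  rw [Cor.val_star] at h5 h6
  have h7 := hc.1.isIdempotentElem.eq
  constructor <;>
  simp [star_add, hc.1.isSelfAdjoint.star_eq, add_mul, mul_add, mul_sub, sub_mul, *]

theorem refl_unitary {p : A} (hp : IsStarProjection p) :
    star (1 - (2 : ℂ) • p) = 1 - (2 : ℂ) • p ∧ (1 - (2 : ℂ) • p) * (1 - (2 : ℂ) • p) = 1 := by
  refine ⟨by simp [hp.isSelfAdjoint.star_eq], ?_⟩
  simp only [mul_sub, sub_mul, mul_one, one_mul, smul_mul_assoc, mul_smul_comm,
    hp.isIdempotentElem.eq]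
  module

theorem of_refl {p : A} {φ : A → A} (hφ : IsLinearMap ℂ φ) (y : A)
    (h : φ ((1 - (2 : ℂ) • p) * y) = (1 - (2 : ℂ) • p) * φ y) : φ (p * y) = p * φ y := by
  rw [sub_mul, sub_mul, one_mul, one_mul, hφ.map_sub, smul_mul_assoc, smul_mul_assoc, hφ.map_smul,
    sub_right_inj] at h
  exact smul_right_injective _ two_ne_zero h

end cut

variable {H : Type u} [NormedAddCommGroup H] [InnerProductSpace ℂ H] [CompleteSpace H]
variable {M : VonNeumannAlgebra H}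

/-- the twisted map -/
noncomputable def tw {ι : Type u} (u : Al M) (ψ : ι → Al M → Al M) : ι → Al M → Al M :=
  fun i a => star u * ψ i (u * a)

/-- good sets -/
structure Good {ι : Type u} (𝒦 : Set (ι → Al M → Al M)) : Prop where
  cvx : Convex ℝ 𝒦
  wcl : WCl 𝒦
  inv : ∀ ψ ∈ 𝒦, ∀ u ∈ unitary (Al M), tw u ψ ∈ 𝒦

theorem Good.inter {ι : Type u} {𝒦 𝒦' : Set (ι → Al M → Al M)} (h : Good 𝒦) (h' : Good 𝒦') :
    Good (𝒦 ∩ 𝒦') :=
  ⟨h.cvx.inter h'.cvx, fun 𝓕 hne hm ψ hψ =>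
    ⟨h.wcl 𝓕 hne (mem_of_superset hm Set.inter_subset_left) ψ hψ,
      h'.wcl 𝓕 hne (mem_of_superset hm Set.inter_subset_right) ψ hψ⟩,
    fun ψ hψ u hu => ⟨h.inv ψ hψ.1 u hu, h'.inv ψ hψ.2 u hu⟩⟩

theorem exists_min (hE : ExMin.{u}) (hF : FixC.{u}) {ι : Type u} {𝒦 : Set (ι → Al M → Al M)}
    (h : Good 𝒦) (hne : 𝒦.Nonempty) (B : ι → Al M → ℝ) (hB : ∀ ψ ∈ 𝒦, ∀ i a, ‖ψ i a‖ ≤ B i a) :
    ∃ 𝒦₁ ⊆ 𝒦, 𝒦₁.Nonempty ∧ Good 𝒦₁ ∧ (∀ 𝒦₂ ⊆ 𝒦₁, 𝒦₂.Nonempty → Good 𝒦₂ → 𝒦₁ ⊆ 𝒦₂) ∧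
      ∀ ψ ∈ 𝒦₁, ∀ u ∈ unitary (Al M), Cen u → tw u ψ = ψ := by
  let T : unitary (Al M) → (ι × Al M × H × H → ℂ) → ι × Al M × H × H → ℂ := fun g φ j =>
    φ (j.1, (g : Al M) * j.2.1, ap (g : Al M) j.2.2.1, j.2.2.2)
  have hT : ∀ g ψ, T g (emb ψ) = emb (tw g ψ) := fun g ψ => by
    funext j
    simp only [T, emb, tw, ap_mul, inner_ap_left]
  have hI : ∀ 𝒦' ⊆ 𝒦, 𝒦'.Nonempty → Good 𝒦' → Inv T (emb '' 𝒦') := fun 𝒦' hs hn hg =>
    ⟨hn.image _, emb_compact hg.wcl B fun ψ hψ => hB ψ (hs hψ), emb_convex hg.cvx, by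
      rintro g _ ⟨ψ, hψ, rfl⟩
      exact ⟨_, hg.inv ψ hψ _ g.2, (hT g ψ).symm⟩⟩
  obtain ⟨K, hK, hM⟩ := hE _ _ T _ (hI 𝒦 subset_rfl hne h)
  obtain ⟨⟨⟨x, hx⟩, hcp, hcv, hmap⟩, hmin⟩ := id hM
  have hg : Good (emb ⁻¹' K : Set (ι → Al M → Al M)) :=
    ⟨fun ψ hψ φ hφ a b ha hb hab => by
      rw [Set.mem_preimage, emb_add, emb_smul, emb_smul]; exact hcv hψ hφ ha hb hab,
    fun 𝓕 hne hm ψ hψ => hcp.isClosed.mem_of_tendsto (tendsto_emb_iff.2 hψ) hm,
    fun ψ hψ u hu => by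
      have := hmap ⟨u, hu⟩ hψ
      rwa [hT] at this⟩
  obtain ⟨ψ, hψ, rfl⟩ := hK hx
  refine ⟨𝒦 ∩ emb ⁻¹' K, Set.inter_subset_left, ⟨ψ, hψ, hx⟩, h.inter hg,
    fun 𝒦₂ hs hn hg₂ φ hφ => ?_, fun φ hφ u hu hc => emb_injective ?_⟩
  · have := hmin (emb '' 𝒦₂) (by rintro _ ⟨χ, hχ, rfl⟩; exact (hs hχ).2)
      (hI 𝒦₂ (hs.trans Set.inter_subset_left) hn hg₂)
    have h2 := hφ.2
    rw [Set.mem_preimage, ← this] at h2
    obtain ⟨χ, hχ, he⟩ := h2
    rwa [← emb_injective he]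
  · rw [← hT ⟨u, hu⟩]
    refine hF _ _ T K (T ⟨u, hu⟩) hM (continuous_pi fun j => continuous_apply _)
      ⟨fun _ _ => rfl, fun _ _ => rfl⟩ (hmap _) (fun g χ _ => funext fun j => ?_) _ hφ.2
    simp only [T, ← ap_mul, ← mul_assoc, hc g]

theorem good_mod {ι : Type u} (i : ι) {c : Al M} (hc : CP c) :
    Good {φ : ι → Al M → Al M | ∀ m y, φ i (c * m * y) = c * m * φ i y} := by
  refine ⟨fun ψ hψ φ hφ a b _ _ _ m y => ?_, fun 𝓕 hne hm ψ hψ m y => ?_,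
    fun ψ hψ u hu m y => ?_⟩
  · simp only [Pi.add_apply, Pi.smul_apply, hψ m y, hφ m y, mul_add, mul_smul_comm]
  · exact (hψ i _).eq_of_eventually ((hψ i y).mul_left (c * m))
      (mem_of_superset hm fun φ hφ => hφ m y)
  · have e1 : u * (c * m * y) = c * (u * m) * y := by
      rw [← mul_assoc, ← mul_assoc, ← hc.2 u, mul_assoc c]
    have e2 : c * m * (star u * ψ i (u * y)) = c * (m * star u) * ψ i (u * y) := by
      simp only [mul_assoc]
    have e3 : c * (m * star u) * (u * y) = c * m * y := by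
      rw [mul_assoc, mul_assoc m, ← mul_assoc (star u), hu.1, one_mul, mul_assoc]
    simp only [tw]
    rw [e1, e2, ← hψ, e3, hψ, hψ, ← mul_assoc, ← mul_assoc, ← hc.2, mul_assoc c, ← mul_assoc _ u,
      hu.1, one_mul]

theorem typeI {ι : Type u} {𝒦 : Set (ι → Al M → Al M)} (h : Good 𝒦) (hne : 𝒦.Nonempty)
    (hl : ∀ ψ ∈ 𝒦, ∀ i, IsLinearMap ℂ (ψ i)) (i : ι)
    (hz : ∀ ψ ∈ 𝒦, ∀ z, Cen z → ∀ y, ψ i (z * y) = z * ψ i y) {c : Al M} {k : ℕ}
    {e : Fin k → Fin k → Al M} (hc : CP c) (h1 : ∀ i j, star (e i j) = e j i)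
    (h2 : ∀ i j i' j', e i j * e i' j' = if j = i' then e i j' else 0) (h3 : ∑ i, e i i = c)
    (h4 : ∀ x : Al M, ∃ z : Fin k → Fin k → Al M, (∀ i j, Cen (z i j)) ∧
      c * x = ∑ i, ∑ j, z i j * e i j) :
    ∃ φ ∈ 𝒦, ∀ m y, φ i (c * m * y) = c * m * φ i y := by
  classical
  have hp : ∀ a, IsStarProjection (e a a) := fun a => ⟨by simp [IsIdempotentElem, h2], h1 a a⟩
  have s1 : ∀ s : Finset (Fin k), ∃ φ ∈ 𝒦, ∀ a ∈ s, ∀ y, φ i (e a a * y) = e a a * φ i y := by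
    intro s
    induction s using Finset.induction_on with
    | empty => obtain ⟨φ, hφ⟩ := hne; exact ⟨φ, hφ, by simp⟩
    | insert a s _ ih =>
      obtain ⟨φ, hφ, hs⟩ := ih
      obtain ⟨r1, r2⟩ := refl_unitary (hp a)
      have hm := h.cvx hφ (h.inv φ hφ _ ⟨by rw [r1, r2], by rw [r1, r2]⟩) (a := 1 / 2) (b := 1 / 2)
        (by norm_num) (by norm_num) (by norm_num)
      refine ⟨_, hm, fun b hb y => ?_⟩
      rcases Finset.mem_insert.1 hb with rfl | hb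
      · refine of_refl (hl _ hm i) y ?_
        simp only [Pi.add_apply, Pi.smul_apply, tw, r1, ← mul_assoc, r2, one_mul, mul_add,
          mul_smul_comm]
        rw [add_comm]
      · have hcm : (1 - (2 : ℂ) • e a a) * e b b = e b b * (1 - (2 : ℂ) • e a a) := by
          simp only [sub_mul, mul_sub, one_mul, mul_one, smul_mul_assoc, mul_smul_comm, h2]
          by_cases hab : a = b
          · subst hab; rfl
          · simp [hab, Ne.symm hab]
        simp only [Pi.add_apply, Pi.smul_apply, tw, r1, mul_add, mul_smul_comm, hs b hb]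
        rw [← mul_assoc, hcm, mul_assoc, hs b hb, ← mul_assoc, hcm, mul_assoc]
  obtain ⟨φ, hφ, hs⟩ := s1 Finset.univ
  have hce : ∀ a b, c * e a b = e a b := fun a b => by simp [← h3, Finset.sum_mul, h2]
  have hec : ∀ a b, e a b * c = e a b := fun a b => by rw [← hc.2, hce]
  let U : Equiv.Perm (Fin k) → Al M := fun σ => ∑ a, e (σ a) a + (1 - c)
  have U1 : U 1 = 1 := by simp [U, h3]
  have Um : ∀ σ τ, U σ * U τ = U (σ * τ) := fun σ τ => by
    simp only [U, add_mul, mul_add, Finset.sum_mul, Finset.mul_sum, h2, mul_sub, sub_mul, mul_one,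
      one_mul, hce, hec, _root_.sub_self, hc.1.isIdempotentElem.eq,
      add_zero, Finset.sum_ite_eq', Finset.mem_univ, if_true, Equiv.Perm.mul_apply]
    abel
  have Us : ∀ σ, star (U σ) = U σ⁻¹ := fun σ => by
    simp only [U, star_add, star_sum, h1, star_sub, star_one, hc.1.isSelfAdjoint.star_eq]
    rw [← Equiv.sum_comp σ fun a => e (σ⁻¹ a) a]
    simp
  have Uu : ∀ σ, U σ ∈ unitary (Al M) := fun σ =>
    ⟨by rw [Us, Um, inv_mul_cancel, U1], by rw [Us, Um, mul_inv_cancel, U1]⟩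
  have Ue : ∀ σ a b, U σ * e a b = e (σ a) b := fun σ a b => by
    simp [U, add_mul, Finset.sum_mul, h2, sub_mul, hce]
  have eU : ∀ σ a b, e a (σ b) * U σ = e a b := fun σ a b => by
    simp [U, mul_add, Finset.mul_sum, h2, mul_sub, hec]
  let φ₂ : ι → Al M → Al M :=
    ∑ σ, (Fintype.card (Equiv.Perm (Fin k)) : ℝ)⁻¹ • tw (U σ) φ
  have hφ₂ : φ₂ ∈ 𝒦 := h.cvx.sum_mem (fun _ _ => by positivity) (by simp)
    fun σ _ => h.inv φ hφ _ (Uu σ)
  have a1 : ∀ a y, φ₂ i (e a a * y) = e a a * φ₂ i y := fun a y => by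
    simp only [φ₂, Finset.sum_apply, Pi.smul_apply, tw, Finset.mul_sum, mul_smul_comm]
    refine Finset.sum_congr rfl fun σ _ => ?_
    have b1 : U σ * (e a a * y) = e (σ a) (σ a) * (U σ * y) := by
      rw [← mul_assoc, ← mul_assoc, Ue, eU]
    have b2 : U σ⁻¹ * e (σ a) (σ a) = e a a * U σ⁻¹ := by
      have := eU σ⁻¹ a (σ a)
      have h' : σ⁻¹ (σ a) = a := by simp
      rw [h'] at this
      rw [Ue, this, h']
    rw [b1, hs _ (Finset.mem_univ _), Us, ← mul_assoc, b2, mul_assoc]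
  have a2 : ∀ τ y, φ₂ i (U τ * y) = U τ * φ₂ i y := fun τ y => by
    simp only [φ₂, Finset.sum_apply, Pi.smul_apply, tw, Finset.mul_sum, mul_smul_comm, Us,
      ← mul_assoc, Um]
    rw [← Equiv.sum_comp (Equiv.mulRight τ) fun σ =>
      (Fintype.card (Equiv.Perm (Fin k)) : ℝ)⁻¹ • (U (τ * σ⁻¹) * φ i (U σ * y))]
    simp
  have a3 : ∀ a b y, φ₂ i (e a b * y) = e a b * φ₂ i y := fun a b y => by
    have := eU (Equiv.swap a b) a b
    rw [Equiv.swap_apply_right] at this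
    rw [← this, mul_assoc, a1, a2, mul_assoc]
  refine ⟨φ₂, hφ₂, fun m y => ?_⟩
  obtain ⟨z, hz1, hz2⟩ := h4 m
  let L : Al M →ₗ[ℂ] Al M := (hl _ hφ₂ i).mk' _
  rw [hz2]
  change L _ = _
  simp only [Finset.sum_mul, map_sum, mul_assoc]
  refine Finset.sum_congr rfl fun a _ => Finset.sum_congr rfl fun b _ => ?_
  change φ₂ i _ = _
  rw [hz _ hφ₂ _ (hz1 a b), a3]

theorem typeII (hC : Core.{u}) (hD : DixN (Al M)) {ι : Type u} {𝒦 : Set (ι → Al M → Al M)}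
    (h : Good 𝒦) (hne : 𝒦.Nonempty) (hl : ∀ ψ ∈ 𝒦, ∀ i, IsLinearMap ℂ (ψ i)) {C : ι → ℝ}
    (hC0 : ∀ i, 0 ≤ C i) (hB : ∀ ψ ∈ 𝒦, ∀ i a, ‖ψ i a‖ ≤ C i * ‖a‖) (i : ι)
    (hz : ∀ ψ ∈ 𝒦, ∀ z, Cen z → ∀ y, ψ i (z * y) = z * ψ i y) {c₀ c : Al M} (hH : Halv c₀)
    (hc : CP c) (h0 : c₀ * c = c) (T : Tr (Al M)) {r : ℕ} {η ξ : Fin r → H} (h1 : T.τ c = 1)
    (h2 : ∀ x : Al M, T.τ x = ∑ l, ⟪η l, ap x (ξ l)⟫_ℂ) (h3 : ∀ x : Al M, T.n2 x = 0 → c * x = 0) :
    ∃ φ ∈ 𝒦, ∀ m y, φ i (c * m * y) = c * m * φ i y := by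
  have hτ : 0 < (T.τ c).re := by simp [h1]
  have hT' : ∀ x : Cor hc.1, (T.corner hc.1 hτ).τ x = T.τ x.val := fun x => by
    rw [Tr.corner_τ, h1]; simp
  let Θ : (ι × Al M × H × H → ℂ) → Cor hc.1 × Cor hc.1 → ℂ := fun φ p =>
    ∑ l, φ (i, p.2.val, ap (star p.1.val) (η l), ξ l)
  have hΘ : ∀ ψ a b, Θ (emb ψ) (a, b) = T.τ (a.val * ψ i b.val) := fun ψ a b => by
    simp only [Θ, emb, h2, ap_mul, inner_ap_left, star_star]
  obtain ⟨_, ⟨_, ⟨ψ, hψ, rfl⟩, rfl⟩, hinv⟩ := hC (Cor hc.1) (T.corner hc.1 hτ) (dix_cor hc hD)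
    (halv_cor hc h0 hH) (C i) (Θ '' (emb '' 𝒦)) (hC0 i)
    ⟨(hne.image _).image _, (emb_compact h.wcl _ hB).image (continuous_pi fun p =>
      continuous_finsetSum _ fun l _ => continuous_apply _), by
        rintro _ ⟨φ, hφ, rfl⟩ _ ⟨χ, hχ, rfl⟩ a b ha hb hab
        refine ⟨_, emb_convex h.cvx hφ hχ ha hb hab, funext fun p => ?_⟩
        simp [Θ, Finset.sum_add_distrib, Finset.mul_sum], by
        rintro u _ ⟨_, ⟨ψ, hψ, rfl⟩, rfl⟩
        refine ⟨_, ⟨_, h.inv ψ hψ _ (lift_unitary hc u.2), rfl⟩, funext fun p => ?_⟩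
        obtain ⟨a, b⟩ := p
        simp only [Function.comp, hΘ, tw, Cor.val_mul, Cor.val_star, ← mul_assoc]
        simp [star_add, hc.1.isSelfAdjoint.star_eq, mul_add, add_mul, mul_sub, sub_mul, a.mul_e,
          b.e_mul]⟩ (by
      rintro _ ⟨_, ⟨ψ, hψ, rfl⟩, rfl⟩
      refine ⟨⟨fun b => ⟨fun x y => ?_, fun t x => ?_⟩, fun a => ⟨fun x y => ?_, fun t x => ?_⟩⟩,
        fun a b r hr => ?_⟩
      · simp [hΘ, add_mul]
      · simp [hΘ]
      · simp [hΘ, (hl ψ hψ i).map_add, mul_add]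
      · simp [hΘ, (hl ψ hψ i).map_smul]
      · have hr0 : 0 ≤ r := (norm_nonneg _).trans (hr 0 (by simp))
        have e : Θ (emb ψ) (a, b) = (T.corner hc.1 hτ).τ (a * Cor.cut hc.1 (ψ i b.val)) := by
          rw [hΘ, hT', Cor.val_mul, cut_val' hc, ← mul_assoc, a.mul_e]
        set x := Cor.cut hc.1 (ψ i b.val)
        have hx : ‖x‖ ≤ C i * ‖b‖ := (cut_norm hc _).trans (hB ψ hψ i _)
        rw [e]
        by_cases hx0 : x = 0
        · rw [hx0, mul_zero, map_zero, norm_zero]; exact mul_nonneg (mul_nonneg (hC0 i) hr0) (norm_nonneg _)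
        have hn : 0 < ‖x‖ := norm_pos_iff.2 hx0
        have := hr (((‖x‖⁻¹ : ℝ) : ℂ) • x) (by
          rw [norm_smul, Complex.norm_real, Real.norm_of_nonneg (by positivity),
            inv_mul_cancel₀ hn.ne'])
        rw [mul_smul_comm, map_smul, norm_smul, Complex.norm_real,
          Real.norm_of_nonneg (by positivity), inv_mul_le_iff₀ hn] at this
        nlinarith [mul_le_mul_of_nonneg_right hx hr0])
  have key : ∀ m : Cor hc.1, ∀ b : Cor hc.1, c * ψ i (m.val * b.val) = m.val * ψ i b.val := by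
    intro m b
    have hm : m ∈ Submodule.span ℂ (unitary (Cor hc.1) : Set (Cor hc.1)) := by
      rw [CStarAlgebra.span_unitary]; trivial
    induction hm using Submodule.span_induction with
    | mem u hu =>
      set x := (star u).val * ψ i (u.val * b.val) - c * ψ i b.val with hx
      have hcx : c * x = x := by rw [hx, mul_sub, ← mul_assoc, (star u).e_mul, cc hc]
      have := hinv u hu (Cor.cut hc.1 (star x)) b
      rw [hΘ, hΘ, Cor.val_mul, Cor.val_mul, cut_val' hc, mul_assoc, ← sub_eq_zero, ← map_sub,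
        hc.2, mul_assoc, mul_assoc, ← mul_sub, ← mul_assoc, (star u).e_mul, ← hx,
        T.τ_star_mul_self] at this
      have h4 : T.n2 x = 0 := by simpa using this
      have h5 := h3 x h4
      rw [hcx, hx, sub_eq_zero] at h5
      have h6 : u.val * (star u).val = c := congrArg Cor.val hu.2
      calc _ = u.val * ((star u).val * ψ i (u.val * b.val)) := by rw [← mul_assoc, h6]
        _ = _ := by rw [h5, ← mul_assoc, u.mul_e]
    | zero => simp [(hl ψ hψ i).map_zero]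
    | add x y _ _ hx hy => rw [Cor.val_add, add_mul, (hl ψ hψ i).map_add, mul_add, hx, hy, add_mul]
    | smul t x _ hx =>
      rw [Cor.val_smul, smul_mul_assoc, (hl ψ hψ i).map_smul, mul_smul_comm, hx, smul_mul_assoc]
  refine ⟨ψ, hψ, fun m y => ?_⟩
  have := key (Cor.cut hc.1 m) (Cor.cut hc.1 y)
  rw [cut_val' hc, cut_val' hc, hz ψ hψ c hc.2 y, ← hz ψ hψ c hc.2] at this
  have e1 : c * (c * m * (c * y)) = c * m * y := by
    rw [mul_assoc c m, ← mul_assoc m, ← hc.2 m, mul_assoc c m, cc hc, cc hc]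
  have e2 : c * m * (c * ψ i y) = c * m * ψ i y := by
    rw [mul_assoc c m, ← mul_assoc m, ← hc.2 m, mul_assoc c m, cc hc]
  rwa [e1, e2] at this

end FixFinx

open FixFinx in
theorem fixFin (hE : ExMin.{u}) (hF : FixC.{u}) (hC : Core.{u}) (hDi : Dich.{u})
    (hT : TraceThm.{u}) (hD : DixThmN.{u}) (hS : CSupp.{u}) (hN : NuAPI.{u}) : FixFin.{u} := by
  intro H _ _ _ M z hz hfin ι C 𝒦 hne hcv hw hC0 hl hinv
  obtain ⟨𝒦₁, hs, hne₁, hg, hmin, hcen⟩ := exists_min hE hF ⟨hcv, hw, hinv⟩ hne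
    (fun i a => C i * ‖a‖) fun ψ hψ i a => ((hl ψ hψ i).2 a).1
  have hl₁ : ∀ ψ ∈ 𝒦₁, ∀ i, IsLinearMap ℂ (ψ i) := fun ψ hψ i => (hl ψ (hs hψ) i).1
  obtain ⟨ψ, hψ⟩ := id hne₁
  refine ⟨ψ, hs hψ, fun i m a => ?_⟩
  have hu : ∀ u ∈ unitary (Al M), star u * ψ i (u * a) = ψ i a := by
    intro u hu
    by_contra hne
    set t := star u * ψ i (u * a) - ψ i a with ht
    have ht0 : t ≠ 0 := sub_ne_zero.2 hne
    obtain ⟨c₀, hc₀, h1, h2⟩ := hS H M t
    have hzt : z * t = t := by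
      rw [ht, mul_sub, ← mul_assoc, hz.2, mul_assoc, ((hl ψ (hs hψ) i).2 _).2,
        ((hl ψ (hs hψ) i).2 _).2]
    have hzc : z * c₀ = c₀ := by
      have := h2 (1 - z) fun m => by
        rw [sub_mul, one_mul, hz.2, sub_mul, mul_assoc, hzt, _root_.sub_self]
      rwa [sub_mul, one_mul, sub_eq_zero, eq_comm] at this
    have hf₀ : FinP c₀ := fun v h3 h4 h5 => hfin v h3 (by rw [← h4, ← mul_assoc, hzc]) h5
    have hc0 : c₀ ≠ 0 := by rintro rfl; exact ht0 (by rw [← h1, zero_mul])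
    obtain ⟨c, T, r, η, ξ, t1, t2, t3, t4, t5⟩ := hT H M c₀ hc₀ hf₀ hc0
    have hZ : ∀ φ ∈ 𝒦₁, ∀ z, Cen z → ∀ y, φ i (z * y) = z * φ i y := fun φ hφ z hz y =>
      (hN _ T).2.2.2.2.2.2.2
        { carrier := {z | φ i (z * y) = z * φ i y}
          add_mem' := fun {a b} ha hb => by
            simp only [Set.mem_ofPred_eq] at *
            rw [add_mul, (hl₁ φ hφ i).map_add, ha, hb, add_mul]
          zero_mem' := by simp [(hl₁ φ hφ i).map_zero]
          smul_mem' := fun t a ha => by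
            simp only [Set.mem_ofPred_eq] at *
            rw [smul_mul_assoc, (hl₁ φ hφ i).map_smul, ha, smul_mul_assoc] }
        (fun w hw hw' => by
          have := congrFun (congrFun (hcen φ hφ w hw hw') i) y
          change φ i (w * y) = w * φ i y
          rw [← this, tw, ← mul_assoc, hw.2, one_mul]) z hz
    have : ∃ c, CP c ∧ c ≠ 0 ∧ c₀ * c = c ∧
        ∃ φ ∈ 𝒦₁, ∀ m y, φ i (c * m * y) = c * m * φ i y := by
      rcases hDi H M c₀ hc₀ hf₀ with hH | ⟨c, k, e, d1, d2, d3, d4, d5, d6, d7⟩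
      · exact ⟨c, t1, by rintro rfl; simp at t3, t2, typeII hC (hD H M) hg hne₁ hl₁ hC0
          (fun ψ hψ i a => ((hl ψ (hs hψ) i).2 a).1) i hZ hH t1 t2 T t3 t4 t5⟩
      · exact ⟨c, d1, d2, d3, typeI hg hne₁ hl₁ i hZ d1 d4 d5 d6 d7⟩
    obtain ⟨c, d1, d2, d3, φ, hφ, hφ'⟩ := this
    have hg2 := hg.inter (good_mod i d1)
    have hm : ∀ m y, ψ i (c * m * y) = c * m * ψ i y :=
      (hmin (𝒦₁ ∩ {φ | ∀ m y, φ i (c * m * y) = c * m * φ i y}) Set.inter_subset_left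
        ⟨φ, hφ, hφ'⟩ hg2 hψ).2
    have hct : c * t = 0 := by
      have e1 := hm (star u) (u * a)
      have e2 := hm 1 a
      rw [mul_assoc c, ← mul_assoc (star u), hu.1, one_mul] at e1
      rw [mul_one] at e2
      rw [ht, mul_sub, ← mul_assoc, ← e1, e2, _root_.sub_self]
    have := h2 c fun m => by rw [d1.2, mul_assoc, hct, mul_zero]
    exact d2 (by rw [← d3, hc₀.2, this])
  have hl' := hl₁ ψ hψ i
  have hm : m ∈ Submodule.span ℂ (unitary (Al M) : Set (Al M)) := by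
    rw [CStarAlgebra.span_unitary]; trivial
  induction hm using Submodule.span_induction with
  | mem u hu' => rw [← hu u hu', ← mul_assoc, hu'.2, one_mul]
  | zero => simp [hl'.map_zero]
  | add x y _ _ hx hy => rw [add_mul, hl'.map_add, hx, hy, add_mul]
  | smul c x _ hx => rw [smul_mul_assoc, hl'.map_smul, hx, smul_mul_assoc]

end Crest.Agent.HH
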