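import Crest.Agent.HH.Mean

/-! Job F: minimal flows, fixed points, barycentres, collapsing means. -/

set_option autoImplicit false
open scoped ComplexConjugate BigOperators
open Filter Topology

namespace Crest.Agent.HH

universe u v w

namespace Flow

theorem bdd {J : Type v} {K : Set (J → ℂ)} (hK : IsCompact K) (j : J) :
    ∃ B : ℝ, ∀ ψ ∈ K, ‖ψ j‖ ≤ B := by
  obtain ⟨B, hB⟩ := (hK.image (continuous_apply j)).isBounded.exists_norm_le
  exact ⟨B, fun ψ hψ => hB _ ⟨ψ, hψ, rfl⟩⟩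

theorem im_zero {X : Type v} (m : Mean X) {g : X → ℝ} {B : ℝ} (h : ∀ x, |g x| ≤ B) :
    (m.L fun x => (g x : ℂ)).im = 0 := by
  have h1 := m.ofReal_re (g := fun x => g x + B) (B := 2 * B)
    (fun x => by linarith [neg_abs_le (g x), h x]) fun x => by linarith [le_abs_self (g x), h x]
  have h2 := congrArg Complex.im h1
  simp only [Complex.ofReal_add] at h2
  rw [m.add, m.const] at h2
  simpa using h2.symm

theorem re_ge {X : Type v} (m : Mean X) {G : X → ℂ} {B t : ℝ} (h : ∀ x, ‖G x‖ ≤ B)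
    (ht : ∀ x, t ≤ (G x).re) : t ≤ (m.L G).re := by
  have e : G = fun x => ((G x).re : ℂ) + ((G x).im : ℂ) * Complex.I := by
    funext x; exact (Complex.re_add_im _).symm
  have h1 := im_zero m (g := fun x => (G x).im) fun x => (Complex.abs_im_le_norm _).trans (h x)
  have h2 := m.re_mono (f := fun _ => t) (g := fun x => (G x).re) (B := B - t) ht
    fun x => by linarith [Complex.re_le_norm (G x), h x]
  rw [m.const, Complex.ofReal_re] at h2
  rw [e, m.add, m.mulc]
  simpa [h1] using h2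

theorem fin_supp {J : Type v} (f : (J → ℂ) →L[ℝ] ℝ) :
    ∃ (I : Finset J) (c : J → ℂ), ∀ y, f y = (∑ j ∈ I, c j * y j).re := by
  classical
  have h0 : f ⁻¹' Metric.ball 0 1 ∈ 𝓝 (0 : J → ℂ) :=
    f.continuous.continuousAt.preimage_mem_nhds (by rw [map_zero]; exact Metric.ball_mem_nhds _ one_pos)
  rw [nhds_pi, Filter.mem_pi'] at h0
  obtain ⟨I, t, ht, hI⟩ := h0
  have h1 : ∀ y : J → ℂ, (∀ j ∈ I, y j = 0) → f y = 0 := by
    intro y hy
    by_contra hne
    have := hI (show (f y)⁻¹ • y ∈ (I : Set J).pi t from fun j hj => by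
      simpa [hy j hj] using mem_of_mem_nhds (ht j))
    simp [inv_mul_cancel₀ hne] at this
  refine ⟨I, fun j => f (Pi.single j 1) - f (Pi.single j Complex.I) * Complex.I, fun y => ?_⟩
  have h2 := h1 (y - ∑ j ∈ I, ((y j).re • (Pi.single j 1 : J → ℂ) +
      (y j).im • (Pi.single j Complex.I : J → ℂ))) fun j hj => by
    simp only [Pi.sub_apply, Finset.sum_apply, Pi.add_apply, Pi.smul_apply]
    rw [Finset.sum_eq_single j (fun k _ hk => by simp [Pi.single_eq_of_ne' hk]) (fun h => absurd hj h)]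
    simp
  rw [map_sub, sub_eq_zero, map_sum] at h2
  rw [h2, Complex.re_sum]
  refine Finset.sum_congr rfl fun j _ => ?_
  simp only [map_add, map_smul, smul_eq_mul, Complex.mul_re, Complex.sub_re, Complex.ofReal_re,
    Complex.I_re, mul_zero, Complex.ofReal_im, Complex.I_im, mul_one, sub_self, sub_zero,
    Complex.sub_im, Complex.mul_im, add_zero, zero_sub]
  ring

end Flow

theorem exMin : ExMin.{u} := by
  intro J G T K hK
  obtain ⟨K', h1, h2⟩ := zorn_superset_nonempty {K' | Inv T K'} (fun c hc hch hne => by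
    refine ⟨⋂₀ c, ⟨?_, ?_, convex_sInter fun s hs => (hc hs).2.2.1, fun g ψ hψ s hs =>
      (hc hs).2.2.2 g (hψ s hs)⟩, fun s hs => Set.sInter_subset_of_mem hs⟩
    · have := hne.to_subtype
      exact IsCompact.nonempty_sInter_of_directed_nonempty_isCompact_isClosed
        (fun a ha b hb => (hch.total ha hb).elim (fun h => ⟨a, ha, subset_rfl, h⟩)
          fun h => ⟨b, hb, h, subset_rfl⟩)
        (fun s hs => (hc hs).1) (fun s hs => (hc hs).2.1) fun s hs => (hc hs).2.1.isClosed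
    · obtain ⟨s, hs⟩ := hne
      exact (hc hs).2.1.of_isClosed_subset (isClosed_sInter fun s hs => (hc hs).2.1.isClosed)
        (Set.sInter_subset_of_mem hs)) K hK
  exact ⟨K', h1, h2.prop, fun K'' h3 h4 => (h2.eq_of_subset h4 h3)⟩

theorem fixC : FixC.{u} := by
  intro J G T K S hM hS hL hK hc
  obtain ⟨⟨⟨ψ, hψ⟩, hcp, hcv, hT⟩, hmin⟩ := hM
  let L : (J → ℂ) →ₗ[ℝ] (J → ℂ) := hL.mk' S
  have hit : ∀ k, S^[k] ψ ∈ K := fun k => hK.iterate k hψ
  let a : ℕ → J → ℂ := fun n => ∑ k ∈ Finset.range (n + 1), ((n : ℝ) + 1)⁻¹ • S^[k] ψ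
  have ha : ∀ n, a n ∈ K := fun n => hcv.sum_mem (fun _ _ => by positivity) (by
    simp only [Finset.sum_const, Finset.card_range, nsmul_eq_mul]; push_cast; field_simp)
    fun k _ => hit k
  have hd : ∀ n, S (a n) - a n = ((n : ℝ) + 1)⁻¹ • (S^[n + 1] ψ - ψ) := fun n => by
    have : S (a n) = ∑ k ∈ Finset.range (n + 1), ((n : ℝ) + 1)⁻¹ • S^[k + 1] ψ := by
      change L (a n) = _
      simp only [a, map_sum, map_smul, Function.iterate_succ_apply']
      rfl
    rw [this, ← Finset.sum_sub_distrib]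
    simp only [← smul_sub, ← Finset.smul_sum]
    rw [Finset.sum_range_sub (fun k => S^[k] ψ)]
    rfl
  have h0 : Tendsto (fun n => S (a n) - a n) atTop (𝓝 0) := by
    refine tendsto_pi_nhds.2 fun j => ?_
    obtain ⟨B, hB⟩ := Flow.bdd hcp j
    refine squeeze_zero_norm (a := fun n : ℕ => ((n : ℝ) + 1)⁻¹ * (B + B)) (fun n => ?_) ?_
    · rw [hd, Pi.smul_apply, norm_smul, Real.norm_of_nonneg (by positivity), Pi.sub_apply]
      exact mul_le_mul_of_nonneg_left ((norm_sub_le _ _).trans (add_le_add (hB _ (hit _))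
        (hB _ hψ))) (by positivity)
    · simpa using tendsto_one_div_add_atTop_nhds_zero_nat.mul_const (B + B)
  obtain ⟨b, hb, hlim⟩ := hcp.ultrafilter_le_nhds ((Ultrafilter.of (atTop : Filter ℕ)).map a) (by
    rw [Ultrafilter.coe_map, le_principal_iff, mem_map]; exact univ_mem' ha)
  have h1 : Tendsto a (Ultrafilter.of (atTop : Filter ℕ)) (𝓝 b) := hlim
  have h2 : S b - b = 0 :=
    tendsto_nhds_unique (((hS.tendsto b).comp h1).sub h1) (h0.mono_left (Ultrafilter.of_le _))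
  have := hmin {φ ∈ K | S φ = φ} (fun _ h => h.1) ⟨⟨b, hb, sub_eq_zero.1 h2⟩,
    hcp.inter_right (isClosed_eq hS continuous_id), fun x hx y hy s t hs ht hst =>
      ⟨hcv hx.1 hy.1 hs ht hst, by rw [hL.map_add, hL.map_smul, hL.map_smul, hx.2, hy.2]⟩,
    fun g φ hφ => ⟨hT g hφ.1, by rw [hc g φ hφ.1, hφ.2]⟩⟩
  intro φ hφ
  rw [← this] at hφ
  exact hφ.2

/-- universe polymorphic form of `Bary` -/
theorem Flow.bary {J : Type v} {X : Type w} {K : Set (J → ℂ)} (hK : IsCompact K)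
    (hc : Convex ℝ K) (m : Mean X) (F : X → J → ℂ) (hF : ∀ x, F x ∈ K) :
    (fun j => m.L fun x => F x j) ∈ K := by
  by_contra hne
  obtain ⟨f, t, h1, h2⟩ := geometric_hahn_banach_point_closed hc hK.isClosed hne
  obtain ⟨I, c, hf⟩ := Flow.fin_supp f
  choose B hB using Flow.bdd hK
  have := Flow.re_ge m (G := fun x => ∑ j ∈ I, c j * F x j) (B := ∑ j ∈ I, ‖c j‖ * B j) (t := t)
    (fun x => (norm_sum_le _ _).trans (Finset.sum_le_sum fun j _ => by
      rw [norm_mul]; exact mul_le_mul_of_nonneg_left (hB j _ (hF x)) (norm_nonneg _)))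
    fun x => by rw [← hf]; exact (h2 _ (hF x)).le
  rw [m.sum] at this
  simp only [m.cmul] at this
  rw [hf] at h1
  linarith

theorem bary : Bary.{u} := fun _ _ _ hK hc m F hF => Flow.bary hK hc m F hF

theorem collapse : Collapse.{u} := by
  classical
  intro J G σ K ⟨g₀⟩ hσ hM
  obtain ⟨⟨hne, hcp, hcv, hT⟩, hmin⟩ := hM
  obtain ⟨Φ, hΦ⟩ := hcp.extremePoints_nonempty hne
  refine ⟨Φ, hΦ.1, ?_⟩
  let Tm : Mean G → (J → ℂ) → J → ℂ := fun s ψ j => s.L fun g => ψ (σ g j)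
  have hTm : ∀ s, ∀ ψ ∈ K, Tm s ψ ∈ K := fun s ψ hψ =>
    Flow.bary hcp hcv s (fun g => ψ ∘ σ g) fun g => hT g hψ
  choose B hB using Flow.bdd hcp
  have hb : ∀ ψ ∈ K, ∀ j g, ‖ψ (σ g j)‖ ≤ B j := fun ψ hψ j g => hB j _ (hT g hψ)
  have h1 : ∀ ψ ∈ K, ∃ s, Tm s ψ = Φ := by
    intro ψ hψ
    choose k hk using hσ
    have hsub : Set.range (fun s => Tm s ψ) ⊆ K := by rintro _ ⟨s, rfl⟩; exact hTm s ψ hψ
    have := hmin (Set.range fun s => Tm s ψ) hsub ⟨⟨_, Mean.pure g₀, rfl⟩,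
      hcp.of_isClosed_subset ?_ hsub, ?_, ?_⟩
    · have h := hΦ.1
      rw [← this] at h
      exact h
    · refine isClosed_iff_ultrafilter.2 fun x 𝒰 hx hmem => ?_
      have : ∀ φ : J → ℂ, ∃ s, φ ∈ Set.range (fun s => Tm s ψ) → Tm s ψ = φ := fun φ => by
        by_cases h : φ ∈ Set.range (fun s => Tm s ψ)
        · obtain ⟨s, hs⟩ := h; exact ⟨s, fun _ => hs⟩
        · exact ⟨Mean.pure g₀, fun h' => absurd h' h⟩
      choose s hs using this
      obtain ⟨M, hM⟩ := Mean.exists_ulim 𝒰 s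
      refine ⟨M, funext fun j => tendsto_nhds_unique (hM _ _ (hb ψ hψ j)) ?_⟩
      refine (((continuous_apply j).tendsto x).mono_left hx).congr' ?_
      filter_upwards [hmem] with φ hφ
      exact (congrFun (hs φ hφ) j).symm
    · rintro _ ⟨s, rfl⟩ _ ⟨s', rfl⟩ a b ha hb' hab
      refine ⟨Mean.mix s s' a b ha hb' hab, funext fun j => ?_⟩
      simp [Tm, Mean.mix_L]
    · rintro g _ ⟨s, rfl⟩
      refine ⟨s.map (k g), funext fun j => ?_⟩
      simp [Tm, hk]
  have h2 : ∀ F : Finset K, ∃ b ∈ K, ∀ s, Tm s b = Φ → ∀ ψ ∈ F, Tm s ψ = Φ := by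
    intro F
    induction F using Finset.induction_on with
    | empty => exact ⟨Φ, hΦ.1, by simp⟩
    | insert ψ F _ ih =>
      obtain ⟨b, hbK, hb'⟩ := ih
      refine ⟨(1 / 2 : ℝ) • b + (1 / 2 : ℝ) • ψ.1,
        hcv hbK ψ.2 (by norm_num) (by norm_num) (by norm_num), fun s hs => ?_⟩
      have := hΦ.2 (hTm s b hbK) (hTm s ψ ψ.2) ⟨1 / 2, 1 / 2, by norm_num, by norm_num,
        by norm_num, by
          rw [← hs]; funext j
          simp only [Tm, Pi.add_apply, Pi.smul_apply, Complex.real_smul]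
          rw [s.add, s.cmul, s.cmul]⟩
      have h' := hΦ.2 (hTm s ψ ψ.2) (hTm s b hbK) ⟨1 / 2, 1 / 2, by norm_num, by norm_num,
        by norm_num, by
          rw [← hs]; funext j
          simp only [Tm, Pi.add_apply, Pi.smul_apply, Complex.real_smul]
          rw [s.add, s.cmul, s.cmul, add_comm]⟩
      intro φ hφ
      rcases Finset.mem_insert.1 hφ with rfl | hφ
      · exact h'
      · exact hb' s this φ hφ
  have h3 : ∀ F : Finset K, ∃ s, ∀ ψ ∈ F, Tm s ψ = Φ := fun F => by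
    obtain ⟨b, hbK, hb'⟩ := h2 F
    obtain ⟨s, hs⟩ := h1 b hbK
    exact ⟨s, hb' s hs⟩
  choose s hs using h3
  obtain ⟨M, hM⟩ := Mean.exists_ulim (Ultrafilter.of (atTop : Filter (Finset K))) s
  refine ⟨M, fun ψ hψ j => tendsto_nhds_unique (hM _ _ (hb ψ hψ j)) ?_⟩
  refine (tendsto_const_nhds.congr' ?_).mono_left (Ultrafilter.of_le _)
  filter_upwards [eventually_ge_atTop ({⟨ψ, hψ⟩} : Finset K)] with F hF
  exact (congrFun (hs F _ (hF (Finset.mem_singleton_self _))) j).symm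

end Crest.Agent.HH
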