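import Crest.Agent.HH.Wot

/-! The vanishing theorem for cochains on lists. -/

set_option autoImplicit false
open scoped ComplexConjugate InnerProductSpace BigOperators
open Filter Topology

namespace Crest.Agent.HH
open Crest.Agent.GEN hiding sub_self

universe u v

namespace LTm

section alg
variable {A : Type u} [CStarAlgebra A]

lemma del_add (l : List A) : ∀ φ ψ : List A → A,
    del (fun r => φ r + ψ r) l = del φ l + del ψ l := by
  induction l with
  | nil => simp [del]
  | cons x l ih =>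
    cases l with
    | nil => intro φ ψ; simp [del, add_mul, add_comm]
    | cons y r => intro φ ψ; simp only [del, ih]; abel

lemma del_mul (a : A) (l : List A) : ∀ φ : List A → A, del (fun r => a * φ r) l = a * del φ l := by
  induction l with
  | nil => simp [del]
  | cons x l ih =>
    cases l with
    | nil => intro φ; simp [del, mul_assoc]
    | cons y r => intro φ; simp only [del, ih, mul_sub, mul_neg]

/-- `del` as a left module map. -/
def delL (l : List A) : (List A → A) →ₗ[A] A where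
  toFun φ := del φ l
  map_add' := del_add l
  map_smul' := fun a => del_mul a l

lemma del_sub (l : List A) (φ ψ : List A → A) :
    del (fun r => φ r - ψ r) l = del φ l - del ψ l := (delL l).map_sub φ ψ

lemma del_neg (l : List A) (φ : List A → A) : del (fun r => -φ r) l = -del φ l :=
  (delL l).map_neg φ

lemma del_smul (c : ℂ) (l : List A) (φ : List A → A) :
    del (fun r => c • φ r) l = c • del φ l := (delL l).map_smul_of_tower c φ

lemma del_sum {ι : Type*} (s : Finset ι) (l : List A) (φ : ι → List A → A) :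
    del (fun r => ∑ j ∈ s, φ j r) l = ∑ j ∈ s, del (φ j) l := by
  rw [← Finset.sum_fn]; exact map_sum (delL l) φ s

lemma del_congr (l : List A) : ∀ φ ψ : List A → A, (∀ r, r.length + 1 = l.length → φ r = ψ r) →
    del φ l = del ψ l := by
  induction l with
  | nil => simp [del]
  | cons x l ih =>
    cases l with
    | nil => intro φ ψ h; simp [del, h [] rfl]
    | cons y r =>
      intro φ ψ h
      simp only [del]
      rw [h (x * y :: r) rfl, ih _ (fun l => ψ (x :: l)) fun l hl => h _ (by simp [hl])]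

lemma del_del (r : List A) : ∀ (g : List A → A) x y, del (del g) (x :: y :: r) = 0 := by
  induction r with
  | nil => intro g x y; simp [del, mul_assoc]
  | cons z r ih =>
    intro g x y
    have := ih (fun l => g (x :: l)) y z
    simp only [del, del_sub, del_neg, mul_assoc] at this ⊢
    linear_combination (norm := abel) this

lemma dd_dd (g : List A → A) (x y : A) (r : List A) : dd (dd g) (x :: y :: r) = 0 := by
  have := del_del r g x y
  simp only [del] at this
  simp only [dd, lam, del, del_add, del_mul, mul_add, mul_assoc]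
  linear_combination (norm := abel) this

lemma dd_add (φ ψ : List A → A) (l : List A) : dd (fun r => φ r + ψ r) l = dd φ l + dd ψ l := by
  cases l <;> simp only [dd, lam, del_add, mul_add] <;> abel

lemma dd_neg (φ : List A → A) (l : List A) : dd (fun r => -φ r) l = -dd φ l := by
  cases l <;> simp only [dd, lam, del_neg, mul_neg] <;> abel

lemma dd_cen {c : A} (hc : Cen c) (φ : List A → A) (l : List A) :
    dd (fun r => c * φ r) l = c * dd φ l := by
  cases l with
  | nil => simp [dd, lam, del]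
  | cons x l => simp only [dd, lam, del_mul, mul_add, ← mul_assoc, hc x]

lemma lin_succ {n : ℕ} {φ : List A → A} : Lin (n + 1) φ ↔
    (∀ l : List A, l.length = n → IsLinearMap ℂ fun x => φ (x :: l)) ∧
      ∀ x, Lin n fun l => φ (x :: l) := by
  refine ⟨fun h => ⟨fun l hl => h [] l (by simp [hl]), fun x p q e => h (x :: p) q (by
    simp; omega)⟩, fun ⟨h1, h2⟩ p q e => ?_⟩
  cases p with
  | nil => exact h1 q (by simpa using e)
  | cons x p => exact h2 x p q (by simp at e; omega)

lemma il_add {f g : A → A} (hf : IsLinearMap ℂ f) (hg : IsLinearMap ℂ g) :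
    IsLinearMap ℂ fun x => f x + g x := (hf.mk' f + hg.mk' g).isLinear

lemma il_mul (a : A) {f : A → A} (hf : IsLinearMap ℂ f) : IsLinearMap ℂ fun x => a * f x :=
  (LinearMap.mulLeft ℂ a ∘ₗ hf.mk' f).isLinear

lemma il_comp {f : A → A} (hf : IsLinearMap ℂ f) (g : A →ₗ[ℂ] A) :
    IsLinearMap ℂ fun x => f (g x) := (hf.mk' f ∘ₗ g).isLinear

lemma lin_add {n : ℕ} {φ ψ : List A → A} (h : Lin n φ) (h' : Lin n ψ) :
    Lin n fun l => φ l + ψ l := fun p q e => il_add (h p q e) (h' p q e)

lemma lin_mul {n : ℕ} {φ : List A → A} (a : A) (h : Lin n φ) : Lin n fun l => a * φ l :=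
  fun p q e => il_mul a (h p q e)

lemma lin_neg {n : ℕ} {φ : List A → A} (h : Lin n φ) : Lin n fun l => -φ l := by
  simpa using lin_mul (-1) h

lemma lin_congr {n : ℕ} {φ ψ : List A → A} (h : Lin n φ) (e : ∀ l, l.length = n → φ l = ψ l) :
    Lin n ψ := fun p q e' => by
  convert h p q e' using 2 with x
  exact (e _ (by simp; omega)).symm

lemma lin_del (n : ℕ) : ∀ g : List A → A, Lin n g → Lin (n + 1) (del g) := by
  induction n with
  | zero =>
    intro g _
    refine lin_succ.2 ⟨fun l hl => ?_, fun x p q e => by omega⟩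
    rw [List.length_eq_zero_iff.1 hl]
    exact (-LinearMap.mulLeft ℂ (g [])).isLinear
  | succ n ih =>
    intro g hg
    obtain ⟨h1, h2⟩ := lin_succ.1 hg
    refine lin_succ.2 ⟨fun l hl => ?_, fun x => lin_succ.2 ⟨fun r hr => ?_, fun y => ?_⟩⟩
    · obtain _ | ⟨y, r⟩ := l
      · simp at hl
      have h3 := h1 r (by simpa using hl)
      constructor
      · intro a b
        simp only [del]
        rw [add_mul, h3.1, del_congr _ _ _ fun l e => (h1 l (by omega)).1 a b, del_add]; abel
      · intro c a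
        simp only [del]
        rw [smul_mul_assoc, h3.2, del_congr _ _ _ fun l e => (h1 l (by omega)).2 c a, del_smul,
          smul_sub, smul_neg]
    · exact (-(il_comp (h1 r hr) (LinearMap.mulLeft ℂ x)).mk' _ -
        ((lin_succ.1 (ih _ (h2 x))).1 r hr).mk' _).isLinear
    · simpa only [del, sub_eq_add_neg] using
        lin_add (lin_neg (h2 (x * y))) (lin_neg ((lin_succ.1 (ih _ (h2 x))).2 y))

lemma lin_dd {n : ℕ} {g : List A → A} (h : Lin n g) : Lin (n + 1) (dd g) :=
  lin_add (lin_succ.2 ⟨fun l _ => (LinearMap.mulRight ℂ (g l)).isLinear, fun x => lin_mul x h⟩)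
    (lin_del n g h)

lemma np_nonneg (l : List A) : 0 ≤ np l := List.prod_nonneg (by simp)

lemma cob_add {n : ℕ} {φ ψ : List A → A} (h : Cob n φ) (h' : Cob n ψ) :
    Cob n fun l => φ l + ψ l := by
  obtain ⟨g, C, h1, h2, h3⟩ := h
  obtain ⟨g', C', k1, k2, k3⟩ := h'
  exact ⟨_, C + C', lin_add h1 k1, fun l hl => by
    rw [add_mul]; exact norm_add_le_of_le (h2 l hl) (k2 l hl), fun l hl => by
    rw [dd_add, h3 l hl, k3 l hl]⟩

/-- The invariant family attached to a cochain. -/
def KK (n : ℕ) (φ : List A → A) : Set (List A → A → A) :=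
  {ψ | (∀ l, IsLinearMap ℂ (ψ l)) ∧ (∀ x, Lin n fun l => ψ l x) ∧ ∀ m y l, l.length = n →
    m * φ (y :: l) = ψ l (m * y) + del (fun r => ψ r m) (y :: l)}

variable {n : ℕ} {φ : List A → A}

lemma kk_mem (h : Lin (n + 1) φ) (hc : Coc (n + 1) φ) :
    (fun l x => if l.length = n then φ (x :: l) else 0) ∈ KK n φ := by
  refine ⟨fun l => ?_, fun x => lin_congr ((lin_succ.1 h).2 x) fun l hl => (if_pos hl).symm,
    fun m y l hl => ?_⟩
  · by_cases hl : l.length = n <;> simp only [hl, if_true, if_false]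
    exacts [(lin_succ.1 h).1 l hl, (0 : A →ₗ[ℂ] A).isLinear]
  · have := hc (m :: y :: l) (by simp [hl])
    simp only [dd, lam, del] at this
    simp only [if_pos hl]
    rw [del_congr _ _ (fun r => φ (m :: r)) fun r hr => if_pos (by simpa [hl] using hr)]
    linear_combination (norm := abel) this

lemma kk_convex : Convex ℝ (KK n φ) := by
  rintro ψ ⟨h1, h2, h3⟩ ψ' ⟨k1, k2, k3⟩ a b - - hab
  rw [show a • ψ + b • ψ' = fun l x => algebraMap ℝ A a * ψ l x + algebraMap ℝ A b * ψ' l x by
    ext; simp [Algebra.smul_def]]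
  refine ⟨fun l => il_add (il_mul _ (h1 l)) (il_mul _ (k1 l)),
    fun x => lin_add (lin_mul _ (h2 x)) (lin_mul _ (k2 x)), fun m y l hl => ?_⟩
  rw [del_add, del_mul, del_mul, add_add_add_comm, ← mul_add, ← mul_add, ← h3 m y l hl,
    ← k3 m y l hl, ← add_mul, ← map_add, hab, map_one, one_mul]

lemma kk_inv {ψ : List A → A → A} (h : ψ ∈ KK n φ) {k : ℕ} (m : Fin k → A)
    (hm : ∑ j, star (m j) * m j = 1) : (fun i a => ∑ j, star (m j) * ψ i (m j * a)) ∈ KK n φ := by
  obtain ⟨h1, h2, h3⟩ := h
  have : ∀ f : Fin k → A → A, (∀ j, IsLinearMap ℂ (f j)) → IsLinearMap ℂ fun x => ∑ j, f j x :=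
    fun f hf => by simpa [Finset.sum_fn] using (∑ j, (hf j).mk' _).isLinear
  refine ⟨fun l => this _ fun j => il_mul _ (il_comp (h1 l) (LinearMap.mulLeft ℂ (m j))),
    fun x p q e => this _ fun j => il_mul _ (h2 _ p q e), fun a y l hl => ?_⟩
  rw [del_sum, ← Finset.sum_add_distrib, ← one_mul (a * _), ← hm, Finset.sum_mul]
  refine Finset.sum_congr rfl fun j _ => ?_
  rw [del_mul, ← mul_add, ← mul_assoc (m j), ← h3 _ y l hl, mul_assoc, mul_assoc]

lemma kk_cob {ψ : List A → A → A} (h : ψ ∈ KK n φ) {C : ℝ} (hC : 0 ≤ C)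
    (h1 : ∀ l a, ‖ψ l a‖ ≤ C * np l * ‖a‖) (h2 : ∀ l m a, ψ l (m * a) = m * ψ l a) : Cob n φ := by
  refine ⟨fun l => ψ l 1, C, h.2.1 1, fun l _ => (h1 l 1).trans (mul_le_of_le_one_right
    (mul_nonneg hC (np_nonneg l)) (IsStarProjection.one A).norm_le), fun l hl => ?_⟩
  obtain _ | ⟨y, l⟩ := l
  · simp at hl
  have := h.2.2 1 y l (by simpa using hl)
  rw [one_mul, one_mul] at this
  rw [this, dd, lam, ← h2, mul_one]

end alg

variable {H : Type u} [NormedAddCommGroup H] [InnerProductSpace ℂ H] [CompleteSpace H]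
variable {M : VonNeumannAlgebra H} {I : Type v} {𝓕 : Filter I}

lemma wl_del (l : List (Al M)) : ∀ (F : I → List (Al M) → Al M) (G : List (Al M) → Al M),
    (∀ r, r.length + 1 = l.length → WL 𝓕 (fun i => F i r) (G r)) →
    WL 𝓕 (fun i => del (F i) l) (del G l) := by
  induction l with
  | nil => intro F G _; exact WL.const _ _
  | cons x l ih =>
    cases l with
    | nil => intro F G h; exact ((h [] rfl).mul_right x).neg
    | cons y r =>
      intro F G h
      exact (h (x * y :: r) rfl).neg.sub (ih _ _ fun l hl => h _ (by simp [hl]))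

lemma wl_lin [𝓕.NeBot] {F : I → Al M → Al M} {G : Al M → Al M}
    (h : ∀ x, WL 𝓕 (fun i => F i x) (G x)) (h' : ∀ᶠ i in 𝓕, IsLinearMap ℂ (F i)) :
    IsLinearMap ℂ G :=
  ⟨fun x y => (h _).eq_of_eventually ((h x).add (h y)) (h'.mono fun _ hi => hi.1 x y),
    fun c x => (h _).eq_of_eventually ((h x).smul c) (h'.mono fun _ hi => hi.2 c x)⟩

lemma kk_wcl {n : ℕ} {φ : List (Al M) → Al M} : WCl (KK n φ) := fun 𝓕 _ h _ hψ =>
  ⟨fun l => wl_lin (hψ l) (mem_of_superset h fun _ hi => hi.1 l),
    fun x p q e => wl_lin (fun _ => hψ _ x) (mem_of_superset h fun _ hi => hi.2.1 x p q e),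
    fun m y l hl => (WL.const 𝓕 _).eq_of_eventually ((hψ _ _).add (wl_del _ _ _ fun r _ => hψ r m))
      (mem_of_superset h fun _ hi => hi.2.2 m y l hl)⟩

lemma wl_rc [𝓕.NeBot] {α β : Type} [Fintype α] [Fintype β] {x : I → α → β → Al M}
    {y : α → β → Al M} (h : ∀ a b, WL 𝓕 (fun i => x i a b) (y a b)) {c : ℝ}
    (h' : ∀ᶠ i in 𝓕, RC (x i) c) : RC y c := fun ξ => by
  have h1 := tendsto_finsetSum Finset.univ fun a _ => Complex.continuous_re.tendsto _ |>.comp
    (tendsto_finsetSum Finset.univ fun b _ => h a b (∑ b, ap (y a b) (ξ b)) (ξ b))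
  simp only [← inner_sum, Function.comp_def] at h1
  have h2 := le_of_tendsto h1 (b := (∑ a, ‖∑ b, ap (y a b) (ξ b)‖ ^ 2 +
    c ^ 2 * ∑ b, ‖ξ b‖ ^ 2) / 2) (h'.mono fun i hi => by
      refine le_trans ?_ (div_le_div_of_nonneg_right (add_le_add_right (hi ξ) _) zero_le_two)
      rw [← Finset.sum_add_distrib, Finset.sum_div]
      refine Finset.sum_le_sum fun a _ => (re_inner_le_norm (𝕜 := ℂ) _ _).trans ?_
      linarith [two_mul_le_add_sq ‖∑ b, ap (y a b) (ξ b)‖ ‖∑ b, ap (x i a b) (ξ b)‖])
  simp only [show ∀ v : H, (⟪v, v⟫_ℂ).re = ‖v‖ ^ 2 from inner_self_eq_norm_sq (𝕜 := ℂ)] at h2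
  linarith

end LTm

open LTm in
theorem listThm (hS : Split.{u}) (hP : Prism.{u}) (hB : FixCB.{u}) (hF : FixFin.{u}) :
    ListThm.{u} := by
  intro H _ _ _ M n φ C hC h1 h2 h3
  obtain ⟨c, c1, c2, c3⟩ := hS H M
  have c4 : CP (1 - c) := ⟨c1.1.one_sub, fun x => by rw [sub_mul, mul_sub, c1.2, one_mul, mul_one]⟩
  have cut : ∀ z : Al M, CP z → Lin (n + 1) (fun l => z * φ l) ∧ Bd (n + 1) C (fun l => z * φ l) ∧
      Coc (n + 1) (fun l => z * φ l) ∧ ∀ l, z * (z * φ l) = z * φ l := fun z hz =>
    ⟨lin_mul z h1, fun l hl => (norm_mul_le _ _).trans ((mul_le_of_le_one_left (norm_nonneg _)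
      hz.1.norm_le).trans (h2 l hl)), fun l hl => by rw [dd_cen hz.2, h3 l hl, mul_zero],
      fun l => by rw [← mul_assoc, hz.1.isIdempotentElem.eq]⟩
  have hnp : ∀ l : List (Al M), 0 ≤ C * np l := fun l => mul_nonneg hC (np_nonneg l)
  have main : Cob n (fun l => c * φ l) ∧ Cob n fun l => (1 - c) * φ l := by
    constructor
    · obtain ⟨k1, k2, k3, k4⟩ := cut c c1
      choose g g1 g2 g3 using hP H M c c1 c2 n _ C hC k1 k2 k3 k4
      set φ := fun l => c * φ l
      have : ∀ l : List (Al M), ∃ a : Al M, l.length = n → ‖a‖ ≤ (n + 1) * C * np l ∧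
          WL (hyperfilter ℕ) (fun k => g k l) a := fun l => by
        by_cases hl : l.length = n
        · simpa [hl] using wotLim _ _ _ (.of_forall fun k => g2 k l hl)
        · simp [hl]
      choose G hG using this
      have G1 : Lin n G := fun p q e => wl_lin (fun x => (hG _ (by simp; omega)).2)
        (.of_forall fun k => g1 k p q e)
      have G2 : Coc (n + 1) fun l => φ l + dd G l := fun l hl => by
        obtain _ | ⟨x, _ | ⟨y, r⟩⟩ := l
        · simp at hl
        · simp at hl
        · rw [dd_add, k3 _ hl, dd_dd, add_zero]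
      have G3 : ∀ l k, CBk k (fun x => if l.length = n then φ (x :: l) + dd G (x :: l) else 0)
          (C * np l) := fun l k α β _ _ a1 a2 x hx => by
        by_cases hl : l.length = n <;> simp only [hl, if_true, if_false]
        · refine wl_rc (fun a b => ?_) (((eventually_ge_atTop k).filter_mono
            Nat.hyperfilter_le_atTop).mono fun j hj => g3 j l hl α β (a1.trans hj) (a2.trans hj) x hx)
          exact (WL.const _ _).add (((hG l hl).2.mul_left _).add (wl_del (x a b :: l) _ _
            fun r hr => (hG r (by simpa [hl] using hr)).2))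
        · intro ξ; simp only [ap_zero, Finset.sum_const_zero, norm_zero]; simp; positivity
      obtain ⟨ψ, p1, p2⟩ := hB H M _ (fun l => C * np l) (KK n fun l => φ l + dd G l) kk_convex
        kk_wcl (fun ψ h => h.1) (fun ψ h k => kk_inv h) hnp
        ⟨_, kk_mem (lin_add k1 (lin_dd G1)) G2, G3⟩
      simpa using cob_add (kk_cob p1 hC (fun l => (p2 l).1) fun l => (p2 l).2)
        ⟨_, _, lin_neg G1, fun l hl => (norm_neg _).trans_le (hG l hl).1, fun l _ => dd_neg G l⟩
    · obtain ⟨k1, k2, k3, k4⟩ := cut _ c4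
      refine (hF H M _ c4 c3 _ (fun l => C * np l) (KK n (fun l => (1 - c) * φ l) ∩
        {ψ | ∀ l a, ‖ψ l a‖ ≤ C * np l * ‖a‖ ∧ (1 - c) * ψ l a = ψ l a})
        ⟨_, kk_mem k1 k3, fun l a => by
          by_cases hl : l.length = n <;> simp only [hl, if_true, if_false]
          · exact ⟨(k2 (a :: l) (by simp [hl])).trans_eq (by simp [np]; ring), k4 _⟩
          · simpa using mul_nonneg (hnp l) (norm_nonneg a)⟩ (kk_convex.inter ?_) ?_ hnp
        (fun ψ hψ l => ⟨hψ.1.1 l, hψ.2 l⟩) fun ψ hψ u hu => ⟨?_, fun l a => ⟨?_, ?_⟩⟩).elim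
        fun ψ ⟨⟨p1, p2⟩, p3⟩ => kk_cob p1 hC (fun l a => (p2 l a).1) p3
      · intro ψ h ψ' h' a b ha hb hab l x
        refine ⟨(norm_add_le _ _).trans ?_, ?_⟩
        · simp only [Pi.smul_apply, norm_smul, Real.norm_of_nonneg ha, Real.norm_of_nonneg hb]
          linarith [mul_le_mul_of_nonneg_left (h l x).1 ha, mul_le_mul_of_nonneg_left (h' l x).1 hb,
            show _ = a * (C * np l * ‖x‖) + b * (C * np l * ‖x‖) by rw [← add_mul, hab, one_mul]]
        · simp only [Pi.add_apply, Pi.smul_apply, mul_add, mul_smul_comm, (h l x).2, (h' l x).2]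
      · exact fun 𝓕 _ h ψ hψ => ⟨kk_wcl 𝓕 ‹_› (mem_of_superset h fun _ hi => hi.1) ψ hψ, fun l a =>
          ⟨(hψ l a).norm_le (mem_of_superset h fun _ hi => (hi.2 l a).1), ((hψ l a).mul_left
            _).eq_of_eventually (hψ l a) (mem_of_superset h fun _ hi => (hi.2 l a).2)⟩⟩
      · simpa using kk_inv hψ.1 (k := 1) (fun _ => u) (by simpa using hu.1)
      · rw [CStarRing.norm_mem_unitary_mul _ (Unitary.star_mem hu),
          ← CStarRing.norm_mem_unitary_mul a hu]
        exact (hψ.2 l _).1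
      · rw [← mul_assoc, c4.2, mul_assoc, (hψ.2 l _).2]
  simpa [sub_mul] using cob_add main.1 main.2

end Crest.Agent.HH
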