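import Crest.Agent.HH.Defs

/-! Basic API for means. -/

set_option autoImplicit false
open scoped ComplexConjugate BigOperators
open Filter Topology

namespace Crest.Agent.HH

universe u v w

namespace Mean
variable {X : Type v} {Y : Type w} (m : Mean X)

lemma const (c : ℂ) : m.L (fun _ => c) = c := by
  have : (fun _ : X => c) = c • fun _ : X => (1 : ℂ) := by ext; simp
  rw [this, map_smul, m.one, smul_eq_mul, mul_one]

lemma add (f g : X → ℂ) : m.L (fun x => f x + g x) = m.L f + m.L g := map_add m.L f g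
lemma sub (f g : X → ℂ) : m.L (fun x => f x - g x) = m.L f - m.L g := map_sub m.L f g
lemma neg (f : X → ℂ) : m.L (fun x => - f x) = - m.L f := map_neg m.L f
lemma cmul (c : ℂ) (f : X → ℂ) : m.L (fun x => c * f x) = c * m.L f := map_smul m.L c f
lemma mulc (c : ℂ) (f : X → ℂ) : m.L (fun x => f x * c) = m.L f * c := by
  simp_rw [mul_comm _ c]; exact m.cmul c f
lemma sum {ι : Type*} (s : Finset ι) (f : ι → X → ℂ) :
    m.L (fun x => ∑ i ∈ s, f i x) = ∑ i ∈ s, m.L (f i) := by
  rw [← map_sum]; congr 1; ext x; simp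

lemma norm_le {f : X → ℂ} {B : ℝ} (h : ∀ x, ‖f x‖ ≤ B) : ‖m.L f‖ ≤ B := by
  have := m.le f (fun _ => B) B (fun _ => le_rfl) h
  rwa [m.const, Complex.ofReal_re] at this

lemma norm_sub_le {f g : X → ℂ} {B : ℝ} (h : ∀ x, ‖f x - g x‖ ≤ B) : ‖m.L f - m.L g‖ ≤ B := by
  rw [← m.sub]; exact m.norm_le h

lemma norm_sub_const_le {f : X → ℂ} {c : ℂ} {B : ℝ} (h : ∀ x, ‖f x - c‖ ≤ B) :
    ‖m.L f - c‖ ≤ B := by
  have := m.norm_sub_le (g := fun _ => c) h
  rwa [m.const] at this

lemma nonempty (m : Mean X) : Nonempty X := by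
  by_contra h
  rw [not_nonempty_iff] at h
  have := m.norm_le (f := fun _ => 1) (B := 0) fun x => isEmptyElim x
  rw [m.one, norm_one] at this
  linarith

lemma re_nonneg {g : X → ℝ} {B : ℝ} (h0 : ∀ x, 0 ≤ g x) (hB : ∀ x, g x ≤ B) :
    0 ≤ (m.L fun x => (g x : ℂ)).re :=
  (norm_nonneg _).trans (m.le 0 g B hB fun x => by simpa using h0 x)

/-- The mean of a bounded nonnegative function is real. -/
lemma ofReal_re {g : X → ℝ} {B : ℝ} (h0 : ∀ x, 0 ≤ g x) (hB : ∀ x, g x ≤ B) :
    (((m.L fun x => (g x : ℂ)).re : ℝ) : ℂ) = m.L fun x => (g x : ℂ) := by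
  have h := m.le (fun x => (g x : ℂ)) g B hB fun x => by
    rw [Complex.norm_real, Real.norm_of_nonneg (h0 x)]
  refine Complex.ext (by simp) ?_
  have h1 := Complex.sq_norm (m.L fun x => (g x : ℂ))
  rw [Complex.normSq_apply] at h1
  have h2 := norm_nonneg (m.L fun x => (g x : ℂ))
  have : (m.L fun x => (g x : ℂ)).im = 0 := by nlinarith
  simp [this]

lemma re_mono {f g : X → ℝ} {B : ℝ} (h : ∀ x, f x ≤ g x) (hB : ∀ x, g x - f x ≤ B) :
    (m.L fun x => (f x : ℂ)).re ≤ (m.L fun x => (g x : ℂ)).re := by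
  have := m.re_nonneg (g := fun x => g x - f x) (fun x => sub_nonneg.2 (h x)) hB
  simp only [Complex.ofReal_sub] at this
  rw [m.sub, Complex.sub_re] at this
  linarith

lemma re_le {g : X → ℝ} {B : ℝ} (h0 : ∀ x, 0 ≤ g x) (hB : ∀ x, g x ≤ B) :
    (m.L fun x => (g x : ℂ)).re ≤ B :=
  (Complex.re_le_norm _).trans (m.norm_le fun x => by
    rw [Complex.norm_real, Real.norm_of_nonneg (h0 x)]; exact hB x)

/-- Point evaluation. -/
def pure (x : X) : Mean X where
  L := LinearMap.proj x
  one := rfl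
  le f g B _ h := by simpa using h x

@[simp] lemma pure_L (x : X) (f : X → ℂ) : (pure x).L f = f x := rfl

/-- Push forward. -/
def map (F : X → Y) : Mean Y where
  L := m.L ∘ₗ LinearMap.funLeft ℂ ℂ F
  one := m.one
  le f g B hB h := m.le (fun x => f (F x)) (fun x => g (F x)) B (fun x => hB _) fun x => h _

@[simp] lemma map_L (F : X → Y) (f : Y → ℂ) : (m.map F).L f = m.L fun x => f (F x) := rfl

/-- Iterated mean. -/
def bind (k : X → Mean Y) : Mean Y where
  L := m.L ∘ₗ LinearMap.pi fun x => (k x).L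
  one := by
    change m.L (fun x => (k x).L fun _ => 1) = 1
    simp only [Mean.one]
  le f g B hB h := by
    have h0 : ∀ y, 0 ≤ g y := fun y => (norm_nonneg _).trans (h y)
    change ‖m.L (fun x => (k x).L f)‖ ≤ (m.L fun x => (k x).L fun y => (g y : ℂ)).re
    have := m.le (fun x => (k x).L f) (fun x => ((k x).L fun y => (g y : ℂ)).re) B
      (fun x => (k x).re_le h0 hB) fun x => (k x).le f g B hB h
    simpa only [fun x => (k x).ofReal_re h0 hB] using this

@[simp] lemma bind_L (k : X → Mean Y) (f : Y → ℂ) :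
    (m.bind k).L f = m.L fun x => (k x).L f := rfl

/-- Uniform average over a finite type. -/
noncomputable def avg (ι : Type v) [Fintype ι] [Nonempty ι] : Mean ι where
  L :=
    { toFun := fun f => (Fintype.card ι : ℂ)⁻¹ * ∑ i, f i
      map_add' := fun f g => by simp [Finset.sum_add_distrib, mul_add]
      map_smul' := fun c f => by simp [← Finset.mul_sum, mul_left_comm] }
  one := by simp
  le f g B _ h := by
    simp only [LinearMap.coe_mk, AddHom.coe_mk, norm_mul, norm_inv, Complex.norm_natCast]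
    rw [← Complex.ofReal_sum, ← Complex.ofReal_natCast, ← Complex.ofReal_inv,
      ← Complex.ofReal_mul, Complex.ofReal_re]
    gcongr
    exact (norm_sum_le _ _).trans (Finset.sum_le_sum fun i _ => h i)

lemma avg_L (ι : Type v) [Fintype ι] [Nonempty ι] (f : ι → ℂ) :
    (avg ι).L f = (Fintype.card ι : ℂ)⁻¹ * ∑ i, f i := rfl

/-- Finite averages commute with means. -/
lemma avg_comm (ι : Type w) [Fintype ι] [Nonempty ι] (f : ι → X → ℂ) :
    (avg ι).L (fun i => m.L (f i)) = m.L fun x => (avg ι).L fun i => f i x := by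
  simp only [avg_L]
  rw [m.cmul, m.sum]

/-- Convex combinations. -/
noncomputable def mix (m m' : Mean X) (a b : ℝ) (ha : 0 ≤ a) (hb : 0 ≤ b) (hab : a + b = 1) :
    Mean X where
  L := (a : ℂ) • m.L + (b : ℂ) • m'.L
  one := by
    simp only [LinearMap.add_apply, LinearMap.smul_apply, Mean.one, smul_eq_mul, mul_one]
    exact_mod_cast hab
  le f g B hB h := by
    simp only [LinearMap.add_apply, LinearMap.smul_apply, smul_eq_mul, Complex.add_re,
      Complex.re_ofReal_mul]
    refine (norm_add_le _ _).trans (add_le_add ?_ ?_)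
    · rw [norm_mul, Complex.norm_real, Real.norm_of_nonneg ha]
      exact mul_le_mul_of_nonneg_left (m.le f g B hB h) ha
    · rw [norm_mul, Complex.norm_real, Real.norm_of_nonneg hb]
      exact mul_le_mul_of_nonneg_left (m'.le f g B hB h) hb

lemma mix_L (m m' : Mean X) (a b : ℝ) (ha : 0 ≤ a) (hb : 0 ≤ b) (hab : a + b = 1) (f : X → ℂ) :
    (mix m m' a b ha hb hab).L f = a * m.L f + b * m'.L f := rfl

end Mean

/-- Bounded families converge along ultrafilters. -/
lemma exists_ulim_complex {I : Type w} (𝒰 : Ultrafilter I) (f : I → ℂ) (B : ℝ)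
    (h : ∀ i, ‖f i‖ ≤ B) : ∃ c, Tendsto f 𝒰 (𝓝 c) := by
  obtain ⟨c, -, hc⟩ := (isCompact_closedBall (0 : ℂ) B).ultrafilter_le_nhds (𝒰.map f) (by
    rw [Ultrafilter.coe_map, le_principal_iff, mem_map]
    exact univ_mem' fun i => by simpa using h i)
  exact ⟨c, hc⟩

/-- Ultralimits of means. -/
theorem Mean.exists_ulim {X : Type v} {I : Type w} (𝒰 : Ultrafilter I) (m : I → Mean X) :
    ∃ M : Mean X, ∀ (f : X → ℂ) (B : ℝ), (∀ x, ‖f x‖ ≤ B) →
      Tendsto (fun i => (m i).L f) 𝒰 (𝓝 (M.L f)) := by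
  let S : Submodule ℂ (X → ℂ) :=
    { carrier := {f | ∃ c, Tendsto (fun i => (m i).L f) 𝒰 (𝓝 c)}
      add_mem' := by
        rintro f g ⟨c, hc⟩ ⟨d, hd⟩
        exact ⟨c + d, by simpa only [map_add] using hc.add hd⟩
      zero_mem' := ⟨0, by simpa only [map_zero] using tendsto_const_nhds⟩
      smul_mem' := by
        rintro a f ⟨c, hc⟩
        exact ⟨a • c, by simpa only [map_smul] using hc.const_smul a⟩ }
  have hS : ∀ f : S, ∃ c, Tendsto (fun i => (m i).L f) 𝒰 (𝓝 c) := fun f => f.2
  choose l hl using hS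
  let l' : S →ₗ[ℂ] ℂ :=
    { toFun := l
      map_add' := fun f g => tendsto_nhds_unique (hl (f + g)) (by
        simpa only [Submodule.coe_add, map_add] using (hl f).add (hl g))
      map_smul' := fun a f => tendsto_nhds_unique (hl (a • f)) (by
        simpa only [Submodule.coe_smul, map_smul, RingHom.id_apply] using (hl f).const_smul a) }
  obtain ⟨L, hL⟩ := LinearMap.exists_extend l'
  have key : ∀ (f : X → ℂ) (B : ℝ), (∀ x, ‖f x‖ ≤ B) →
      Tendsto (fun i => (m i).L f) 𝒰 (𝓝 (L f)) := fun f B h => by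
    have hf : f ∈ S := exists_ulim_complex 𝒰 _ B fun i => (m i).norm_le h
    have : L f = l ⟨f, hf⟩ := LinearMap.congr_fun hL ⟨f, hf⟩
    rw [this]; exact hl ⟨f, hf⟩
  refine ⟨⟨L, ?_, fun f g B hB h => ?_⟩, key⟩
  · refine tendsto_nhds_unique (key _ 1 fun _ => by simp) ?_
    simpa only [Mean.one] using tendsto_const_nhds
  · have h0 : ∀ y, 0 ≤ g y := fun y => (norm_nonneg _).trans (h y)
    have h1 := (key f B fun x => (h x).trans (hB x)).norm
    have h2 := (Complex.continuous_re.tendsto _).comp (key (fun x => (g x : ℂ)) B fun x => by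
      rw [Complex.norm_real, Real.norm_of_nonneg (h0 x)]; exact hB x)
    exact le_of_tendsto_of_tendsto' h1 h2 fun i => (m i).le f g B hB h

end Crest.Agent.HH
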