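import Crest.Agent.HH.Defs

/-! Job N: the central part in `L²` and free-looking unitaries. -/

set_option autoImplicit false
open scoped ComplexConjugate InnerProductSpace BigOperators
open Filter Topology

namespace Crest.Agent.HH
open Crest.Agent.GEN

universe u

namespace Nux
variable {A : Type u} [CStarAlgebra A] (T : Tr A)

/-- The embedding in `L²`. -/
noncomputable def io : A →ₗ[ℂ] UniformSpace.Completion T.L :=
  (UniformSpace.Completion.toComplL (𝕜 := ℂ) (E := T.L)).toLinearMap ∘ₗ T.toL.toLinearMap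

lemma io_apply (a : A) : io T a = ((T.toL a : T.L) : UniformSpace.Completion T.L) := rfl

lemma inner_io (a b : A) : ⟪io T a, io T b⟫_ℂ = T.τ (star a * b) := by
  rw [io_apply, io_apply, UniformSpace.Completion.inner_coe, T.inner_toL]

lemma norm_io (a : A) : ‖io T a‖ = T.n2 a := by
  rw [io_apply, UniformSpace.Completion.norm_coe]; rfl

lemma piZ_eq (a : A) : piZ T a = (ZS T).starProjection (io T a) := rfl

lemma cen_star {z : A} (hz : Cen z) : Cen (star z) := fun x => by
  have := congrArg star (hz (star x))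
  simpa using this.symm

lemma cen_mul {z w : A} (hz : Cen z) (hw : Cen w) : Cen (z * w) := fun x => by
  rw [mul_assoc, hw, ← mul_assoc, hz, mul_assoc]

/-- The centre as a subspace. -/
def cenS (A : Type u) [CStarAlgebra A] : Submodule ℂ A where
  carrier := {z | Cen z}
  add_mem' := fun {a b} ha hb x => by rw [add_mul, mul_add, ha, hb]
  zero_mem' := fun x => by simp
  smul_mem' := fun c a ha x => by rw [smul_mul_assoc, mul_smul_comm, ha]

lemma coe_ZS : (ZS T : Set (UniformSpace.Completion T.L)) = closure (io T '' {z | Cen z}) := by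
  have : Submodule.span ℂ
      {v | ∃ z : A, Cen z ∧ v = ((T.toL z : T.L) : UniformSpace.Completion T.L)} =
      (cenS A).map (io T) := by
    rw [← Submodule.span_eq ((cenS A).map (io T))]
    congr 1
    ext v
    simp only [Set.mem_ofPred_eq, Submodule.map_coe, Set.mem_image]
    exact ⟨fun ⟨z, hz, h⟩ => ⟨z, hz, h.symm⟩, fun ⟨z, hz, h⟩ => ⟨z, hz, h.symm⟩⟩
  rw [ZS, this, Submodule.topologicalClosure_coe]
  rfl

lemma io_mem {z : A} (hz : Cen z) : io T z ∈ ZS T := by
  rw [← SetLike.mem_coe, coe_ZS]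
  exact subset_closure ⟨z, hz, rfl⟩

lemma inner_piZ {z : A} (hz : Cen z) (a : A) : ⟪io T z, piZ T a⟫_ℂ = T.τ (star z * a) := by
  rw [piZ_eq, ← Submodule.inner_starProjection_left_eq_right,
    Submodule.starProjection_eq_self_iff.2 (io_mem T hz), inner_io]

lemma inner_self (a : A) : ⟪piZ T a, io T a⟫_ℂ = ((nu T a ^ 2 : ℝ) : ℂ) := by
  have h : (ZS T).starProjection (piZ T a) = piZ T a :=
    Submodule.starProjection_eq_self_iff.2 (Submodule.starProjection_apply_mem _ _)
  rw [← h, Submodule.inner_starProjection_left_eq_right, ← piZ_eq, inner_self_eq_norm_sq_to_K, nu]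
  simp

lemma le_nu {z : A} (hz : Cen z) (a : A) : ‖T.τ (star z * a)‖ ≤ T.n2 z * nu T a := by
  rw [← inner_piZ T hz, ← norm_io]
  exact norm_inner_le_norm _ _

lemma bessel {N : ℕ} (y : Fin N → A) {r : ℝ}
    (h : ∀ z : Fin N → A, (∀ b, Cen (z b)) →
      ‖∑ b, T.τ (star (z b) * y b)‖ ^ 2 ≤ (∑ b, T.n2 (z b) ^ 2) * r) (hr : 0 ≤ r) :
    ∑ b, nu T (y b) ^ 2 ≤ r := by
  have hc : IsClosed {v : Fin N → UniformSpace.Completion T.L |
      ‖∑ b, ⟪v b, io T (y b)⟫_ℂ‖ ^ 2 ≤ (∑ b, ‖v b‖ ^ 2) * r} := by
    refine isClosed_le ?_ ?_ <;> fun_prop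
  have hs : Set.pi Set.univ (fun _ : Fin N => io T '' {z | Cen z}) ⊆
      {v : Fin N → UniformSpace.Completion T.L |
        ‖∑ b, ⟪v b, io T (y b)⟫_ℂ‖ ^ 2 ≤ (∑ b, ‖v b‖ ^ 2) * r} := fun v hv => by
    have : ∀ b, ∃ z, Cen z ∧ io T z = v b := fun b => hv b (Set.mem_univ _)
    choose z hz hzv using this
    have := h z hz
    simp only [Set.mem_ofPred_eq, ← hzv, inner_io, norm_io]
    exact this
  have hm : (fun b => piZ T (y b)) ∈
      closure (Set.pi Set.univ (fun _ : Fin N => io T '' {z | Cen z})) := by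
    rw [closure_pi_set]
    intro b _
    rw [← coe_ZS]
    exact Submodule.starProjection_apply_mem _ _
  have := closure_minimal hs hc hm
  simp only [Set.mem_ofPred_eq, inner_self] at this
  rw [← Complex.ofReal_sum, Complex.norm_real, Real.norm_eq_abs, sq_abs] at this
  change (∑ b, nu T (y b) ^ 2) ^ 2 ≤ (∑ b, nu T (y b) ^ 2) * r at this
  have h0 : 0 ≤ ∑ b, nu T (y b) ^ 2 := Finset.sum_nonneg fun b _ => sq_nonneg _
  by_contra hlt
  push Not at hlt
  nlinarith

lemma nu_le {a : A} {r : ℝ} (hr : 0 ≤ r)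
    (h : ∀ z, Cen z → ‖T.τ (star z * a)‖ ≤ T.n2 z * r) : nu T a ≤ r := by
  have := bessel T (N := 1) (fun _ => a) (r := r ^ 2) (fun z hz => by
    simp only [Finset.univ_unique, Finset.sum_singleton]
    rw [← mul_pow]
    exact pow_le_pow_left₀ (norm_nonneg _) (h _ (hz _)) 2) (sq_nonneg _)
  simp only [Finset.univ_unique, Finset.sum_singleton] at this
  exact (pow_le_pow_iff_left₀ (norm_nonneg _) hr two_ne_zero).1 this

lemma nu_star_le (a : A) : nu T (star a) ≤ nu T a := nu_le T (norm_nonneg _) fun z hz => by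
  have := le_nu T (cen_star hz) a
  rw [star_star, T.n2_star] at this
  rwa [← star_mul, T.map_star, Complex.norm_conj, ← hz]

lemma piZ_comm (a b : A) : piZ T (a * b) = piZ T (b * a) := by
  rw [← sub_eq_zero, piZ_eq, piZ_eq, ← map_sub, ← map_sub, ← piZ_eq, ← norm_le_zero_iff]
  refine nu_le T le_rfl fun z hz => ?_
  rw [mul_sub, map_sub, ← mul_assoc, T.comm, ← mul_assoc, ← cen_star hz, mul_assoc]
  simp

lemma span_cen (S : Submodule ℂ A) (h : ∀ u ∈ unitary A, Cen u → u ∈ S) (z : A) (hz : Cen z) :
    z ∈ S := by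
  let Z : StarSubalgebra ℂ A := StarSubalgebra.centralizer ℂ (Set.univ : Set A)
  have hZ : ∀ x, x ∈ Z ↔ Cen x := fun x => by
    rw [StarSubalgebra.mem_centralizer_iff]
    exact ⟨fun h y => (h y (Set.mem_univ _)).1.symm, fun h y _ => ⟨(h _).symm, (h _).symm⟩⟩
  have : IsClosed (Z : Set A) := by
    have : (Z : Set A) = Set.centralizer Set.univ := by
      ext x
      rw [SetLike.mem_coe, hZ]
      exact ⟨fun h y _ => (h y).symm, fun h y => (h y (Set.mem_univ _)).symm⟩
    rw [this]
    exact Set.isClosed_centralizer _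
  obtain ⟨u, c, hu, -⟩ := CStarAlgebra.exists_sum_four_unitary (⟨z, (hZ z).2 hz⟩ : Z)
  have := congrArg Subtype.val hu
  simp only [AddSubmonoidClass.coe_finsetSum, SetLike.val_smul] at this
  rw [this]
  refine S.sum_mem fun i _ => S.smul_mem _ (h _ ⟨?_, ?_⟩ ((hZ _).1 (u i).1.2))
  · exact congrArg Subtype.val (u i).2.1
  · exact congrArg Subtype.val (u i).2.2

lemma sig_aux (hH : Halv (1 : A)) (N : ℕ) : ∀ p : A, IsStarProjection p →
    ∃ σ : A, star σ * σ = p ∧ σ * star σ = p ∧ σ * p = σ ∧ p * σ = σ ∧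
      ∀ k : ℕ, 0 < k → k ≤ N → ∀ z, Cen z → T.τ (z * σ ^ k) = 0 := by
  induction N with
  | zero =>
    intro p hp
    have h1 := hp.isIdempotentElem.eq
    have h2 := hp.isSelfAdjoint.star_eq
    exact ⟨p, by rw [h2, h1], by rw [h2, h1], h1, h1, fun k h0 h => absurd h0 (by omega)⟩
  | succ N ih =>
    intro p hp
    obtain ⟨v, hv, hvv, hp'⟩ := hH p hp (one_mul p)
    have hv' : star v * v * star v = star v := by
      have := congrArg star hv
      simpa [mul_assoc] using this
    have hvv' : star v * star v = 0 := by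
      have := congrArg star hvv
      simpa using this
    obtain ⟨s, h1, h2, h3, h4, h5⟩ := ih (star v * v) ⟨by
      rw [IsIdempotentElem, ← mul_assoc, hv'], by simp [IsSelfAdjoint]⟩
    have h3' : star v * v * star s = star s := by
      have := congrArg star h3
      simpa [mul_assoc] using this
    have h4' : star s * (star v * v) = star s := by
      have := congrArg star h4
      simpa [mul_assoc] using this
    have e1 : s * v = 0 := by rw [← h3, mul_assoc, mul_assoc, hvv]; simp
    have e2 : star v * s = 0 := by rw [← h4, ← mul_assoc, ← mul_assoc, hvv']; simp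
    have e3 : star s * v = 0 := by
      have := congrArg star e2
      simpa using this
    have e4 : star v * star s = 0 := by
      have := congrArg star e1
      simpa using this
    obtain ⟨ω, hω⟩ : ∃ ω : ℂ, ω ^ (N + 1) = -1 :=
      IsAlgClosed.exists_pow_nat_eq (-1) (Nat.succ_pos N)
    have hn : ‖ω‖ = 1 := by
      have := congrArg norm hω
      rw [norm_pow, norm_neg, norm_one] at this
      exact (pow_eq_one_iff_of_nonneg (norm_nonneg _) (Nat.succ_ne_zero N)).1 this
    have hc : conj ω * ω = 1 := by rw [Complex.conj_mul', hn]; simp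
    have hpow : ∀ k : ℕ, (s + ω • (v * s * star v)) ^ (k + 1) =
        s ^ (k + 1) + ω ^ (k + 1) • (v * s ^ (k + 1) * star v) := fun k => by
      induction k with
      | zero => simp
      | succ k ihk =>
        have a1 : s ^ (k + 1) * (v * s * star v) = 0 := by
          rw [pow_succ, mul_assoc, ← mul_assoc s, ← mul_assoc s, e1]; simp
        have a2 : v * s ^ (k + 1) * star v * s = 0 := by rw [mul_assoc, e2, mul_zero]
        have a3 : v * s ^ (k + 1) * star v * (v * s * star v) = v * s ^ (k + 1 + 1) * star v := by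
          have : star v * (v * (s * star v)) = s * star v := by
            rw [← mul_assoc, ← mul_assoc, h4]
          simp only [pow_succ s (k + 1), mul_assoc, this]
        rw [pow_succ _ (k + 1), ihk, add_mul, mul_add, mul_add, mul_smul_comm, smul_mul_assoc,
          smul_mul_assoc, mul_smul_comm, a1, a2, a3, smul_smul, ← pow_succ, ← pow_succ]
        simp
    have b1 : ∀ x, star v * (v * (s * x)) = s * x := fun x => by
      rw [← mul_assoc, ← mul_assoc, h4]
    have b2 : ∀ x, star v * (v * (star s * x)) = star s * x := fun x => by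
      rw [← mul_assoc, ← mul_assoc, h3']
    have b3 : ∀ x, star s * (s * x) = star v * (v * x) := fun x => by
      rw [← mul_assoc, h1, mul_assoc]
    have b4 : ∀ x, s * (star s * x) = star v * (v * x) := fun x => by
      rw [← mul_assoc, h2, mul_assoc]
    have b5 : ∀ x, v * (star v * (v * x)) = v * x := fun x => by
      rw [← mul_assoc, ← mul_assoc, hv]
    have b6 : star v * (v * star v) = star v := by rw [← mul_assoc, hv']
    have b7 : ∀ x, s * (v * x) = 0 := fun x => by rw [← mul_assoc, e1, zero_mul]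
    have b8 : ∀ x, star s * (v * x) = 0 := fun x => by rw [← mul_assoc, e3, zero_mul]
    have b9 : ∀ x, v * (v * x) = 0 := fun x => by rw [← mul_assoc, hvv, zero_mul]
    have b10 : ∀ x, star v * (star v * x) = 0 := fun x => by rw [← mul_assoc, hvv', zero_mul]
    have hc' : ω * conj ω = 1 := by rw [mul_comm, hc]
    refine ⟨s + ω • (v * s * star v), ?_, ?_, ?_, ?_, fun k h0 hk z hz => ?_⟩
    · rw [← hp']
      simp [add_mul, mul_add, mul_assoc, smul_smul, h1, b1, b3, b6, b8, e2, hc']
    · rw [← hp']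
      simp [add_mul, mul_add, mul_assoc, smul_smul, h2, b2, b4, b6, b7, e4, hc]
    · rw [← hp']
      simp [add_mul, mul_add, mul_assoc, h3, b6, b7, b10]
    · rw [← hp']
      have h4'' : star v * (v * s) = s := by rw [← mul_assoc, h4]
      simp [add_mul, mul_add, mul_assoc, h4'', b5, b9, e2]
    · obtain ⟨k, rfl⟩ : ∃ j, k = j + 1 := ⟨k - 1, by omega⟩
      have : T.τ (z * (v * s ^ (k + 1) * star v)) = T.τ (z * s ^ (k + 1)) := by
        rw [← mul_assoc, T.comm, ← mul_assoc, ← hz, pow_succ', mul_assoc, b1]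
      rw [hpow, mul_add, mul_smul_comm, map_add, map_smul, this]
      rcases Nat.lt_or_ge k N with h | h
      · rw [h5 (k + 1) h0 h z hz]; simp
      · obtain rfl : k = N := by omega
        rw [hω]; simp

end Nux

open Nux in
theorem nuAPI : NuAPI.{u} := fun A _ T => by
  refine ⟨⟨fun a b => ?_, fun c a => ?_⟩, piZ_comm T, fun a => ?_, fun z hz => ?_,
    fun a => le_antisymm (nu_star_le T a) ?_, fun a h => le_antisymm ?_ (norm_nonneg _),
    fun N σ Y hσ h => bessel T (fun b => σ b * Y) (fun z hz => ?_) (sq_nonneg _), span_cen⟩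
  · simp only [piZ_eq, map_add]
  · simp only [piZ_eq, map_smul]
  · rw [← norm_io]; exact Submodule.norm_starProjection_apply_le _ _
  · rw [← norm_io]; exact Submodule.norm_starProjection_apply _ (io_mem T hz)
  · simpa using nu_star_le T (star a)
  · exact nu_le T le_rfl fun z hz => by rw [h _ (cen_star hz)]; simp
  · have e : ∑ b, T.τ (star (z b) * (σ b * Y)) = T.τ (star (∑ b, star (σ b) * z b) * Y) := by
      simp only [star_sum, star_mul, star_star, Finset.sum_mul, map_sum, mul_assoc]
    have e2 : T.n2 (∑ b, star (σ b) * z b) ^ 2 = ∑ b, T.n2 (z b) ^ 2 := by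
      simp only [T.n2_sq, ← Complex.re_sum, star_sum, star_mul, star_star, Finset.sum_mul,
        Finset.mul_sum, map_sum]
      congr 1
      refine Finset.sum_congr rfl fun b _ => ?_
      rw [Finset.sum_eq_single b]
      · rw [mul_assoc, ← mul_assoc (σ b), Unitary.mul_star_self_of_mem (hσ b), one_mul]
      · intro b' _ hb
        have := le_nu T (cen_mul (cen_star (hz b)) (hz b')) (σ b' * star (σ b))
        rw [h b' b hb, mul_zero, norm_le_zero_iff, star_mul, star_star] at this
        rw [← this, mul_assoc, mul_assoc, hz b, mul_assoc]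
      · simp
    rw [e, ← e2, ← mul_pow]
    refine pow_le_pow_left₀ (norm_nonneg _) ((T.cs _ _).trans ?_) 2
    exact mul_le_mul_of_nonneg_left (T.n2_le_norm Y) (T.n2_nonneg _)

theorem sig : Sig.{u} := fun A _ T hH N => by
  obtain ⟨σ, h1, h2, -, -, h⟩ := Nux.sig_aux T hH N 1 (IsStarProjection.one A)
  exact ⟨σ, ⟨h1, h2⟩, h⟩

end Crest.Agent.HH
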