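import Crest.Agent.HH.Mean
import Crest.Agent.HH.Flow
import Crest.Agent.HH.Nu
import Crest.Agent.HH.BStruct

/-! Job M: existence of the random model. -/

set_option autoImplicit false
open scoped ComplexConjugate InnerProductSpace BigOperators
open Filter Topology

namespace Crest.Agent.HH
open Crest.Agent.GEN

universe u

namespace Modelx
variable {A : Type u} [CStarAlgebra A] {T : Tr A} {C : ℝ}

lemma nu_comm (a b : A) : nu T (a * b) = nu T (b * a) := by
  rw [nu, nu, Nux.piZ_comm]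

lemma nu_le_norm (a : A) : nu T a ≤ ‖a‖ := ((nuAPI A T).2.2.1 a).trans (T.n2_le_norm a)

lemma l1_n2 {Φ : A × A → ℂ} (h : L1B T Φ C) (P x y : A) :
    ‖Φ (P * x, y)‖ ≤ C * (‖P‖ * T.n2 x) * ‖y‖ := by
  refine h _ _ _ fun m hm => ?_
  rw [T.comm, ← mul_assoc]
  refine (T.cs' _ _).trans (mul_le_mul_of_nonneg_right ?_ (T.n2_nonneg _))
  exact (T.n2_le_norm _).trans ((norm_mul_le _ _).trans (mul_le_of_le_one_left (norm_nonneg _) hm))

lemma l1_norm {Φ : A × A → ℂ} (h : L1B T Φ C) (x y : A) : ‖Φ (x, y)‖ ≤ C * ‖x‖ * ‖y‖ := by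
  refine h _ _ _ fun m hm => (T.norm_τ_le _).trans ((norm_mul_le _ _).trans ?_)
  exact mul_le_of_le_one_right (norm_nonneg _) hm

section fam
variable {ι : Type} [Fintype ι] [Nonempty ι]

/-- Average of conjugates. -/
noncomputable def cavg (c : ι → unitary A) (V : A) : A :=
  (Fintype.card ι : ℂ)⁻¹ • ∑ i, (c i : A) * V * star (c i : A)

lemma avg_lin (c : ι → unitary A) (V : A) {f : A → ℂ} (hf : IsLinearMap ℂ f) :
    (Mean.avg ι).L (fun i => f ((c i : A) * V * star (c i : A))) = f (cavg c V) := by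
  rw [Mean.avg_L, cavg, hf.map_smul, smul_eq_mul]
  congr 1
  exact (map_sum (hf.mk' f) _ _).symm

lemma piZ_cavg (c : ι → unitary A) (V : A) : piZ T (cavg c V) = piZ T V := by
  have h := (nuAPI A T).1
  have : ∀ i, piZ T ((c i : A) * V * star (c i : A)) = piZ T V := fun i => by
    rw [Nux.piZ_comm, ← mul_assoc, Unitary.star_mul_self_of_mem (c i).2, one_mul]
  have e : piZ T (∑ i, (c i : A) * V * star (c i : A)) =
      ∑ i, piZ T ((c i : A) * V * star (c i : A)) := map_sum (h.mk' _) _ _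
  rw [cavg, h.map_smul, e]
  simp only [this, Finset.sum_const, Finset.card_univ, ← Nat.cast_smul_eq_nsmul ℂ, smul_smul]
  rw [inv_mul_cancel₀ (by simp), one_smul]

lemma n2_cen_le (c : ι → unitary A) {V z : A} {ε : ℝ} (hz : Cen z) (h : ‖cavg c V - z‖ ≤ ε) :
    T.n2 z ≤ nu T V + ε := by
  rw [← (nuAPI A T).2.2.2.1 z hz]
  have h1 : piZ T z = piZ T V - piZ T (cavg c V - z) := by
    rw [(nuAPI A T).1.map_sub, piZ_cavg]; abel
  rw [nu, h1]
  exact (norm_sub_le _ _).trans (add_le_add le_rfl ((nu_le_norm _).trans h))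

lemma n2_cavg_le (c : ι → unitary A) {V z : A} {ε : ℝ} (hz : Cen z) (h : ‖cavg c V - z‖ ≤ ε) :
    T.n2 (cavg c V) ≤ nu T V + 2 * ε := by
  have h1 := T.n2_add_le (cavg c V - z) z
  rw [sub_add_cancel] at h1
  have := n2_cen_le (T := T) c hz h
  have := (T.n2_le_norm _).trans h
  linarith

lemma lam_le (c : ι → unitary A) {V z : A} {ε : ℝ} (hz : Cen z) (h : ‖cavg c V - z‖ ≤ ε)
    {Λ : A → ℂ} {B B' : ℝ} (hB : 0 ≤ B) (hl : IsLinearMap ℂ Λ) (h1 : ∀ y, ‖Λ y‖ ≤ B' * ‖y‖)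
    (h2 : ∀ z, Cen z → ‖Λ z‖ ≤ B * T.n2 z) {x : A} (hx : x ∈ unitary A) :
    ‖(Mean.avg ι).L (fun i => Λ (x * ((c i : A) * V * star (c i : A)) * star x))‖ ≤
      B * nu T V + (B + |B'|) * ε := by
  have hl' : IsLinearMap ℂ fun y => Λ (x * y * star x) :=
    ⟨fun a b => by rw [mul_add, add_mul, hl.map_add],
      fun t a => by rw [mul_smul_comm, smul_mul_assoc, hl.map_smul]⟩
  rw [avg_lin c V hl']
  have e : x * cavg c V * star x = x * (cavg c V - z) * star x + z := by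
    rw [mul_sub, sub_mul, ← hz, mul_assoc z, Unitary.mul_star_self_of_mem hx]; simp
  rw [e, hl.map_add]
  have a1 := h1 (x * (cavg c V - z) * star x)
  rw [CStarRing.norm_mul_mem_unitary _ (Unitary.star_mem hx),
    CStarRing.norm_mem_unitary_mul _ hx] at a1
  have a2 := (h2 z hz).trans (mul_le_mul_of_nonneg_left (n2_cen_le (T := T) c hz h) hB)
  have a3 : B' * ‖cavg c V - z‖ ≤ |B'| * ε :=
    mul_le_mul (le_abs_self _) h (norm_nonneg _) (abs_nonneg _)
  refine (norm_add_le _ _).trans ?_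
  linarith

lemma avg3 (X : ι → ι → ι → ℂ) :
    ((Mean.avg ι).L fun d => (Mean.avg ι).L fun e => (Mean.avg ι).L fun i => X d e i) =
      (Mean.avg ι).L fun i => (Mean.avg ι).L fun d => (Mean.avg ι).L fun e => X d e i := by
  rw [← (Mean.avg ι).avg_comm ι fun d i => (Mean.avg ι).L fun e => X d e i]
  congr 1
  ext d
  exact (Mean.avg ι).avg_comm ι fun e i => X d e i

/-- The finite stage of the model. -/
noncomputable def mI (s : Mean (unitary A)) (c : ι → unitary A) : Mean (unitary A × unitary A) :=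
  (Mean.avg ι).bind fun d => (Mean.avg ι).bind fun e => (Mean.avg ι).bind fun i =>
    s.bind fun h => s.bind fun g => s.map fun g₀ => (star (c d) * star g * h * c i, g₀ * c e)

lemma mI_L (s : Mean (unitary A)) (c : ι → unitary A) (f : unitary A × unitary A → ℂ) :
    (mI s c).L f = (Mean.avg ι).L fun d => (Mean.avg ι).L fun e => (Mean.avg ι).L fun i =>
      s.L fun h => s.L fun g => s.L fun g₀ => f (star (c d) * star g * h * c i, g₀ * c e) := rfl

lemma mI_le1 (s : Mean (unitary A)) (c : ι → unitary A) {f : unitary A × unitary A → ℂ} {B : ℝ}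
    (h : ∀ x k : unitary A, ‖(Mean.avg ι).L fun i => f (x * c i, k)‖ ≤ B) :
    ‖(mI s c).L f‖ ≤ B := by
  rw [mI_L]
  simp only [s.avg_comm]
  exact s.norm_le fun _ => s.norm_le fun _ => s.norm_le fun _ => (Mean.avg ι).norm_le fun _ =>
    (Mean.avg ι).norm_le fun _ => h _ _

lemma mI_le2 (s : Mean (unitary A)) (c : ι → unitary A) {f : unitary A × unitary A → ℂ} {B : ℝ}
    (h : ∀ x k : unitary A, ‖(Mean.avg ι).L fun d => f (star (c d) * x, k)‖ ≤ B) :
    ‖(mI s c).L f‖ ≤ B := by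
  rw [mI_L, avg3, avg3]
  simp only [s.avg_comm, mul_assoc]
  exact s.norm_le fun _ => s.norm_le fun _ => s.norm_le fun _ => (Mean.avg ι).norm_le fun _ =>
    (Mean.avg ι).norm_le fun _ => h _ _

end fam

lemma exFam (T : Tr A) (hD : DixN A) (hH : Halv (1 : A)) (F : Finset A) (n : ℕ) :
    ∃ (ι : Type) (_ : Fintype ι) (_ : Nonempty ι) (c : ι → unitary A),
      (∀ V ∈ F, ∃ z, Cen z ∧ ‖cavg c V - z‖ ≤ 1 / ((n : ℝ) + 1)) ∧
      ∀ Y : A, ∀ x ∈ unitary A, ‖(Mean.avg ι).L fun i => ((nu T (x * c i * Y) ^ 2 : ℝ) : ℂ)‖ ≤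
        ‖Y‖ ^ 2 * (1 / ((n : ℝ) + 1)) := by
  obtain ⟨κ, _, _, w, hw, hF⟩ := hD F (1 / ((n : ℝ) + 1)) (by positivity)
  obtain ⟨σ, hσ, hs⟩ := sig A T hH n
  refine ⟨Fin (n + 1) × κ, inferInstance, inferInstance,
    fun j => ⟨σ ^ (j.1 : ℕ) * w j.2, mul_mem (pow_mem hσ _) (hw _)⟩, fun V hV => ?_,
    fun Y x hx => ?_⟩
  · obtain ⟨z, hz, hn⟩ := hF V hV
    refine ⟨z, hz, ?_⟩
    have e : cavg (fun j : Fin (n + 1) × κ =>
        (⟨σ ^ (j.1 : ℕ) * w j.2, mul_mem (pow_mem hσ _) (hw _)⟩ : unitary A)) V - z =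
        ((n : ℂ) + 1)⁻¹ • ∑ b : Fin (n + 1), σ ^ (b : ℕ) *
          ((Fintype.card κ : ℂ)⁻¹ • ∑ k, w k * V * star (w k) - z) * star (σ ^ (b : ℕ)) := by
      have : ∀ b : ℕ, σ ^ b * z * star (σ ^ b) = z := fun b => by
        rw [← hz, mul_assoc, Unitary.mul_star_self_of_mem (pow_mem hσ b), mul_one]
      have h0 : (n : ℂ) + 1 ≠ 0 := by exact_mod_cast Nat.succ_ne_zero n
      simp only [cavg, Fintype.sum_prod_type, mul_sub, sub_mul, this, Finset.sum_sub_distrib,
        Finset.sum_const, Finset.card_univ, Fintype.card_fin, smul_sub, mul_smul_comm,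
        smul_mul_assoc, ← Finset.smul_sum, smul_smul, Fintype.card_prod, Finset.mul_sum,
        Finset.sum_mul, star_mul, mul_assoc, ← Nat.cast_smul_eq_nsmul ℂ]
      push_cast
      rw [inv_mul_cancel₀ h0, one_smul, mul_inv]
    rw [e, norm_smul, norm_inv]
    have : ‖(n : ℂ) + 1‖ = n + 1 := by exact_mod_cast Complex.norm_natCast (n + 1)
    rw [this, inv_mul_le_iff₀ (by positivity)]
    refine (norm_sum_le _ _).trans ((Finset.sum_le_sum (g := fun _ => 1 / ((n : ℝ) + 1))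
      fun b _ => ?_).trans (by simp))
    rwa [CStarRing.norm_mul_mem_unitary _ (Unitary.star_mem (pow_mem hσ _)),
      CStarRing.norm_mem_unitary_mul _ (pow_mem hσ _)]
  · have h0 : ∀ b b' : ℕ, b' < b → b ≤ n → nu T (σ ^ b * star (σ ^ b')) = 0 := fun b b' h hb => by
      obtain ⟨k, rfl⟩ := Nat.exists_eq_add_of_lt h
      rw [add_assoc, add_comm, pow_add, mul_assoc, Unitary.mul_star_self_of_mem (pow_mem hσ _),
        mul_one]
      exact (nuAPI A T).2.2.2.2.2.1 _ (hs _ (by omega) (by omega))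
    have h1 : ∀ k, ∑ b : Fin (n + 1), nu T (x * (σ ^ (b : ℕ) * w k) * Y) ^ 2 ≤ ‖Y‖ ^ 2 := fun k => by
      have := (nuAPI A T).2.2.2.2.2.2.1 (n + 1) (fun b => σ ^ (b : ℕ)) (w k * Y * x)
        (fun b => pow_mem hσ _) fun b b' hb => by
          rcases lt_or_gt_of_ne hb with h | h
          · rw [← (nuAPI A T).2.2.2.2.1, star_mul, star_star]
            exact h0 _ _ h (by omega)
          · exact h0 _ _ h (by omega)
      rw [CStarRing.norm_mul_mem_unitary _ hx, CStarRing.norm_mem_unitary_mul _ (hw k)] at this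
      refine le_trans (le_of_eq (Finset.sum_congr rfl fun b _ => ?_)) this
      rw [mul_assoc, nu_comm]
      simp only [mul_assoc]
    rw [Mean.avg_L, ← Complex.ofReal_sum, norm_mul, norm_inv, Complex.norm_natCast,
      Complex.norm_real, Real.norm_of_nonneg (Finset.sum_nonneg fun _ _ => sq_nonneg _),
      Fintype.sum_prod_type_right, inv_mul_le_iff₀ (Nat.cast_pos.2 Fintype.card_pos)]
    refine (Finset.sum_le_sum fun k _ => h1 k).trans (le_of_eq ?_)
    simp only [Finset.sum_const, Finset.card_univ, nsmul_eq_mul, Fintype.card_prod,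
      Fintype.card_fin]
    push_cast
    field_simp

/-- A minimal flow with its collapsing mean. -/
structure Ctx (T : Tr A) (C : ℝ) where
  K : Set (A × A → ℂ)
  A0 : A × A → ℂ
  s : Mean (unitary A)
  hA0 : A0 ∈ K
  bil : ∀ Φ ∈ K, Bil Φ
  l1 : ∀ Φ ∈ K, L1B T Φ C
  maps : ∀ Φ ∈ K, ∀ u ∈ unitary A, (fun j : A × A => Φ (j.1 * star u, u * j.2)) ∈ K
  bary : ∀ (m : Mean (unitary A)) (F : unitary A → A × A → ℂ), (∀ x, F x ∈ K) →
    (fun j => m.L fun x => F x j) ∈ K
  col : ∀ Φ ∈ K, ∀ a b, s.L (fun g => Φ (a * star (g : A), g * b)) = A0 (a, b)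

namespace Ctx
variable (X : Ctx T C)

lemma col1 {w : A} (hw : w ∈ unitary A) (a b : A) :
    X.s.L (fun g => X.A0 (a * star (g : A) * star w, w * (g * b))) = X.A0 (a, b) :=
  X.col _ (X.maps _ X.hA0 w hw) a b

lemma col2 {W : unitary A → A} (hW : ∀ g, W g ∈ unitary A) (a b : A) :
    X.s.L (fun h => X.s.L fun g => X.A0 (a * star (h : A) * star (W g), W g * (h * b))) =
      X.A0 (a, b) :=
  X.col _ (X.bary X.s _ fun g => X.maps _ X.hA0 (W g) (hW g)) a b

lemma cross (hC : 0 ≤ C) (hH : Halv (1 : A)) {W : unitary A → unitary A → A}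
    (hW : ∀ h g, W h g ∈ unitary A) (P Q : A) (κ : ℂ)
    (hκ : ∀ u ∈ unitary A, X.s.L (fun h => X.s.L fun g =>
      X.A0 (P * W h g * star u, u * star (W h g) * Q)) = κ)
    {ι : Type} [Fintype ι] [Nonempty ι] (c : ι → unitary A) {a b : A} (ha : a ∈ unitary A)
    (hb : b ∈ unitary A) :
    ‖(Mean.avg ι).L fun i => (Mean.avg ι).L fun e => X.s.L fun h => X.s.L fun g =>
      X.A0 (P * W h g * (c i * a * star (c e : A)),
        (c e * b * star (c i : A)) * star (W h g) * Q)‖ ≤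
      3 * (C * ‖P‖ * ‖Q‖) * (T.n2 (cavg c (a * b)) + T.n2 (cavg c (b * a))) := by
  obtain ⟨v, -, hv1, hv2⟩ := hH 1 (IsStarProjection.one A) (one_mul 1)
  have hb0 := X.bil _ X.hA0
  obtain ⟨f, g, hf, hg, hfg⟩ := bStruct A T v hv1 hv2
    (fun j => X.s.L fun h => X.s.L fun g => X.A0 (P * W h g * j.1, j.2 * star (W h g) * Q))
    (C * ‖P‖ * ‖Q‖) κ (by positivity)
    ⟨fun y => ⟨fun x x' => by simp only [mul_add, (hb0.1 _).map_add, Mean.add],
        fun t x => by simp only [mul_smul_comm, (hb0.1 _).map_smul, smul_eq_mul, Mean.cmul]⟩,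
      fun x => ⟨fun y y' => by simp only [add_mul, (hb0.2 _).map_add, Mean.add],
        fun t y => by simp only [smul_mul_assoc, (hb0.2 _).map_smul, smul_eq_mul, Mean.cmul]⟩⟩
    (fun x y => X.s.norm_le fun h => X.s.norm_le fun g => by
      refine (l1_n2 (X.l1 _ X.hA0) _ _ _).trans ?_
      rw [CStarRing.norm_mul_mem_unitary _ (hW h g)]
      have h1 := norm_mul_le (y * star (W h g)) Q
      rw [CStarRing.norm_mul_mem_unitary _ (Unitary.star_mem (hW h g))] at h1
      have := T.n2_nonneg x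
      calc C * (‖P‖ * T.n2 x) * ‖y * star (W h g) * Q‖ ≤ C * (‖P‖ * T.n2 x) * (‖y‖ * ‖Q‖) := by
            gcongr
        _ = _ := by ring) hκ
  have e : ∀ i e : ι, (X.s.L fun h => X.s.L fun g =>
      X.A0 (P * W h g * (c i * a * star (c e : A)),
        (c e * b * star (c i : A)) * star (W h g) * Q)) =
      f (c i * (a * b) * star (c i : A)) + g (c e * (b * a) * star (c e : A)) := fun i e => by
    have := hfg (c i * a * star (c e : A))
      (mul_mem (mul_mem (c i).2 ha) (Unitary.star_mem (c e).2)) (c e * b * star (c i : A))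
      (mul_mem (mul_mem (c e).2 hb) (Unitary.star_mem (c i).2))
    have u1 : ∀ (j : ι) (y : A), star (c j : A) * (c j * y) = y := fun j y => by
      rw [← mul_assoc, Unitary.star_mul_self_of_mem (c j).2, one_mul]
    simpa only [mul_assoc, u1] using this
  simp only [e, Mean.add, Mean.const]
  rw [avg_lin c _ f.isLinear, avg_lin c _ g.isLinear, mul_add]
  exact (norm_add_le _ _).trans (add_le_add (hf _) (hg _))

variable {ι : Type} [Fintype ι] [Nonempty ι] (c : ι → unitary A) {Φ : A × A → ℂ}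

lemma mI_red (hΦ : Φ ∈ X.K) (P Q : A → A) :
    (mI X.s c).L (fun ω => Φ (P ω.1 * star (ω.2 : A), ω.2 * Q ω.1)) =
      (Mean.avg ι).L fun d => (Mean.avg ι).L fun e => (Mean.avg ι).L fun i =>
        X.s.L fun h => X.s.L fun g =>
          X.A0 (P (star (c d : A) * star (g : A) * h * c i) * star (c e : A),
            c e * Q (star (c d : A) * star (g : A) * h * c i)) := by
  rw [mI_L]
  simp only [← X.col Φ hΦ, MulMemClass.coe_mul, Unitary.coe_star, star_mul, mul_assoc]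

lemma m0 (hΦ : Φ ∈ X.K) (p q : A) :
    (mI X.s c).L (fun ω => Φ (p * star (ω.2 : A), ω.2 * q)) =
      (Mean.avg ι).L fun i => X.A0 (p * star (c i : A), c i * q) := by
  rw [X.mI_red c hΦ (fun _ => p) fun _ => q]
  simp only [Mean.const]

lemma d1 (hΦ : Φ ∈ X.K) (p q : A) {a : A} (ha : a ∈ unitary A) :
    (mI X.s c).L (fun ω => Φ (p * (ω.1 : A) * star a * star (ω.2 : A),
      (ω.2 : A) * a * star (ω.1 : A) * q)) =
      (Mean.avg ι).L fun i => X.A0 (p * star (c i : A), c i * q) := by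
  have := X.mI_red c hΦ (fun l => p * l * star a) fun l => a * star l * q
  simp only [mul_assoc] at this ⊢
  rw [this]
  have e : ∀ (d e i : ι) (h : unitary A), _ := fun d e i h =>
    X.col1 (w := c e * a * star (c i : A) * star (h : A))
      (mul_mem (mul_mem (mul_mem (c e).2 ha) (Unitary.star_mem (c i).2)) (Unitary.star_mem h.2))
      (p * star (c d : A)) (c d * q)
  simp only [star_mul, star_star, mul_assoc] at e ⊢
  simp only [e, Mean.const]

lemma d2 (hΦ : Φ ∈ X.K) (p q : A) {a : A} (ha : a ∈ unitary A) :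
    (mI X.s c).L (fun ω => Φ (p * star (ω.1 : A) * star a * star (ω.2 : A),
      (ω.2 : A) * a * (ω.1 : A) * q)) =
      (Mean.avg ι).L fun i => X.A0 (p * star (c i : A), c i * q) := by
  have := X.mI_red c hΦ (fun l => p * star l * star a) fun l => a * l * q
  simp only [mul_assoc] at this ⊢
  rw [this]
  have e : ∀ (d e i : ι), _ := fun d e i =>
    X.col2 (W := fun g => c e * a * star (c d : A) * star (g : A)) (fun g =>
      (mul_mem (mul_mem (mul_mem (c e).2 ha) (Unitary.star_mem (c d).2)) (Unitary.star_mem g.2)))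
      (p * star (c i : A)) (c i * q)
  simp only [star_mul, star_star, mul_assoc] at e ⊢
  simp only [e, Mean.const]

lemma c1 (hC : 0 ≤ C) (hH : Halv (1 : A)) (hΦ : Φ ∈ X.K) (p q : A) {a b : A} (ha : a ∈ unitary A)
    (hb : b ∈ unitary A) :
    ‖(mI X.s c).L (fun ω => Φ (p * (ω.1 : A) * a * star (ω.2 : A),
      (ω.2 : A) * b * star (ω.1 : A) * q))‖ ≤
      3 * (C * ‖p‖ * ‖q‖) * (T.n2 (cavg c (a * b)) + T.n2 (cavg c (b * a))) := by
  have := X.mI_red c hΦ (fun l => p * l * a) fun l => b * star l * q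
  simp only [mul_assoc] at this ⊢
  rw [this]
  refine (Mean.avg ι).norm_le fun d => ?_
  rw [(Mean.avg ι).avg_comm]
  have e := X.cross hC hH (W := fun h g => star (g : A) * h)
    (fun h g => mul_mem (Unitary.star_mem g.2) h.2) (p * star (c d : A)) (c d * q)
    (X.A0 (p * star (c d : A), c d * q)) (fun u hu => by
      have e : ∀ h : unitary A, _ := fun h => X.col1 (w := u * star (h : A))
        (mul_mem hu (Unitary.star_mem h.2)) (p * star (c d : A)) (c d * q)
      simp only [star_mul, star_star, mul_assoc] at e ⊢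
      simp only [e, Mean.const]) c ha hb
  rw [CStarRing.norm_mul_mem_unitary _ (Unitary.star_mem (c d).2),
    CStarRing.norm_mem_unitary_mul _ (c d).2] at e
  simpa only [star_mul, star_star, mul_assoc] using e

lemma c2 (hC : 0 ≤ C) (hH : Halv (1 : A)) (hΦ : Φ ∈ X.K) (p q : A) {a b : A} (ha : a ∈ unitary A)
    (hb : b ∈ unitary A) :
    ‖(mI X.s c).L (fun ω => Φ (p * star (ω.1 : A) * a * star (ω.2 : A),
      (ω.2 : A) * b * (ω.1 : A) * q))‖ ≤
      3 * (C * ‖p‖ * ‖q‖) * (T.n2 (cavg c (a * b)) + T.n2 (cavg c (b * a))) := by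
  have := X.mI_red c hΦ (fun l => p * star l * a) fun l => b * l * q
  simp only [mul_assoc] at this ⊢
  rw [this, avg3]
  refine (Mean.avg ι).norm_le fun i => ?_
  have e := X.cross hC hH (W := fun h g => star (h : A) * g)
    (fun h g => mul_mem (Unitary.star_mem h.2) g.2) (p * star (c i : A)) (c i * q)
    (X.A0 (p * star (c i : A), c i * q)) (fun u hu => by
      have e := X.col2 (W := fun g => u * star (g : A))
        (fun g => mul_mem hu (Unitary.star_mem g.2)) (p * star (c i : A)) (c i * q)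
      simpa only [star_mul, star_star, mul_assoc] using e) c ha hb
  rw [CStarRing.norm_mul_mem_unitary _ (Unitary.star_mem (c i).2),
    CStarRing.norm_mem_unitary_mul _ (c i).2] at e
  simpa only [star_mul, star_star, mul_assoc] using e

end Ctx

lemma exCtx (T : Tr A) (K : Set (A × A → ℂ))
    (hK : Inv (fun (u : unitary A) (Φ : A × A → ℂ) =>
      Φ ∘ fun p => (p.1 * star (u : A), (u : A) * p.2)) K)
    (hb : ∀ Φ ∈ K, Bil Φ ∧ L1B T Φ C) : ∃ X : Ctx T C, X.K ⊆ K ∧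
      ∀ Φ ∈ X.K, ∀ z a b : A, Cen z → Φ (a * z, b) = Φ (a, z * b) := by
  obtain ⟨K', hsub, hmin⟩ := exMin _ _ _ K hK
  obtain ⟨A0, hA0, s, hs⟩ := collapse (A × A) (unitary A)
    (fun u p => (p.1 * star (u : A), (u : A) * p.2)) K' ⟨1⟩
    (fun g h => ⟨h * g, fun j => by simp [mul_assoc]⟩) hmin
  refine ⟨⟨K', A0, s, hA0, fun Φ h => (hb Φ (hsub h)).1, fun Φ h => (hb Φ (hsub h)).2,
    fun Φ h u hu => hmin.1.2.2.2 ⟨u, hu⟩ h, fun m F hF => bary _ _ K' hmin.1.2.1 hmin.1.2.2.1 m F hF,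
    fun Φ h a b => hs Φ h (a, b)⟩, hsub, fun Φ hΦ z a b hz => ?_⟩
  have hl := (hb Φ (hsub hΦ)).1
  let S : Submodule ℂ A :=
    { carrier := {z | ∀ a b, Φ (a * z, b) = Φ (a, z * b)}
      add_mem' := fun {x y} hx hy a b => by
        rw [mul_add, add_mul, (hl.1 _).map_add, (hl.2 _).map_add, hx, hy]
      zero_mem' := fun a b => by rw [mul_zero, zero_mul, (hl.1 _).map_zero, (hl.2 _).map_zero]
      smul_mem' := fun t x hx a b => by
        rw [mul_smul_comm, smul_mul_assoc, (hl.1 _).map_smul, (hl.2 _).map_smul, hx] }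
  refine (nuAPI A T).2.2.2.2.2.2.2 S (fun u hu hc a b => ?_) z hz a b
  have := fixC _ _ _ K' (fun Ψ : A × A → ℂ => Ψ ∘ fun p => (p.1 * star u, u * p.2)) hmin
    (continuous_pi fun j => continuous_apply _) ⟨fun _ _ => rfl, fun _ _ => rfl⟩
    (hmin.1.2.2.2 ⟨u, hu⟩) (fun g ψ _ => by
      ext j
      simp only [Function.comp_apply]
      rw [mul_assoc, Nux.cen_star hc, ← mul_assoc, ← mul_assoc, ← hc, mul_assoc u]) Φ hΦ
  rw [← congrFun this (a * u, b), Function.comp_apply, mul_assoc,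
    Unitary.mul_star_self_of_mem hu, mul_one]

end Modelx

set_option maxHeartbeats 1000000 in
open Modelx in
theorem exModel : ExModel.{u} := by
  classical
  intro A _ T hD hH C K hC hK hb
  obtain ⟨X, hXK, hbal⟩ := exCtx T K hK hb
  choose ι _ _ c hc1 hc2 using fun I : Finset A × ℕ => exFam T hD hH I.1 I.2
  let U : Ultrafilter (Finset A × ℕ) := Ultrafilter.of atTop
  have hU : (U : Filter (Finset A × ℕ)) ≤ atTop := Ultrafilter.of_le _
  have hε : Tendsto (fun I : Finset A × ℕ => 1 / ((I.2 : ℝ) + 1)) U (𝓝 0) :=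
    (tendsto_one_div_add_atTop_nhds_zero_nat.comp (tendsto_snd.mono_left
      (by rw [← prod_atTop_atTop_eq]))).mono_left hU
  have hV : ∀ V : A, ∀ᶠ I in U, ∃ z, Cen z ∧ ‖cavg (c I) V - z‖ ≤ 1 / ((I.2 : ℝ) + 1) := fun V =>
    hU ((eventually_ge_atTop ({V}, 0)).mono fun I hI => hc1 I V (hI.1 (Finset.mem_singleton_self V)))
  obtain ⟨μ, hμ⟩ := Mean.exists_ulim U fun I => (Mean.avg (ι I)).map (c I)
  obtain ⟨m, hm⟩ := Mean.exists_ulim U fun I => mI X.s (c I)
  let Φ : A × A → ℂ := fun j => μ.L fun g => X.A0 (j.1 * star (g : A), g * j.2)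
  have hΦ : Φ ∈ X.K := X.bary μ _ fun g => X.maps _ X.hA0 _ g.2
  have nb : ∀ Ψ ∈ X.K, ∀ (p q : A) {x y : A}, x ∈ unitary A → y ∈ unitary A →
      ‖Ψ (p * x, y * q)‖ ≤ C * ‖p‖ * ‖q‖ := fun Ψ hΨ p q x y hx hy => by
    have := l1_norm (X.l1 Ψ hΨ) (p * x) (y * q)
    rwa [CStarRing.norm_mul_mem_unitary _ hx, CStarRing.norm_mem_unitary_mul _ hy] at this
  have hlim : ∀ p q : A, Tendsto (fun I => (Mean.avg (ι I)).L
      fun i => X.A0 (p * star (c I i : A), c I i * q)) U (𝓝 (Φ (p, q))) := fun p q =>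
    hμ _ _ fun g => nb _ X.hA0 p q (Unitary.star_mem g.2) g.2
  have hle : ∀ (f : unitary A × unitary A → ℂ) (B a b : ℝ), (∀ ω, ‖f ω‖ ≤ B) →
      (∀ᶠ I in U, ‖(mI X.s (c I)).L f‖ ≤ a + b * (1 / ((I.2 : ℝ) + 1))) → ‖m.L f‖ ≤ a :=
    fun f B a b hf h => by
      have h2 := (hε.const_mul b).const_add a
      rw [mul_zero, add_zero] at h2
      exact le_of_tendsto_of_tendsto (hm f B hf).norm h2 h
  have hc : ∀ (p q a b : A) (I : Finset A × ℕ) (t : ℝ),
      (∃ z, Cen z ∧ ‖cavg (c I) (a * b) - z‖ ≤ 1 / ((I.2 : ℝ) + 1)) →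
      (∃ z, Cen z ∧ ‖cavg (c I) (b * a) - z‖ ≤ 1 / ((I.2 : ℝ) + 1)) →
      t ≤ 3 * (C * ‖p‖ * ‖q‖) * (T.n2 (cavg (c I) (a * b)) + T.n2 (cavg (c I) (b * a))) →
      t ≤ 6 * C * ‖p‖ * ‖q‖ * nu T (a * b) + 12 * (C * ‖p‖ * ‖q‖) * (1 / ((I.2 : ℝ) + 1)) := by
    rintro p q a b I t ⟨z, hz, h⟩ ⟨z', hz', h'⟩ ht
    have h1 := n2_cavg_le (T := T) _ hz h
    have h2 := n2_cavg_le (T := T) _ hz' h'
    rw [nu_comm] at h2
    refine ht.trans ((mul_le_mul_of_nonneg_left (add_le_add h1 h2) (by positivity)).trans_eq ?_)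
    ring
  have hn : ∀ (Y : A) {x : A}, x ∈ unitary A → ‖((nu T (x * Y) ^ 2 : ℝ) : ℂ)‖ ≤ ‖Y‖ ^ 2 :=
    fun Y x hx => by
      rw [Complex.norm_real, Real.norm_of_nonneg (sq_nonneg _),
        ← CStarRing.norm_mem_unitary_mul Y hx]
      exact pow_le_pow_left₀ (norm_nonneg _) (nu_le_norm _) 2
  refine ⟨Φ, hXK hΦ, ⟨⟨X.bil _ hΦ, X.l1 _ hΦ, hbal _ hΦ, m, fun p q => ?_, fun p q a ha => ?_,
    fun p q a ha => ?_, fun p q a b ha hb => ?_, fun p q a b ha hb => ?_,
    fun Λ B B' V hB hl h1 h2 => ?_, fun Λ B B' V hB hl h1 h2 => ?_, fun Y => ?_, fun Y => ?_⟩⟩⟩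
  · refine tendsto_nhds_unique (hm _ _ fun ω => nb _ hΦ p q (Unitary.star_mem ω.2.2) ω.2.2) ?_
    simpa only [X.m0 _ hΦ] using hlim p q
  · refine tendsto_nhds_unique (hm _ (C * ‖p‖ * ‖q‖) fun ω => ?_) ?_
    · simpa only [mul_assoc] using nb _ hΦ p q (mul_mem ω.1.2 (mul_mem (Unitary.star_mem ha)
        (Unitary.star_mem ω.2.2))) (mul_mem ω.2.2 (mul_mem ha (Unitary.star_mem ω.1.2)))
    · simpa only [X.d1 _ hΦ p q ha] using hlim p q
  · refine tendsto_nhds_unique (hm _ (C * ‖p‖ * ‖q‖) fun ω => ?_) ?_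
    · simpa only [mul_assoc] using nb _ hΦ p q (mul_mem (Unitary.star_mem ω.1.2)
        (mul_mem (Unitary.star_mem ha) (Unitary.star_mem ω.2.2))) (mul_mem ω.2.2 (mul_mem ha ω.1.2))
    · simpa only [X.d2 _ hΦ p q ha] using hlim p q
  · refine hle _ (C * ‖p‖ * ‖q‖) _ (12 * (C * ‖p‖ * ‖q‖)) (fun ω => ?_) ?_
    · simpa only [mul_assoc] using nb _ hΦ p q (mul_mem ω.1.2 (mul_mem ha
        (Unitary.star_mem ω.2.2))) (mul_mem ω.2.2 (mul_mem hb (Unitary.star_mem ω.1.2)))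
    · filter_upwards [hV (a * b), hV (b * a)] with I h h'
      exact hc p q a b I _ h h' (X.c1 _ hC hH hΦ p q ha hb)
  · refine hle _ (C * ‖p‖ * ‖q‖) _ (12 * (C * ‖p‖ * ‖q‖)) (fun ω => ?_) ?_
    · simpa only [mul_assoc] using nb _ hΦ p q (mul_mem (Unitary.star_mem ω.1.2) (mul_mem ha
        (Unitary.star_mem ω.2.2))) (mul_mem ω.2.2 (mul_mem hb ω.1.2))
    · filter_upwards [hV (a * b), hV (b * a)] with I h h'
      exact hc p q a b I _ h h' (X.c2 _ hC hH hΦ p q ha hb)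
  · refine hle _ (B' * ‖V‖) _ (B + |B'|) (fun ω => ?_) ?_
    · have := h1 ω.2 (ω.1 * V * star (ω.1 : A))
      rwa [CStarRing.norm_mul_mem_unitary _ (Unitary.star_mem ω.1.2),
        CStarRing.norm_mem_unitary_mul _ ω.1.2] at this
    · filter_upwards [hV V] with I ⟨z, hz, h⟩
      refine mI_le1 _ _ fun x k => ?_
      simpa only [MulMemClass.coe_mul, star_mul, mul_assoc] using
        lam_le (T := T) _ hz h hB (hl k) (h1 k) (h2 k) x.2
  · refine hle _ (B' * ‖V‖) _ (B + |B'|) (fun ω => ?_) ?_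
    · have := h1 ω.2 (star (ω.1 : A) * V * ω.1)
      rwa [CStarRing.norm_mul_mem_unitary _ ω.1.2,
        CStarRing.norm_mem_unitary_mul _ (Unitary.star_mem ω.1.2)] at this
    · filter_upwards [hV V] with I ⟨z, hz, h⟩
      refine mI_le2 _ _ fun x k => ?_
      simpa only [MulMemClass.coe_mul, Unitary.coe_star, star_mul, star_star, mul_assoc] using
        lam_le (T := T) _ hz h hB (hl k) (h1 k) (h2 k) (Unitary.star_mem x.2)
  · rw [← norm_le_zero_iff]
    refine hle _ (‖Y‖ ^ 2) _ (‖Y‖ ^ 2) (fun ω => hn Y ω.1.2) (Eventually.of_forall fun I => ?_)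
    refine mI_le1 _ _ fun x k => ?_
    simpa only [MulMemClass.coe_mul, zero_add] using hc2 I Y x x.2
  · rw [← norm_le_zero_iff]
    refine hle _ (‖Y‖ ^ 2) _ (‖Y‖ ^ 2) (fun ω => hn Y (Unitary.star_mem ω.1.2))
      (Eventually.of_forall fun I => ?_)
    refine mI_le2 _ _ fun x k => ?_
    simpa only [MulMemClass.coe_mul, Unitary.coe_star, star_mul, star_star, zero_add] using
      hc2 I Y _ (Unitary.star_mem x.2)

end Crest.Agent.HH
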