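import Crest.Agent.HH.Wot

/-! Job P: the prism homotopy. -/

set_option autoImplicit false
set_option linter.unusedSectionVars false
open scoped ComplexConjugate InnerProductSpace BigOperators
open Filter Topology

namespace Crest.Agent.HH
open Crest.Agent.GEN

universe u v w

namespace Prismx

/-- average -/
noncomputable def av {ι : Type} [Fintype ι] {V : Type v} [AddCommGroup V] [Module ℂ V]
    (f : ι → V) : V := (Fintype.card ι : ℂ)⁻¹ • ∑ i, f i

section av
variable {ι : Type} [Fintype ι] {V : Type v}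

theorem av_const [Nonempty ι] [AddCommGroup V] [Module ℂ V] (x : V) : av (fun _ : ι => x) = x := by
  rw [av, Finset.sum_const, Finset.card_univ, ← Nat.cast_smul_eq_nsmul ℂ,
    inv_smul_smul₀ (by simp)]

theorem av_sub [AddCommGroup V] [Module ℂ V] (f g : ι → V) :
    av (fun i => f i - g i) = av f - av g := by simp [av, smul_sub]

theorem map_av [AddCommGroup V] [Module ℂ V] {W : Type w} [AddCommGroup W] [Module ℂ W]
    {L : V → W} (hL : IsLinearMap ℂ L) (f : ι → V) : L (av f) = av fun i => L (f i) := by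
  change hL.mk' L _ = av fun i => hL.mk' L (f i)
  simp only [av, map_smul, map_sum]

theorem sum_av [AddCommGroup V] [Module ℂ V] {β : Type} [Fintype β] (f : β → ι → V) :
    ∑ b, av (f b) = av fun i => ∑ b, f b i := by
  simp only [av, ← Finset.smul_sum]; rw [Finset.sum_comm]

theorem av_shift {G : Type} [AddCommGroup G] [Fintype G] [AddCommGroup V] [Module ℂ V] (f : G → V)
    (a : G) : av f = av fun i => f (a + i) := by
  simp only [av]; rw [← Equiv.sum_comp (Equiv.addLeft a) f]; rfl

theorem norm_av_le [Nonempty ι] [NormedAddCommGroup V] [NormedSpace ℂ V] {f : ι → V} {B : ℝ}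
    (h : ∀ i, ‖f i‖ ≤ B) : ‖av f‖ ≤ B := by
  have h0 : (0 : ℝ) < Fintype.card ι := by exact_mod_cast Fintype.card_pos
  rw [av, norm_smul, norm_inv, Complex.norm_natCast, inv_mul_le_iff₀ h0]
  exact (norm_sum_le _ _).trans ((Finset.sum_le_sum fun i _ => h i).trans (by simp))

theorem isLin_av [AddCommGroup V] [Module ℂ V] {W : Type w} [AddCommGroup W] [Module ℂ W]
    {L : ι → V → W} (hL : ∀ i, IsLinearMap ℂ (L i)) : IsLinearMap ℂ fun x => av fun i => L i x :=
  ⟨fun x y => by simp [av, (hL _).map_add, Finset.sum_add_distrib], fun t x => by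
    simp only [av, (hL _).map_smul, ← Finset.smul_sum]; rw [smul_comm]⟩

/-- signs -/
noncomputable def sg (d : ι → Bool) (b : ι) : ℂ := if d b then 1 else -1

theorem norm_sg (d : ι → Bool) (b : ι) : ‖sg d b‖ = 1 := by unfold sg; split_ifs <;> simp

theorem star_sg (d : ι → Bool) (b : ι) : conj (sg d b) = sg d b := by unfold sg; split_ifs <;> simp

theorem av_sg [DecidableEq ι] (b b' : ι) :
    av (fun d : ι → Bool => sg d b * sg d b') = if b = b' then 1 else 0 := by
  split_ifs with h
  · subst h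
    rw [← av_const (ι := ι → Bool) (1 : ℂ)]
    congr 1; funext d; unfold sg; split_ifs <;> simp
  · let σ : Equiv.Perm (ι → Bool) := Function.Involutive.toPerm
      (fun d => Function.update d b (!d b)) fun d => by simp
    have h1 := Equiv.sum_comp σ fun d : ι → Bool => sg d b * sg d b'
    have h2 : ∀ d, sg (σ d) b * sg (σ d) b' = -(sg d b * sg d b') := fun d => by
      simp only [σ, sg, Function.Involutive.coe_toPerm, Function.update_self,
        Function.update_of_ne (Ne.symm h)]
      cases d b <;> cases d b' <;> simp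
    simp only [h2, Finset.sum_neg_distrib] at h1
    rw [av, show ∑ d : ι → Bool, sg d b * sg d b' = 0 by linear_combination (-1 / 2 : ℂ) * h1,
      smul_zero]

theorem diag [DecidableEq ι] [AddCommGroup V] [Module ℂ V] (F : ι → ι → V) :
    ∑ b, F b b = av fun d : ι → Bool => ∑ b, ∑ b', (sg d b * sg d b') • F b b' := by
  have : ∀ b b', (av fun d : ι → Bool => (sg d b * sg d b') • F b b') =
      if b = b' then F b b' else 0 := fun b b' => by
    rw [← map_av (L := fun t : ℂ => t • F b b') ⟨fun _ _ => add_smul _ _ _,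
      fun _ _ => mul_smul _ _ _⟩, av_sg]
    split_ifs <;> simp
  simp only [← sum_av, this, Finset.sum_ite_eq, Finset.mem_univ, if_true]

end av

section alg
variable {A : Type u} [CStarAlgebra A] {G : Type} [Fintype G]

/-- fixing the first variable -/
def cs (x : A) : (List A → A) →ₗ[A] (List A → A) := LinearMap.funLeft A A fun r => x :: r

@[simp] theorem cs_apply (x : A) (φ : List A → A) (r : List A) : cs x φ r = φ (x :: r) := rfl

/-- multiplication of the first variable -/
def mu (x : A) (φ : List A → A) : List A → A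
  | [] => φ [] * x
  | y :: r => φ (x * y :: r)

theorem del_cons (φ : List A → A) (x : A) (r : List A) :
    del φ (x :: r) = -mu x φ r - del (cs x φ) r := by
  cases r with
  | nil => simp [del, mu]
  | cons y r => rfl

theorem cs_del (φ : List A → A) (x : A) : cs x (del φ) = -mu x φ - del (cs x φ) :=
  funext fun r => del_cons φ x r

theorem del_lin (l : List A) : IsLinearMap ℂ fun φ : List A → A => del φ l := by
  induction l with
  | nil => exact ⟨fun _ _ => by simp [del], fun _ _ => by simp [del]⟩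
  | cons x r ih =>
    refine ⟨fun φ χ => ?_, fun t φ => ?_⟩
    · simp only [del_cons, map_add, ih.map_add]
      cases r <;> simp [mu, add_mul] <;> abel
    · simp only [del_cons, LinearMap.map_smul_of_tower, ih.map_smul]
      cases r <;> simp [mu, smul_sub]

/-- the transfer operator -/
noncomputable def T (s : G → A) : List A → A → (List A → A) →ₗ[A] A
  | [], t => LinearMap.toSpanSingleton A A t ∘ₗ LinearMap.proj []
  | x :: l, t => (Fintype.card G : ℂ)⁻¹ • ∑ i, T s l (s i) ∘ₗ cs (t * x * star (s i))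

variable (s : G → A)

theorem T_nil (t : A) (φ : List A → A) : T s [] t φ = φ [] * t := rfl

theorem T_cons (x : A) (l : List A) (t : A) (φ : List A → A) :
    T s (x :: l) t φ = av fun i => T s l (s i) (cs (t * x * star (s i)) φ) := by
  simp [T, av]

/-- the homotopy -/
noncomputable def Ho : List A → (List A → A) →ₗ[A] A
  | [] => T s [1] 1
  | x :: l => T s (1 :: x :: l) 1 - Ho l ∘ₗ cs x

theorem T_mu (l : List A) (t x : A) (φ : List A → A) : T s l t (mu x φ) = T s l (x * t) φ := by
  cases l with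
  | nil => simp [T_nil, mu, mul_assoc]
  | cons y r =>
    simp only [T_cons]
    congr 1; funext i; congr 1; funext q; simp [mu, mul_assoc]

theorem mu_T (l : List A) (t x : A) (φ : List A → A) :
    mu x (fun r => T s r t φ) l = T s l (t * x) φ := by
  cases l with
  | nil => simp [T_nil, mu, mul_assoc]
  | cons y r => simp only [mu, T_cons, mul_assoc]

theorem T_loc (l : List A) : ∀ (t : A) {φ : List A → A}, (∀ r, r.length = l.length → φ r = 0) →
    T s l t φ = 0 := by
  induction l with
  | nil => intro t φ h; rw [T_nil, h [] rfl, zero_mul]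
  | cons x l ih =>
    intro t φ h
    have : ∀ i, T s l (s i) (cs (t * x * star (s i)) φ) = 0 := fun i =>
      ih (s i) fun r hr => h _ (by simp [hr])
    simp [T_cons, av, this]

theorem Ho_loc (l : List A) : ∀ {φ : List A → A}, (∀ r, r.length = l.length + 1 → φ r = 0) →
    Ho s l φ = 0 := by
  induction l with
  | nil => intro φ h; exact T_loc s _ _ h
  | cons x l ih =>
    intro φ h
    simp only [Ho, LinearMap.sub_apply, LinearMap.comp_apply]
    rw [T_loc s (1 :: x :: l) _ h, ih (φ := cs x φ) fun r hr => h _ (by simp [hr]), sub_zero]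

theorem Lin_cs {m : ℕ} {φ : List A → A} (h : Lin (m + 1) φ) (x : A) : Lin m (cs x φ) :=
  fun p q hpq => h (x :: p) q (by simp; omega)

theorem slot {m : ℕ} {φ : List A → A} (h : Lin (m + 1) φ) (L : (List A → A) →ₗ[A] A)
    (hL : ∀ {χ : List A → A}, (∀ r, r.length = m → χ r = 0) → L χ = 0) :
    IsLinearMap ℂ fun x => L (cs x φ) := by
  refine ⟨fun x y => ?_, fun t x => ?_⟩
  · rw [← map_add, ← sub_eq_zero, ← map_sub]
    exact hL fun r hr => sub_eq_zero.2 ((h [] r (by simp [hr])).map_add x y)
  · rw [← LinearMap.map_smul_of_tower, ← sub_eq_zero, ← map_sub]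
    exact hL fun r hr => sub_eq_zero.2 ((h [] r (by simp [hr])).map_smul t x)

theorem Lin_T {m : ℕ} {φ : List A → A} (h : Lin m φ) (t : A) : Lin m fun l => T s l t φ := by
  intro p q hpq
  induction p generalizing m φ t with
  | nil =>
    subst hpq
    simp only [List.nil_append, T_cons]
    refine isLin_av fun i => ?_
    have := slot h (T s q (s i)) fun hχ => T_loc s q _ (by simpa using hχ)
    exact ⟨fun x y => by rw [← this.map_add, mul_add, add_mul],
      fun a x => by rw [← this.map_smul, mul_smul_comm, smul_mul_assoc]⟩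
  | cons y p ih =>
    subst hpq
    simp only [List.cons_append, T_cons]
    exact isLin_av fun i => ih (Lin_cs h _) _ (by simp; omega)

theorem isLin_sub {f g : A → A} (hf : IsLinearMap ℂ f) (hg : IsLinearMap ℂ g) :
    IsLinearMap ℂ fun x => f x - g x :=
  ⟨fun x y => by rw [hf.map_add, hg.map_add]; abel,
    fun t x => by rw [hf.map_smul, hg.map_smul, smul_sub]⟩

theorem Lin_Ho {m : ℕ} {φ : List A → A} (h : Lin (m + 1) φ) : Lin m fun l => Ho s l φ := by
  intro p q hpq
  have h1 := Lin_cs (Lin_T s h 1) 1 p q hpq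
  induction p generalizing m φ with
  | nil =>
    subst hpq
    exact isLin_sub h1 (slot h (Ho s q) fun hχ => Ho_loc s q (by simpa using hχ))
  | cons y p ih =>
    subst hpq
    exact isLin_sub h1 (ih (Lin_cs h y) (by simp; omega)
      (Lin_cs (Lin_T s (Lin_cs h y) 1) 1 p q (by simp; omega)))

theorem np_cons (x : A) (l : List A) : np (x :: l) = ‖x‖ * np l := by simp [np]

theorem np_nonneg (l : List A) : 0 ≤ np l := by
  induction l with
  | nil => simp [np]
  | cons x l ih => rw [np_cons]; positivity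

theorem Bd_cs {m : ℕ} {C ρ : ℝ} {φ : List A → A} (h : Bd (m + 1) C φ) (hC : 0 ≤ C) {x : A}
    (hx : ‖x‖ ≤ ρ) : Bd m (C * ρ) (cs x φ) := fun l hl =>
  (h (x :: l) (by simp [hl])).trans (by
    rw [np_cons, mul_assoc]
    exact mul_le_mul_of_nonneg_left (mul_le_mul_of_nonneg_right hx (np_nonneg l)) hC)

theorem norm_tri {t x y : A} (ht : ‖t‖ ≤ 1) (hy : ‖y‖ ≤ 1) : ‖t * x * star y‖ ≤ ‖x‖ :=
  (norm_mul_le _ _).trans ((mul_le_of_le_one_right (norm_nonneg _) (by rwa [norm_star])).trans
    ((norm_mul_le _ _).trans (mul_le_of_le_one_left (norm_nonneg _) ht)))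

variable {s} [Nonempty G]

theorem T_bd (hs : ∀ i, ‖s i‖ ≤ 1) (l : List A) : ∀ {C : ℝ} {φ : List A → A} {t : A}, 0 ≤ C →
    Bd l.length C φ → ‖t‖ ≤ 1 → ‖T s l t φ‖ ≤ C * np l := by
  induction l with
  | nil =>
    intro C φ t _ h ht
    exact (norm_mul_le _ _).trans ((mul_le_of_le_one_right (norm_nonneg _) ht).trans (h [] rfl))
  | cons x l ih =>
    intro C φ t hC h ht
    rw [T_cons, np_cons, ← mul_assoc]
    exact norm_av_le fun i => ih (by positivity) (Bd_cs h hC (norm_tri ht (hs i))) (hs i)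

theorem Ho_bd (hs : ∀ i, ‖s i‖ ≤ 1) (l : List A) : ∀ {C : ℝ} {φ : List A → A}, 0 ≤ C →
    Bd (l.length + 1) C φ → ‖Ho s l φ‖ ≤ (l.length + 1) * C * np l := by
  have h1 : ‖(1 : A)‖ ≤ 1 := (IsStarProjection.one A).norm_le
  have h2 : ∀ (l : List A) {C : ℝ} {φ : List A → A}, 0 ≤ C → Bd (l.length + 1) C φ →
      ‖T s (1 :: l) 1 φ‖ ≤ C * np l := fun l C φ hC h =>
    (T_bd hs (1 :: l) hC h h1).trans (by
      rw [np_cons]
      exact mul_le_mul_of_nonneg_left (mul_le_of_le_one_left (np_nonneg l) h1) hC)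
  induction l with
  | nil => intro C φ hC h; simpa [Ho] using h2 [] hC h
  | cons x l ih =>
    intro C φ hC h
    have h3 := ih (by positivity) (Bd_cs h hC (le_refl ‖x‖))
    have h4 := h2 (x :: l) hC h
    refine (norm_sub_le _ _).trans ((add_le_add h4 h3).trans (le_of_eq ?_))
    rw [np_cons, List.length_cons]; push_cast; ring

variable {c : A}

theorem T_del_cons (h1 : ∀ i, star (s i) * s i = c) (x : A) (l : List A) (t : A)
    (φ : List A → A) (ih : ∀ i (χ : List A → A), T s l (s i) (del χ) =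
      del (fun r => T s r (s i) χ) l) :
    T s (x :: l) t (del φ) = -T s l (t * x * c) φ - del (fun r => T s (x :: r) t φ) l := by
  have e : (fun r => T s (x :: r) t φ) =
      av fun i => fun r => T s r (s i) (cs (t * x * star (s i)) φ) := by
    funext r; simp [T_cons, av]
  rw [e, map_av (del_lin l), T_cons]
  simp only [cs_del, map_sub, map_neg, T_mu, ih, av_sub, mul_assoc, h1, av_const]

theorem T_del (hc : Cen c) (h1 : ∀ i, star (s i) * s i = c) (h2 : ∀ i, s i * c = s i) (l : List A) :
    ∀ (t : A) (φ : List A → A), t * c = t → T s l t (del φ) = del (fun r => T s r t φ) l := by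
  induction l with
  | nil => intro t φ _; simp [T_nil, del]
  | cons x l ih =>
    intro t φ ht
    rw [T_del_cons h1 x l t φ fun i χ => ih _ _ (h2 i), del_cons, mu_T, mul_assoc, ← hc x,
      ← mul_assoc, ht]
    rfl

theorem Ho_del (hc : Cen c) (h1 : ∀ i, star (s i) * s i = c) (h2 : ∀ i, s i * c = s i)
    (h3 : ∀ i, c * star (s i) = star (s i)) (l : List A) :
    ∀ φ : List A → A, Ho s l (del φ) + del (fun r => Ho s r φ) l = -(φ l * c) := by
  have hP : ∀ (l : List A) (φ : List A → A), T s (1 :: l) 1 (del φ) =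
      -T s l c φ - del (fun r => T s (1 :: r) 1 φ) l := fun l φ => by
    rw [T_del_cons h1 1 l 1 φ fun i χ => T_del hc h1 h2 l _ _ (h2 i), one_mul, one_mul]
  induction l with
  | nil => intro φ; simp [Ho, hP, del, T_nil]
  | cons x r ih =>
    intro φ
    have e1 : Ho s r (mu x φ) - mu x (fun q => Ho s q φ) r + mu x (fun q => T s (1 :: q) 1 φ) r =
        T s (1 :: r) 1 (mu x φ) := by
      cases r with
      | nil => simp [mu, Ho]
      | cons y q =>
        simp only [mu, Ho, LinearMap.sub_apply, LinearMap.comp_apply]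
        rw [show cs y (mu x φ) = cs (x * y) φ from rfl]
        abel
    have e2 : T s (1 :: r) 1 (mu x φ) = T s (x :: r) c φ := by
      simp only [T_mu, T_cons, mul_one, hc x, mul_assoc, h3]
    have e3 : cs x (fun q => Ho s q φ) =
        cs x (fun q => T s (1 :: q) 1 φ) - fun q => Ho s q (cs x φ) := rfl
    have e4 := ih (cs x φ)
    rw [del_cons, e3, (del_lin r).map_sub]
    simp only [Ho, LinearMap.sub_apply, LinearMap.comp_apply, hP, cs_del, map_sub, map_neg]
    rw [del_cons, ← e2, ← e1, ← cs_apply x φ r, ← e4]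
    abel

theorem Ho_lam (x : A) (l : List A) (φ : List A → A) :
    Ho s (x :: l) (lam φ) + lam (fun r => Ho s r φ) (x :: l) =
      av fun i => star (s i) * T s (x :: l) (s i) φ := by
  have e : ∀ y : A, cs y (lam φ) = y • φ := fun y => rfl
  simp only [Ho, LinearMap.sub_apply, LinearMap.comp_apply, lam, e, map_smul, smul_eq_mul,
    sub_add_cancel]
  rw [T_cons]
  simp only [e, map_smul, smul_eq_mul, one_mul]

end alg

section cb
variable {H : Type u} [NormedAddCommGroup H] [InnerProductSpace ℂ H] [CompleteSpace H]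
variable {M : VonNeumannAlgebra H} {G : Type} [Fintype G] [DecidableEq G] {s : G → Al M} {c : Al M}

theorem row (hc : IsStarProjection c) (hs : ∀ i j, star (s i) * s j = if i = j then c else 0)
    {β : Type} [Fintype β] {e : β → G} (he : Function.Injective e) (ξ : β → H) :
    ‖∑ b, ap (s (e b)) (ξ b)‖ ^ 2 ≤ ∑ b, ‖ξ b‖ ^ 2 := by
  classical
  have e1 : ((‖∑ b, ap (s (e b)) (ξ b)‖ ^ 2 : ℝ) : ℂ) = ∑ b, ⟪ξ b, ap c (ξ b)⟫_ℂ := by
    have : ∀ b, ⟪ξ b, ap c (ξ b)⟫_ℂ = ∑ b', ⟪ξ b, ap (star (s (e b)) * s (e b')) (ξ b')⟫_ℂ :=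
      fun b => by
        rw [Finset.sum_eq_single b (fun b' _ hb => by simp [hs, he.eq_iff, Ne.symm hb]) (by simp),
          hs, if_pos rfl]
    simp only [this, ap_mul, ← inner_ap_left, ← inner_sum, ← sum_inner, inner_self_eq_norm_sq_to_K]
    simp
  have e2 := congrArg norm e1
  rw [Complex.norm_real, Real.norm_of_nonneg (sq_nonneg _)] at e2
  rw [e2]
  refine (norm_sum_le _ _).trans (Finset.sum_le_sum fun b _ => (inner_ap_le _ _ _).trans ?_)
  rw [sq]
  exact mul_le_mul_of_nonneg_left (mul_le_of_le_one_left (norm_nonneg _) hc.norm_le) (norm_nonneg _)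

theorem le_sq_of {S B : ℝ} (hS : 0 ≤ S) (h : S ≤ √S * B) : S ≤ B ^ 2 := by
  nlinarith [Real.sq_sqrt hS, sq_nonneg (√S - B)]

theorem col (hc : IsStarProjection c) (hs : ∀ i j, star (s i) * s j = if i = j then c else 0)
    {β : Type} [Fintype β] {e : β → G} (he : Function.Injective e) (ξ : H) :
    ∑ b, ‖ap (star (s (e b))) ξ‖ ^ 2 ≤ ‖ξ‖ ^ 2 := by
  refine le_sq_of (by positivity) ?_
  have e1 : ((∑ b, ‖ap (star (s (e b))) ξ‖ ^ 2 : ℝ) : ℂ) =
      ⟪∑ b, ap (s (e b)) (ap (star (s (e b))) ξ), ξ⟫_ℂ := by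
    simp only [sum_inner, inner_ap_left (s _), inner_self_eq_norm_sq_to_K]
    simp
  have e2 := congrArg norm e1
  rw [Complex.norm_real, Real.norm_of_nonneg (by positivity)] at e2
  refine e2.le.trans ((norm_inner_le_norm _ _).trans ?_)
  exact mul_le_mul_of_nonneg_right (Real.le_sqrt_of_sq_le (row hc hs he _)) (norm_nonneg _)

theorem mat (hc : IsStarProjection c) (hs : ∀ i j, star (s i) * s j = if i = j then c else 0)
    {α β : Type} [Fintype α] [Fintype β] {e : α → G} (he : Function.Injective e) {e' : β → G}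
    (he' : Function.Injective e') {x : α → β → Al M} {ρ : ℝ} (hρ : 0 ≤ ρ) (hx : RC x ρ) {d : α → ℂ}
    {d' : β → ℂ} (hd : ∀ a, ‖d a‖ = 1) (hd' : ∀ a, ‖d' a‖ = 1) :
    ‖∑ b, d' b • ∑ a, d a • (s (e a) * x a b * star (s (e' b)))‖ ≤ ρ := by
  refine norm_le_of_ap hρ fun ξ => abs_le_of_sq_le_sq' ?_ (by positivity) |>.2
  have e1 : ap (∑ b, d' b • ∑ a, d a • (s (e a) * x a b * star (s (e' b)))) ξ =
      ∑ a, ap (s (e a)) (d a • ∑ b, ap (x a b) (d' b • ap (star (s (e' b))) ξ)) := by
    simp only [ap_sum, ap_smul, ap_mul, Finset.smul_sum]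
    simp only [ap, map_sum, map_smul]
    rw [Finset.sum_comm]
    simp only [smul_comm (d _)]
  rw [e1]
  refine (row hc hs he _).trans ?_
  simp only [norm_smul, hd, one_mul]
  refine (hx _).trans ?_
  simp only [norm_smul, hd', one_mul, mul_pow]
  exact mul_le_mul_of_nonneg_left (col hc hs he' ξ) (sq_nonneg _)

theorem ap_av {ι : Type} [Fintype ι] (f : ι → Al M) (ξ : H) :
    ap (av f) ξ = av fun i => ap (f i) ξ :=
  map_av (L := fun a : Al M => ap a ξ) ⟨fun _ _ => rfl, fun _ _ => rfl⟩ f

variable [AddCommGroup G]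

theorem T_cb (hc : IsStarProjection c) (hs : ∀ i j, star (s i) * s j = if i = j then c else 0)
    {β : Type} [Fintype β] {e : β → G} (he : Function.Injective e) (ξ : β → H) (l : List (Al M)) :
    ∀ {C ρ : ℝ} {φ : List (Al M) → Al M} (X : β → Al M) (τ : G), 0 ≤ C → 0 ≤ ρ →
      Lin (l.length + 1) φ → Bd (l.length + 1) C φ →
      (∀ d : β → ℂ, (∀ b, ‖d b‖ = 1) → ‖∑ b, d b • X b‖ ≤ ρ) →
      ‖∑ b, ap (T s l (s (e b + τ)) (cs (X b) φ)) (ξ b)‖ ≤ C * ρ * np l * √(∑ b, ‖ξ b‖ ^ 2) := by
  classical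
  have hinj : ∀ τ : G, Function.Injective fun b => e b + τ := fun τ =>
    (add_left_injective τ).comp he
  have hdiag : ∀ (l : List (Al M)) {φ : List (Al M) → Al M} (X : β → Al M)
      (L : β → (List (Al M) → Al M) →ₗ[Al M] Al M), Lin (l.length + 1) φ →
      (∀ b {χ : List (Al M) → Al M}, (∀ r, r.length = l.length → χ r = 0) → L b χ = 0) →
      ∑ b, ap (L b (cs (X b) φ)) (ξ b) = av fun d : β → Bool =>
        ∑ b, sg d b • ap (L b (cs (∑ b', sg d b' • X b') φ)) (ξ b) := by
    intro l φ X L hφ hL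
    rw [diag fun b b' => ap (L b (cs (X b') φ)) (ξ b)]
    congr 1; funext d
    refine Finset.sum_congr rfl fun b _ => ?_
    have := slot hφ (L b) (hL b)
    rw [show L b (cs (∑ b', sg d b' • X b') φ) = this.mk' _ (∑ b', sg d b' • X b') from rfl]
    simp only [map_sum, map_smul, ap_sum, ap_smul, Finset.smul_sum, smul_smul]
    rfl
  induction l with
  | nil =>
    intro C ρ φ X τ hC hρ hφ hB hX
    rw [hdiag [] X (fun b => T s [] (s (e b + τ))) hφ fun b _ h => T_loc s _ _ h]
    refine norm_av_le fun d => ?_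
    simp only [T_nil, ap_mul]
    simp only [ap, ← map_smul, ← map_sum]
    refine (ap_le _ _).trans (mul_le_mul (Bd_cs hB hC (hX _ (norm_sg d)) [] rfl)
      (Real.le_sqrt_of_sq_le ((row hc hs (hinj τ) _).trans ?_)) (norm_nonneg _)
      (mul_nonneg (by positivity) (np_nonneg _)))
    simp [norm_smul, norm_sg]
  | cons y l ih =>
    intro C ρ φ X τ hC hρ hφ hB hX
    rw [hdiag (y :: l) X (fun b => T s (y :: l) (s (e b + τ))) hφ fun b _ h => T_loc s _ _ h]
    refine norm_av_le fun d => ?_
    set φ' := cs (∑ b', sg d b' • X b') φ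
    have hφ' : Lin (l.length + 1) φ' := Lin_cs hφ _
    have e1 : ∀ b, sg d b • ap (T s (y :: l) (s (e b + τ)) φ') (ξ b) = av fun τ' =>
        ap (T s l (s (e b + τ')) (cs (sg d b • (s (e b + τ) * y * star (s (e b + τ')))) φ'))
          (ξ b) := fun b => by
      rw [T_cons, av_shift _ (e b), ap_av, map_av (L := fun η : H => sg d b • η)
        ⟨fun _ _ => smul_add _ _ _, fun _ _ => smul_comm _ _ _⟩]
      congr 1; funext τ'
      rw [(slot hφ' (T s l (s (e b + τ'))) fun h => T_loc s _ _ h).map_smul, ap_smul]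
    simp only [e1, sum_av]
    refine norm_av_le fun τ' => (ih _ τ' (by positivity) (norm_nonneg y) hφ'
      (Bd_cs hB hC (hX _ (norm_sg d))) fun d' hd' => ?_).trans (by rw [np_cons]; ring_nf; rfl)
    have := mat hc hs (hinj τ) (hinj τ') (x := fun a b => if a = b then y else 0) (norm_nonneg y)
      (fun η => by
        rw [Finset.mul_sum]
        refine Finset.sum_le_sum fun a _ => ?_
        rw [Finset.sum_eq_single a (fun b _ hb => by simp [Ne.symm hb]) (by simp),
          ← mul_pow]
        simp only [if_true]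
        exact pow_le_pow_left₀ (norm_nonneg _) (ap_le _ _) 2) (norm_sg d) hd'
    simpa using this

theorem cb (hc : IsStarProjection c) (hs : ∀ i j, star (s i) * s j = if i = j then c else 0)
    (l : List (Al M)) {C : ℝ} {φ : List (Al M) → Al M} (hC : 0 ≤ C)
    (hφ : Lin (l.length + 1) φ) (hB : Bd (l.length + 1) C φ) :
    CBk (Fintype.card G) (fun x => av fun i => star (s i) * T s (x :: l) (s i) φ) (C * np l) := by
  classical
  intro α β _ _ hα hβ x hx ξ
  obtain ⟨e⟩ := Function.Embedding.nonempty_of_card_le hα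
  obtain ⟨e'⟩ := Function.Embedding.nonempty_of_card_le hβ
  have h0 := np_nonneg l
  set w : α → H := fun a => ∑ b, ap (av fun i => star (s i) * T s (x a b :: l) (s i) φ) (ξ b)
    with hw
  change ∑ a, ‖w a‖ ^ 2 ≤ _
  rw [← Real.sq_sqrt (by positivity : 0 ≤ ∑ b, ‖ξ b‖ ^ 2), ← mul_pow]
  refine le_sq_of (by positivity) ?_
  let Z : G → G → α → H := fun σ τ a => ∑ b, ap (T s l (s (e' b + τ))
    (cs (s (e a + σ) * x a b * star (s (e' b + τ))) φ)) (ξ b)
  have e1 : ∀ a, w a = av fun σ => av fun τ => ap (star (s (e a + σ))) (Z σ τ a) := fun a => by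
    simp only [hw, ap_av, sum_av]
    rw [av_shift _ (e a)]
    congr 1; funext σ
    have : ∀ b, ap (star (s (e a + σ)) * T s (x a b :: l) (s (e a + σ)) φ) (ξ b) =
        av fun τ => ap (star (s (e a + σ))) (ap (T s l (s (e' b + τ))
          (cs (s (e a + σ) * x a b * star (s (e' b + τ))) φ)) (ξ b)) := fun b => by
      rw [T_cons, av_shift _ (e' b), ap_mul, ap_av, map_av (L := fun η : H => ap _ η)
        ⟨fun _ _ => map_add _ _ _, fun _ _ => map_smul _ _ _⟩]
    simp only [this, sum_av, Z]
    simp only [ap, map_sum]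
  have hin : ∀ η : H, IsLinearMap ℂ fun ζ : H => ⟪η, ζ⟫_ℂ := fun η =>
    ⟨inner_add_right η, fun t ζ => inner_smul_right η ζ t⟩
  have e2 : ((∑ a, ‖w a‖ ^ 2 : ℝ) : ℂ) =
      av fun σ => av fun τ => ∑ a, ⟪ap (s (e a + σ)) (w a), Z σ τ a⟫_ℂ := by
    simp only [← sum_av, inner_ap_left (s _), ← map_av (hin _), ← e1, inner_self_eq_norm_sq_to_K]
    simp
  have e3 := congrArg norm e2
  rw [Complex.norm_real, Real.norm_of_nonneg (by positivity)] at e3
  refine e3.le.trans (norm_av_le fun σ => norm_av_le fun τ => ?_)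
  rw [diag fun a a' => ⟪ap (s (e a + σ)) (w a), Z σ τ a'⟫_ℂ]
  refine norm_av_le fun d => ?_
  have e4 : ∑ a, ∑ a', (sg d a * sg d a') • ⟪ap (s (e a + σ)) (w a), Z σ τ a'⟫_ℂ =
      ⟪∑ a, ap (s (e a + σ)) (sg d a • w a), ∑ b, ap (T s l (s (e' b + τ))
        (cs (∑ a, sg d a • (s (e a + σ) * x a b * star (s (e' b + τ)))) φ)) (ξ b)⟫_ℂ := by
    have : ∀ b, T s l (s (e' b + τ))
        (cs (∑ a, sg d a • (s (e a + σ) * x a b * star (s (e' b + τ)))) φ) =
        ∑ a, sg d a • T s l (s (e' b + τ)) (cs (s (e a + σ) * x a b * star (s (e' b + τ))) φ) :=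
      fun b => by
        have := slot hφ (T s l (s (e' b + τ))) fun h => T_loc s _ _ h
        change this.mk' _ _ = _
        simp only [map_sum, map_smul]
        rfl
    simp only [this, ap_sum, ap_smul]
    rw [Finset.sum_comm (γ := β)]
    simp only [← Finset.smul_sum, sum_inner, ap, map_smul, inner_smul_left, star_sg, smul_eq_mul, Z]
    refine Finset.sum_congr rfl fun a _ => ?_
    rw [inner_sum, Finset.mul_sum]
    exact Finset.sum_congr rfl fun a' _ => by rw [inner_smul_right, mul_assoc]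
  rw [e4]
  have hi : Function.Injective fun a => e a + σ := (add_left_injective σ).comp e.injective
  have hi' : Function.Injective fun a => e' a + τ := (add_left_injective τ).comp e'.injective
  refine (norm_inner_le_norm _ _).trans (mul_le_mul
    (Real.le_sqrt_of_sq_le ((row hc hs hi _).trans (by simp [norm_smul, norm_sg])))
    ((T_cb hc hs e'.injective ξ l _ τ hC zero_le_one hφ hB fun d' hd' =>
      mat hc hs hi hi' zero_le_one hx (norm_sg d) hd').trans (by rw [mul_one]))
    (norm_nonneg _) (by positivity))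

end cb

end Prismx

open Prismx in
theorem prism : Prism.{u} := by
  intro H _ _ _ M c hc ⟨s₀, hs₀⟩ n φ C hC hL hB hco hcφ k
  let s : ZMod (k + 1) → Al M := fun i => s₀ i.val
  have hs : ∀ i j, star (s i) * s j = if i = j then c else 0 := fun i j => by
    simp only [s, hs₀, (ZMod.val_injective (k + 1)).eq_iff]
  have h1 : ∀ i, star (s i) * s i = c := fun i => by simp [hs]
  have hcc := hc.1.isIdempotentElem.eq
  have h2 : ∀ i, s i * c = s i := fun i => by
    rw [← sub_eq_zero, ← CStarRing.star_mul_self_eq_zero_iff]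
    simp only [star_sub, star_mul, hc.1.isSelfAdjoint.star_eq, sub_mul, mul_sub, mul_assoc]
    simp only [← mul_assoc (star (s i)), h1, hcc, _root_.sub_self]
  have h3 : ∀ i, c * star (s i) = star (s i) := fun i => by
    rw [← hc.1.isSelfAdjoint.star_eq, ← star_mul, h2]
  have h4 : ∀ i, ‖s i‖ ≤ 1 := fun i => by
    have := hc.1.norm_le
    rw [← h1 i, CStarRing.norm_star_mul_self] at this
    nlinarith [norm_nonneg (s i)]
  refine ⟨fun l => Ho s l φ, Lin_Ho s hL, fun l hl => ?_, fun l hl => ?_⟩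
  · subst hl; exact Ho_bd h4 l hC hB
  · subst hl
    have e : ∀ x, φ (x :: l) + dd (fun l => Ho s l φ) (x :: l) =
        av fun i => star (s i) * T s (x :: l) (s i) φ := fun x => by
      have e1 := Ho_del hc.2 h1 h2 h3 (x :: l) φ
      have e2 : Ho s (x :: l) (lam φ + del φ) = 0 := Ho_loc s _ fun r hr => hco r hr
      rw [← hc.2, hcφ] at e1
      rw [map_add] at e2
      rw [← Ho_lam, dd]
      rw [eq_neg_of_add_eq_zero_left e2, eq_sub_of_add_eq' e1]
      abel
    simp only [e]
    intro α β _ _ hα hβ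
    exact cb hc.1 hs l hC hL hB α β (by simp; omega) (by simp; omega)

end Crest.Agent.HH
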