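import Crest.Agent.HH.Defs

/-! Unboundedness of the Riesz projection, in bilinear form. -/

set_option autoImplicit false
open scoped ComplexConjugate BigOperators
open Filter Topology Finset

namespace Crest.Agent.HH
open Crest.Agent.GEN hiding sub_self

universe u

namespace Rz

lemma scal (L : ℝ) : ∃ (N : ℕ) (a : ℕ → ℝ), (∀ n, 0 ≤ a n) ∧ L ≤ ∑ n ∈ range N, a n ∧
    ∀ z : ℂ, ‖z‖ = 1 → ‖∑ n ∈ range N, (a n : ℂ) * (star z ^ (n + 1) - z ^ (n + 1))‖ ≤ 10 := by
  set ρ := 1 - Real.exp (-(|L| + 1)) with hρ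
  have h0 : 0 ≤ ρ := sub_nonneg.2 (Real.exp_le_one_iff.2 (by linarith [abs_nonneg L]))
  have h1 : ρ < 1 := sub_lt_self _ (Real.exp_pos _)
  obtain ⟨N, hN⟩ := ((tendsto_sum_nat_add fun n => ρ ^ (n + 1)).eventually
    (ge_mem_nhds one_pos)).exists
  have key : ∀ z : ℂ, ‖z‖ = 1 → ‖-Complex.log (1 - ρ * z) -
      ∑ n ∈ range N, ((ρ ^ (n + 1) / (n + 1) : ℝ) : ℂ) * z ^ (n + 1)‖ ≤ 1 := fun z hz => by
    have e1 := (hasSum_nat_add_iff' N).2 ((hasSum_nat_add_iff' 1).2
      (Complex.hasSum_taylorSeries_neg_log (z := ρ * z) (by simpa [hz, abs_of_nonneg h0])))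
    have e2 : Summable fun n => ρ ^ (n + N + 1) :=
      (summable_nat_add_iff (N + 1)).2 (summable_geometric_of_lt_one h0 h1)
    have := e1.norm_le_of_bounded e2.hasSum fun n => by
      rw [norm_div, norm_pow, norm_mul, hz, mul_one, Complex.norm_real, Real.norm_of_nonneg h0,
        Complex.norm_natCast]
      exact div_le_self (by positivity) (by norm_cast; omega)
    refine le_trans (le_of_eq ?_) (this.trans hN)
    simp [mul_pow, div_mul_eq_mul_div]
  refine ⟨N, fun n => ρ ^ (n + 1) / (n + 1), fun n => by positivity, ?_, fun z hz => ?_⟩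
  · have := key 1 norm_one
    simp only [one_pow, mul_one, ← Complex.ofReal_sum] at this
    rw [← Complex.ofReal_one, ← Complex.ofReal_sub, ← Complex.ofReal_log (by linarith),
      ← Complex.ofReal_neg, ← Complex.ofReal_sub, Complex.norm_real, hρ, sub_sub_cancel,
      Real.log_exp] at this
    linarith [(abs_le.1 this).2, le_abs_self L]
  · set S := ∑ n ∈ range N, ((ρ ^ (n + 1) / (n + 1) : ℝ) : ℂ) * z ^ (n + 1) with hS
    have e : ∑ n ∈ range N, ((ρ ^ (n + 1) / (n + 1) : ℝ) : ℂ) * (star z ^ (n + 1) - z ^ (n + 1)) =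
        -(S - conj S) := by
      simp only [hS, map_sum, map_mul, map_pow, Complex.conj_ofReal, mul_sub, sum_sub_distrib,
        neg_sub, Complex.star_def]
    have e1 := (Complex.abs_im_le_norm _).trans (key z hz)
    rw [Complex.sub_im, Complex.neg_im, Complex.log_im] at e1
    have e2 := abs_le.1 (Complex.abs_arg_le_pi (1 - ρ * z))
    rw [e, norm_neg, Complex.sub_conj, norm_mul, Complex.norm_I, mul_one, Complex.norm_real,
      Real.norm_eq_abs, abs_le]
    constructor <;> linarith [abs_le.1 e1, Real.pi_le_four]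

lemma orth {M : ℕ} {ζ : ℂ} (h : IsPrimitiveRoot ζ M) {a b : ℕ} (ha : a < M) (hb : b < M) :
    ∑ t ∈ range M, (ζ ^ t) ^ a * star (ζ ^ t) ^ b = if a = b then (M : ℂ) else 0 := by
  have h0 := h.ne_zero (by omega)
  have h1 : star ζ = ζ⁻¹ := (Complex.inv_eq_conj (h.norm'_eq_one (by omega))).symm
  have e : ∀ t, (ζ ^ t) ^ a * star (ζ ^ t) ^ b = (ζ ^ a / ζ ^ b) ^ t := fun t => by
    rw [star_pow, h1, div_pow, inv_pow, inv_pow, ← pow_mul, ← pow_mul, ← pow_mul, ← pow_mul,
      mul_comm a, mul_comm b, div_eq_mul_inv]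
  simp only [e]
  split_ifs with hab
  · simp [hab, h0]
  · rw [geom_sum_eq fun h' => hab (h.pow_inj ha hb (eq_of_div_eq_one h')), div_pow, ← pow_mul,
      ← pow_mul, mul_comm a, mul_comm b, pow_mul, pow_mul, h.pow_eq_one]
    simp

lemma cnt (K m : ℕ) (X : ℂ) : ∑ i ∈ range K, ∑ j ∈ range K, (if j = i + m then X else 0) =
    ((K - m : ℕ) : ℂ) * X := by
  simp only [sum_ite_eq', mem_range]
  rw [← sum_filter, sum_const, nsmul_eq_mul, show (range K).filter (fun i => i + m < K) =
    range (K - m) by ext; simp; omega, card_range]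

end Rz

open Rz in
theorem riesz : Riesz.{u} := by
  refine ⟨10, fun L => ?_⟩
  obtain ⟨N, a, a0, a1, a2⟩ := scal (2 * L)
  set K := 2 * N + 1 with hK
  have hK0 : (0 : ℝ) < K := by positivity
  refine ⟨N, fun n => a n * (K - (n + 1) : ℕ) / K, ?_, fun A _ T Φ C hC hΦ hL w hw x z => ?_⟩
  · have : ∑ n ∈ range N, a n ≤ 2 * ∑ n ∈ range N, a n * (K - (n + 1) : ℕ) / K := by
      rw [mul_sum]
      refine sum_le_sum fun n hn => ?_
      have : (K : ℝ) ≤ 2 * (K - (n + 1) : ℕ) := by have := mem_range.1 hn; norm_cast; omega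
      rw [← mul_div_assoc, le_div_iff₀ hK0]; nlinarith [a0 n]
    linarith
  let B : A →ₗ[ℂ] A →ₗ[ℂ] ℂ := LinearMap.mk₂ ℂ (fun a b => Φ (a, b))
    (fun _ _ b => (hΦ.1 b).1 _ _) (fun _ _ b => (hΦ.1 b).2 _ _) (fun a _ _ => (hΦ.2 a).1 _ _)
    (fun _ a _ => (hΦ.2 a).2 _ _)
  have hB : ∀ a b, Φ (a, b) = B a b := fun _ _ => rfl
  set M := 2 * K
  have hζ := Complex.isPrimitiveRoot_exp M (by omega)
  generalize Complex.exp _ = ζ at hζ
  have hn : ∀ t, ‖ζ ^ t‖ = 1 := fun t => by rw [norm_pow, hζ.norm'_eq_one (by omega), one_pow]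
  let r : ℂ → A := fun l => ∑ j ∈ range K, l ^ j • w ^ j
  let p : ℂ → A := fun l => ∑ n ∈ range N, (a n : ℂ) •
    (star l ^ (n + 1) • star w ^ (n + 1) - l ^ (n + 1) • w ^ (n + 1))
  have hp : ∀ l, ‖l‖ = 1 → ‖p l‖ ≤ 10 := fun l hl => by
    have : IsStarNormal w := isStarNormal_of_mem_unitary hw
    have e : p l = cfc (fun y : ℂ => ∑ n ∈ range N, (a n : ℂ) * (star l ^ (n + 1) * star y ^ (n + 1)
        - l ^ (n + 1) * y ^ (n + 1))) w := by
      rw [← Finset.sum_fn, cfc_sum _ w _ fun _ _ => by fun_prop]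
      refine sum_congr rfl fun n _ => ?_
      rw [cfc_const_mul .., cfc_sub .., cfc_const_mul .., cfc_const_mul .., cfc_pow ..,
        cfc_star_id .., cfc_pow_id ..]
    rw [e]
    refine norm_cfc_le (by norm_num) fun y hy => ?_
    have := a2 (l * y) (by simp [hl, mem_sphere_zero_iff_norm.1 (spectrum.subset_circle_of_unitary hw hy)])
    simpa only [star_mul', mul_pow] using this
  have hww : ∀ i m, star w ^ i * w ^ (i + m) = w ^ m := fun i m => by
    rw [pow_add, ← mul_assoc, ← star_pow, Unitary.star_mul_self_of_mem (pow_mem hw i), one_mul]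
  have hww' : ∀ i m, star w ^ (i + m) * w ^ i = star w ^ m := fun i m => by
    simpa using congrArg star (hww i m)
  have hr : ∀ l, star (r l) * r l =
      ∑ i ∈ range K, ∑ j ∈ range K, (l ^ j * star l ^ i) • (star w ^ i * w ^ j) := fun l => by
    simp only [r, star_sum, sum_mul_sum, star_smul, star_pow, smul_mul_smul_comm, mul_comm]
  have h1 : ∑ t ∈ range M, T.n2 (r (ζ ^ t)) ^ 2 = M * K := by
    have : ∑ t ∈ range M, T.τ (star (r (ζ ^ t)) * r (ζ ^ t)) = M * K := by
      simp only [hr, map_sum, map_smul, smul_eq_mul]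
      rw [sum_comm, mul_comm, ← show _ = (K : ℂ) * M from cnt K 0 M]
      refine sum_congr rfl fun i hi => ?_
      rw [sum_comm]
      refine sum_congr rfl fun j hj => ?_
      rw [← sum_mul, orth hζ (by have := mem_range.1 hj; omega) (by have := mem_range.1 hi; omega),
        add_zero]
      split_ifs with h
      · simpa [h, T.map_one] using congrArg (M * T.τ ·) (hww i 0)
      · simp
    simp only [T.τ_star_mul_self] at this
    exact_mod_cast this
  have h2 : ∑ t ∈ range M, B (x * (star (r (ζ ^ t)) * r (ζ ^ t))) (p (ζ ^ t) * z) =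
      (M * K : ℝ) * ∑ n ∈ range N, ((a n * (K - (n + 1) : ℕ) / K : ℝ) : ℂ) *
        (Φ (x * w ^ (n + 1), star w ^ (n + 1) * z) - Φ (x * star w ^ (n + 1), w ^ (n + 1) * z)) := by
    simp only [p, sum_mul, map_sum, smul_mul_assoc, map_smul, smul_eq_mul, sub_mul, map_sub]
    rw [sum_comm, mul_sum]
    refine sum_congr rfl fun n hn => ?_
    have hn := mem_range.1 hn
    have e1 : ∑ t ∈ range M, star (ζ ^ t) ^ (n + 1) * B (x * (star (r (ζ ^ t)) * r (ζ ^ t)))
        (star w ^ (n + 1) * z) = ((K - (n + 1) : ℕ) : ℂ) *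
        (M * B (x * w ^ (n + 1)) (star w ^ (n + 1) * z)) := by
      simp only [hr, mul_sum, map_sum, LinearMap.sum_apply, mul_smul_comm, map_smul,
        LinearMap.smul_apply, smul_eq_mul]
      rw [sum_comm, ← cnt]
      refine sum_congr rfl fun i hi => ?_
      rw [sum_comm]
      refine sum_congr rfl fun j hj => ?_
      simp only [show ∀ a b d : ℂ, star a ^ (n + 1) * (b * star a ^ i * d) =
        b * star a ^ (i + (n + 1)) * d from fun _ _ _ => by ring, ← sum_mul]
      rw [orth hζ (by have := mem_range.1 hj; omega) (by have := mem_range.1 hi; omega)]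
      split_ifs with h
      · rw [h, hww]
      · simp
    have e2 : ∑ t ∈ range M, (ζ ^ t) ^ (n + 1) * B (x * (star (r (ζ ^ t)) * r (ζ ^ t)))
        (w ^ (n + 1) * z) = ((K - (n + 1) : ℕ) : ℂ) *
        (M * B (x * star w ^ (n + 1)) (w ^ (n + 1) * z)) := by
      simp only [hr, mul_sum, map_sum, LinearMap.sum_apply, mul_smul_comm, map_smul,
        LinearMap.smul_apply, smul_eq_mul]
      rw [sum_comm, ← cnt, sum_comm (s := range K) (t := range K)]
      refine sum_congr rfl fun i hi => ?_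
      rw [sum_comm]
      refine sum_congr rfl fun j hj => ?_
      simp only [← mul_assoc, ← sum_mul, ← pow_add, add_comm (n + 1)]
      rw [orth hζ (by have := mem_range.1 hj; omega) (by have := mem_range.1 hi; omega)]
      simp only [eq_comm (b := i)]
      split_ifs with h
      · rw [h, mul_assoc x, hww']
      · simp
    rw [← mul_sum, sum_sub_distrib, e1, e2, hB, hB]
    have : (K : ℂ) ≠ 0 := by exact_mod_cast hK0.ne'
    push_cast; field_simp
  have h3 : ∀ t, ‖B (x * (star (r (ζ ^ t)) * r (ζ ^ t))) (p (ζ ^ t) * z)‖ ≤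
      T.n2 (r (ζ ^ t)) ^ 2 * (10 * C * ‖x‖ * ‖z‖) := fun t => by
    refine (hL _ _ (‖x‖ * T.n2 (r (ζ ^ t)) ^ 2) fun m hm => ?_).trans ?_
    · rw [mul_assoc, mul_assoc, T.comm, mul_assoc, mul_assoc, sq, mul_left_comm]
      refine (T.cs _ _).trans (mul_le_mul_of_nonneg_left ((T.n2_mul_le' _ _).trans ?_)
        (T.n2_nonneg _))
      rw [mul_comm]
      exact mul_le_mul_of_nonneg_right ((norm_mul_le _ _).trans
        (mul_le_of_le_one_left (norm_nonneg _) hm)) (T.n2_nonneg _)
    · have := (norm_mul_le _ z).trans (mul_le_mul_of_nonneg_right (hp _ (hn t)) (norm_nonneg _))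
      calc _ ≤ C * (‖x‖ * T.n2 (r (ζ ^ t)) ^ 2) * (10 * ‖z‖) := by gcongr
        _ = _ := by ring
  have h4 := (norm_sum_le _ _).trans (sum_le_sum (s := range M) fun t _ => h3 t)
  rw [h2, ← sum_mul, h1, norm_mul, Complex.norm_real, Real.norm_of_nonneg (by positivity)] at h4
  exact le_of_mul_le_mul_left h4 (by positivity)

end Crest.Agent.HH
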