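import Crest.Agent.HH.Mean

/-! One step of the random model. -/

set_option autoImplicit false
open scoped ComplexConjugate BigOperators InnerProductSpace
open Filter Topology

namespace Crest.Agent.HH
open Crest.Agent.GEN

universe u

namespace StepX

lemma sum_diag {r : ℕ} {P : ℕ → ℕ → ℂ} {a : ℕ → ℂ} {B : ℝ} (hB : 0 ≤ B)
    (h1 : ∀ s < r, P s s = a s) (h2 : ∀ s < r, ∀ t < r, s ≠ t → ‖P s t‖ ≤ B) :
    ‖∑ s ∈ Finset.range r, ∑ t ∈ Finset.range r, P s t - ∑ s ∈ Finset.range r, a s‖ ≤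
      r * (r * B) := by
  rw [← Finset.sum_sub_distrib]
  refine (norm_sum_le _ _).trans ((Finset.sum_le_card_nsmul _ _ (r * B) fun s hs => ?_).trans
    (by simp))
  rw [← Finset.add_sum_erase _ _ hs, h1 s (Finset.mem_range.1 hs), add_sub_cancel_left]
  refine (norm_sum_le _ _).trans ((Finset.sum_le_card_nsmul _ _ B fun t ht => ?_).trans ?_)
  · rw [Finset.mem_erase] at ht
    exact h2 s (Finset.mem_range.1 hs) t (Finset.mem_range.1 ht.2) ht.1.symm
  · rw [nsmul_eq_mul]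
    gcongr
    exact Finset.card_erase_le.trans (by simp)

lemma sum_tri {r : ℕ} {Q : ℕ → ℕ → ℂ} {B : ℝ} (hB : 0 ≤ B)
    (h : ∀ t < r, ∀ s < t, ‖Q s t‖ ≤ B) :
    ‖∑ t ∈ Finset.range r, ∑ s ∈ Finset.range t, Q s t‖ ≤ r * (r * B) := by
  refine (norm_sum_le _ _).trans ((Finset.sum_le_card_nsmul _ _ (r * B) fun t ht => ?_).trans
    (by simp))
  have ht := Finset.mem_range.1 ht
  refine (norm_sum_le _ _).trans ((Finset.sum_le_card_nsmul _ _ B fun s hs =>
    h t ht s (Finset.mem_range.1 hs)).trans ?_)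
  rw [nsmul_eq_mul, Finset.card_range]
  gcongr

lemma norm_four {a b c d : ℂ} {B : ℝ} (ha : ‖a‖ ≤ B) (hb : ‖b‖ ≤ B) (hc : ‖c‖ ≤ B)
    (hd : ‖d‖ ≤ B) : ‖a + b + c + d‖ ≤ 4 * B := by
  linarith [norm_add_le (a + b + c) d, norm_add_le (a + b) c, norm_add_le a b]

variable {A : Type u} [CStarAlgebra A]

/-- The statement of the expansion for fixed data. -/
def Ex (A : Type u) [CStarAlgebra A] (r : ℕ) (D : ℝ) : Prop :=
  ∀ (Γ : A × A → ℂ) (C : ℝ), 0 ≤ C →
    Bil Γ → (∀ a b, ‖Γ (a, b)‖ ≤ C * ‖a‖ * ‖b‖) → ∀ (θ : ℝ), |θ| ≤ 1 → ∀ l ∈ unitary A,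
    ∀ G : ℕ → A, (∀ s, G s ∈ unitary A) →
    ‖(4 : ℂ)⁻¹ * ∑ k : Fin 4, Γ (ordp (fun s => cj (G s) (eu θ k l)) r,
        star (ordp (fun s => cj (G s) (eu θ k l)) r)) -
      ((1 - 2 * r * θ ^ 2) * Γ (1, 1) +
        θ ^ 2 * ∑ s ∈ Finset.range r, ∑ t ∈ Finset.range r,
          (Γ (cj (G s) l, cj (G t) (star l)) + Γ (cj (G s) (star l), cj (G t) l)) -
        θ ^ 2 * ∑ t ∈ Finset.range r, ∑ s ∈ Finset.range t,
          (Γ (cj (G s) l * cj (G t) (star l), 1) + Γ (cj (G s) (star l) * cj (G t) l, 1) +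
            Γ (1, cj (G t) l * cj (G s) (star l)) + Γ (1, cj (G t) (star l) * cj (G s) l)))‖ ≤
      D * C * |θ| ^ 3

lemma gen {r : ℕ} {D : ℝ} (h : Ex A r D) (m : Mean (unitary A × unitary A))
    (Γ : unitary A → A × A → ℂ) {C : ℝ} (hC : 0 ≤ C) (hB : ∀ k, Bil (Γ k))
    (hb : ∀ k a b, ‖Γ k (a, b)‖ ≤ C * ‖a‖ * ‖b‖) {θ : ℝ} (hθ : |θ| ≤ 1) {G : ℕ → A}
    (hG : ∀ s, G s ∈ unitary A) {a : ℕ → ℂ} {B B' : ℝ} (hB0 : 0 ≤ B) (hB0' : 0 ≤ B')
    (h1 : ∀ s < r, m.L (fun ω => Γ ω.2 (cj (G s) ω.1, cj (G s) (star (ω.1 : A)))) +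
      m.L (fun ω => Γ ω.2 (cj (G s) (star (ω.1 : A)), cj (G s) ω.1)) = a s)
    (h2 : ∀ s < r, ∀ t < r, s ≠ t →
      ‖m.L (fun ω => Γ ω.2 (cj (G s) ω.1, cj (G t) (star (ω.1 : A)))) +
        m.L (fun ω => Γ ω.2 (cj (G s) (star (ω.1 : A)), cj (G t) ω.1))‖ ≤ B)
    (h3 : ∀ s < r, ∀ t < r, s ≠ t →
      ‖m.L (fun ω => Γ ω.2 (cj (G s) ω.1 * cj (G t) (star (ω.1 : A)), 1))‖ ≤ B' ∧
      ‖m.L (fun ω => Γ ω.2 (cj (G s) (star (ω.1 : A)) * cj (G t) ω.1, 1))‖ ≤ B' ∧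
      ‖m.L (fun ω => Γ ω.2 (1, cj (G s) ω.1 * cj (G t) (star (ω.1 : A))))‖ ≤ B' ∧
      ‖m.L (fun ω => Γ ω.2 (1, cj (G s) (star (ω.1 : A)) * cj (G t) ω.1))‖ ≤ B') :
    ‖m.L (fun ω => (4 : ℂ)⁻¹ * ∑ k : Fin 4, Γ ω.2 (ordp (fun s => cj (G s) (eu θ k ω.1)) r,
        star (ordp (fun s => cj (G s) (eu θ k ω.1)) r))) -
      ((1 - 2 * r * θ ^ 2) * m.L (fun ω => Γ ω.2 (1, 1)) + θ ^ 2 * ∑ s ∈ Finset.range r, a s)‖ ≤
      θ ^ 2 * (r * (r * B) + r * (r * (4 * B'))) + D * C * |θ| ^ 3 := by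
  have e0 := m.norm_le fun ω : unitary A × unitary A =>
    h (Γ ω.2) C hC (hB _) (hb _) θ hθ ω.1 ω.1.2 G hG
  simp only [m.sub, m.add, m.cmul _ (fun ω => Γ ω.2 (1, 1)), m.cmul ((θ : ℂ) ^ 2), m.sum] at e0
  have e1 := sum_diag hB0 h1 h2
  have e2 := sum_tri (r := r) (B := 4 * B') (Q := fun s t =>
    m.L (fun ω => Γ ω.2 (cj (G s) ω.1 * cj (G t) (star (ω.1 : A)), 1)) +
    m.L (fun ω => Γ ω.2 (cj (G s) (star (ω.1 : A)) * cj (G t) ω.1, 1)) +
    m.L (fun ω => Γ ω.2 (1, cj (G t) ω.1 * cj (G s) (star (ω.1 : A)))) +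
    m.L (fun ω => Γ ω.2 (1, cj (G t) (star (ω.1 : A)) * cj (G s) ω.1))) (by positivity)
    fun t ht s hs => norm_four (h3 s (by omega) t ht hs.ne).1 (h3 s (by omega) t ht hs.ne).2.1
      (h3 t ht s (by omega) hs.ne').2.2.1 (h3 t ht s (by omega) hs.ne').2.2.2
  have gl : ∀ (X Y a0 P Q S : ℂ) (b0 b1 b2 : ℝ), ‖X - (Y + θ ^ 2 * P - θ ^ 2 * Q)‖ ≤ b0 →
      ‖P - S‖ ≤ b1 → ‖Q‖ ≤ b2 → ‖X - (Y + θ ^ 2 * S)‖ ≤ θ ^ 2 * (b1 + b2) + b0 := by
    intro X Y a0 P Q S b0 b1 b2 k0 k1 k2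
    rw [show X - (Y + θ ^ 2 * S) = θ ^ 2 * ((P - S) - Q) + (X - (Y + θ ^ 2 * P - θ ^ 2 * Q)) by ring]
    refine (norm_add_le _ _).trans (add_le_add ?_ k0)
    rw [norm_mul, norm_pow, Complex.norm_real, Real.norm_eq_abs, sq_abs]
    gcongr
    exact (norm_sub_le _ _).trans (add_le_add k1 k2)
  exact gl _ _ 0 _ _ _ _ _ _ e0 e1 e2

lemma l2 {T : Tr A} {Φ : A × A → ℂ} {C : ℝ} (h : L1B T Φ C) (a b : A) :
    ‖Φ (a, b)‖ ≤ C * T.n2 a * ‖b‖ :=
  h a b _ fun m hm => (T.cs' a m).trans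
    (mul_le_of_le_one_right (T.n2_nonneg a) ((T.n2_le_norm m).trans hm))

end StepX

open StepX in
theorem stepM (hE : Expand.{u}) : StepM.{u} := by
  intro r
  obtain ⟨D, hD0, hD⟩ := hE r
  refine ⟨D + 16 * r ^ 2, by positivity, fun A _ T C Φ 𝔪 hC θ hθ G hG X hX x z η hη hν => ?_⟩
  have hX' := Unitary.star_mem hX
  have hG' := fun s => Unitary.star_mem (hG s)
  have hl := l2 𝔪.l1
  have hn : ∀ a b, ‖Φ (a, b)‖ ≤ C * ‖a‖ * ‖b‖ := fun a b =>
    (hl a b).trans (by gcongr; exact T.n2_le_norm a)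
  set B := C * ‖x‖ * ‖z‖ with hB
  have hB0 : 0 ≤ B := by positivity
  have hb : ∀ (k : unitary A) (a b : A),
      ‖Φ (x * a * X * star (k : A), (k : A) * star X * b * z)‖ ≤ B * ‖a‖ * ‖b‖ := fun k a b => by
    refine (hn _ _).trans ?_
    rw [CStarRing.norm_mul_mem_unitary _ (Unitary.star_mem k.2),
      CStarRing.norm_mul_mem_unitary _ hX, mul_assoc _ b,
      CStarRing.norm_mem_unitary_mul _ (mul_mem k.2 hX')]
    calc _ ≤ C * (‖x‖ * ‖a‖) * (‖b‖ * ‖z‖) := by gcongr <;> exact norm_mul_le _ _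
      _ = _ := by ring
  have lin1 : ∀ (p q w : A), IsLinearMap ℂ fun y => Φ (p * y * q, w) := fun p q w =>
    ⟨fun a b => by simp only [mul_add, add_mul]; exact (𝔪.bil.1 _).1 _ _,
      fun c a => by simp only [mul_smul_comm, smul_mul_assoc]; exact (𝔪.bil.1 _).2 _ _⟩
  have lin2 : ∀ (p q w : A), IsLinearMap ℂ fun y => Φ (w, p * y * q) := fun p q w =>
    ⟨fun a b => by simp only [mul_add, add_mul]; exact (𝔪.bil.2 _).1 _ _,
      fun c a => by simp only [mul_smul_comm, smul_mul_assoc]; exact (𝔪.bil.2 _).2 _ _⟩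
  have n1 : ∀ s t y, ‖G s * y * star (G t)‖ = ‖y‖ := fun s t y => by
    rw [CStarRing.norm_mul_mem_unitary _ (hG' t), CStarRing.norm_mem_unitary_mul _ (hG s)]
  have := T.nontrivial
  -- the two families of functionals
  have F1 : ∀ s t, (∀ k : unitary A, IsLinearMap ℂ fun y =>
        Φ (x * (G s * y * star (G t)) * X * star (k : A), (k : A) * star X * 1 * z)) ∧
      (∀ (k : unitary A) y, ‖Φ (x * (G s * y * star (G t)) * X * star (k : A),
        (k : A) * star X * 1 * z)‖ ≤ B * ‖y‖) ∧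
      ∀ (k : unitary A) y, Cen y → ‖Φ (x * (G s * y * star (G t)) * X * star (k : A),
        (k : A) * star X * 1 * z)‖ ≤ B * T.n2 y := fun s t => by
    refine ⟨fun k => ?_, fun k y => ?_, fun k y _ => ?_⟩
    · simpa only [mul_assoc] using lin1 (x * G s) (star (G t) * X * star (k : A)) _
    · simpa only [n1, norm_one, mul_one] using hb k (G s * y * star (G t)) 1
    · refine (hl _ _).trans ?_
      rw [T.n2_mul_unitary (Unitary.star_mem k.2), T.n2_mul_unitary hX, mul_one,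
        CStarRing.norm_mem_unitary_mul _ (mul_mem k.2 hX')]
      have := T.n2_mul_le x (G s * y * star (G t))
      rw [T.n2_mul_unitary (hG' t), T.n2_unitary_mul (hG s)] at this
      calc _ ≤ C * (‖x‖ * T.n2 y) * ‖z‖ := by gcongr
        _ = _ := by ring
  have F2 : ∀ s t, (∀ k : unitary A, IsLinearMap ℂ fun y =>
        Φ (x * 1 * X * star (k : A), (k : A) * star X * (G s * y * star (G t)) * z)) ∧
      (∀ (k : unitary A) y, ‖Φ (x * 1 * X * star (k : A),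
        (k : A) * star X * (G s * y * star (G t)) * z)‖ ≤ B * ‖y‖) ∧
      ∀ (k : unitary A) y, Cen y → ‖Φ (x * 1 * X * star (k : A),
        (k : A) * star X * (G s * y * star (G t)) * z)‖ ≤ B * T.n2 y := fun s t => by
    refine ⟨fun k => ?_, fun k y => ?_, fun k y hy => ?_⟩
    · simpa only [mul_assoc] using lin2 ((k : A) * star X * G s) (star (G t) * z) _
    · simpa only [n1, norm_one, mul_one] using hb k 1 (G s * y * star (G t))
    · have e : (k : A) * star X * (G s * y * star (G t)) * z =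
          y * ((k : A) * star X * G s * star (G t) * z) := by
        rw [← mul_assoc y, ← mul_assoc y, hy]; simp only [mul_assoc]
      rw [e, ← 𝔪.bal _ _ _ hy]
      refine (hl _ _).trans ?_
      rw [CStarRing.norm_mem_unitary_mul _ (mul_mem (mul_mem (mul_mem k.2 hX') (hG s)) (hG' t))]
      have := T.n2_mul_le (x * 1 * X * star (k : A)) y
      rw [CStarRing.norm_mul_mem_unitary _ (Unitary.star_mem k.2),
        CStarRing.norm_mul_mem_unitary _ hX, mul_one] at this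
      calc _ ≤ C * (‖x‖ * T.n2 y) * ‖z‖ := by rw [mul_one]; gcongr
        _ = _ := by ring
  have key := gen (hD A) 𝔪.m
    (fun k p => Φ (x * p.1 * X * star (k : A), (k : A) * star X * p.2 * z)) hB0
    (fun k => ⟨fun b => by simpa only [mul_assoc] using lin1 x (X * star (k : A)) _,
      fun a => lin2 ((k : A) * star X) z (x * a * X * star (k : A))⟩) hb hθ hG (a := fun s => 2 * Φ (x * G s, star (G s) * z))
    (B := 12 * B * η) (B' := B * η) (by positivity) (by positivity)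
    (fun s _ => by
      have a1 := 𝔪.d1 (x * G s) (star (G s) * z) _ (mul_mem hX' (hG s))
      have a2 := 𝔪.d2 (x * G s) (star (G s) * z) _ (mul_mem hX' (hG s))
      simp only [cj, star_mul, star_star, mul_assoc] at a1 a2 ⊢
      rw [a1, a2]; ring)
    (fun s hs t ht hst => by
      have a1 := 𝔪.c1 (x * G s) (star (G t) * z) _ _ (mul_mem (hG' s) hX) (mul_mem hX' (hG t))
      have a2 := 𝔪.c2 (x * G s) (star (G t) * z) _ _ (mul_mem (hG' s) hX) (mul_mem hX' (hG t))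
      have e : star (G s) * X * (star X * G t) = star (G s) * G t := by
        rw [mul_assoc, ← mul_assoc X, Unitary.mul_star_self_of_mem hX, one_mul]
      rw [e, CStarRing.norm_mul_mem_unitary _ (hG s),
        CStarRing.norm_mem_unitary_mul _ (hG' t)] at a1 a2
      have a3 : 6 * C * ‖x‖ * ‖z‖ * nu T (star (G s) * G t) ≤ 6 * C * ‖x‖ * ‖z‖ * η := by
        gcongr; exact hν s hs t ht hst
      simp only [cj, mul_assoc] at a1 a2 a3 ⊢
      refine (norm_add_le _ _).trans ((add_le_add (a1.trans a3) (a2.trans a3)).trans ?_)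
      rw [hB]; exact le_of_eq (by ring))
    (fun s hs t ht hst => by
      have a3 : B * nu T (star (G s) * G t) ≤ B * η := by gcongr; exact hν s hs t ht hst
      have a1 := (𝔪.e1 _ B B (star (G s) * G t) hB0 (F1 s t).1 (F1 s t).2.1 (F1 s t).2.2).trans a3
      have a2 := (𝔪.e2 _ B B (star (G s) * G t) hB0 (F1 s t).1 (F1 s t).2.1 (F1 s t).2.2).trans a3
      have a4 := (𝔪.e1 _ B B (star (G s) * G t) hB0 (F2 s t).1 (F2 s t).2.1 (F2 s t).2.2).trans a3
      have a5 := (𝔪.e2 _ B B (star (G s) * G t) hB0 (F2 s t).1 (F2 s t).2.1 (F2 s t).2.2).trans a3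
      simp only [cj, mul_assoc] at a1 a2 a4 a5 ⊢
      exact ⟨a1, a2, a4, a5⟩)
  have e0 := 𝔪.m0 (x * X) (star X * z)
  simp only [mul_one, ← Finset.mul_sum] at key
  simp only [← mul_assoc] at e0
  rw [e0, ← mul_assoc, mul_comm ((θ : ℂ) ^ 2) 2] at key
  refine key.trans ?_
  have h1 : 0 ≤ θ ^ 2 * η := by positivity
  have h2 : 0 ≤ |θ| ^ 3 := by positivity
  have h3 : (D + 16 * r ^ 2) * C * ‖x‖ * ‖z‖ = (D + 16 * r ^ 2) * B := by rw [hB]; ring
  rw [h3]
  have h4 : 0 ≤ D * B * (θ ^ 2 * η) := by positivity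
  have h5 : 0 ≤ 16 * r ^ 2 * B * |θ| ^ 3 := by positivity
  nlinarith

open StepX in
theorem stepN (hE : Expand.{u}) (hN : NuAPI.{u}) : StepN.{u} := by
  intro r
  obtain ⟨D, hD0, hD⟩ := hE r
  refine ⟨D + 4 * r ^ 2, by positivity, fun A _ T C Φ 𝔪 θ hθ _ G hG X hX η hη hν => ?_⟩
  obtain ⟨hlin, hcomm, hle, -, hstar, -, -, -⟩ := hN A T
  have hX' := Unitary.star_mem hX
  have hG' := fun s => Unitary.star_mem (hG s)
  have hν0 : ∀ a, 0 ≤ nu T a := fun a => norm_nonneg _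
  have hle' : ∀ a, nu T a ≤ ‖a‖ := fun a => (hle a).trans (T.n2_le_norm a)
  let Γ : A × A → ℂ := fun p => ⟪piZ T (star p.2 * X), piZ T (p.1 * X)⟫_ℂ
  have hΓ : ∀ a b, ‖Γ (a, b)‖ ≤ nu T (star b * X) * nu T (a * X) := fun a b =>
    norm_inner_le_norm (𝕜 := ℂ) (piZ T (star b * X)) (piZ T (a * X))
  have hbil : Bil Γ :=
    ⟨fun b => ⟨fun a a' => by simp only [Γ, add_mul, hlin.1, inner_add_right],
      fun c a => by simp only [Γ, smul_mul_assoc, hlin.2, inner_smul_right, smul_eq_mul]⟩,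
     fun a => ⟨fun b b' => by simp only [Γ, star_add, add_mul, hlin.1, inner_add_left],
      fun c b => by
        simp only [Γ, star_smul, smul_mul_assoc, hlin.2, inner_smul_left, smul_eq_mul]
        simp⟩⟩
  have hb : ∀ a b, ‖Γ (a, b)‖ ≤ 1 * ‖a‖ * ‖b‖ := fun a b => by
    refine (hΓ a b).trans ?_
    have a1 := hle' (star b * X)
    have a2 := hle' (a * X)
    rw [CStarRing.norm_mul_mem_unitary _ hX] at a1 a2
    rw [norm_star] at a1
    rw [one_mul, mul_comm ‖a‖]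
    exact mul_le_mul a1 a2 (hν0 _) (norm_nonneg _)
  have := T.nontrivial
  have hcj : ∀ s l, nu T (cj (G s) l * X) = nu T (l * (star (G s) * X * G s)) := fun s l => by
    rw [cj, nu, nu, mul_assoc, mul_assoc, hcomm]; simp only [mul_assoc]
  have hcju : ∀ s, ∀ l ∈ unitary A, nu T (cj (G s) l * X) ≤ 1 := fun s l hl =>
    (hle' _).trans (CStarRing.norm_of_mem_unitary
      (mul_mem (mul_mem (mul_mem (hG s) hl) (hG' s)) hX)).le
  have hst : ∀ s l, star (cj (G s) l) = cj (G s) (star l) := fun s l => by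
    simp only [cj, star_mul, star_star, mul_assoc]
  have z0 : ∀ (f : unitary A × unitary A → unitary A),
      (∀ Y, 𝔪.m.L (fun ω => ((nu T ((f ω : A) * Y) ^ 2 : ℝ) : ℂ)) = 0) → ∀ s t,
      𝔪.m.L (fun ω => Γ (cj (G s) (f ω), cj (G t) (star (f ω : A)))) = 0 := fun f hf s t => by
    have := 𝔪.m.le (fun ω => Γ (cj (G s) (f ω), cj (G t) (star (f ω : A))))
      (fun ω => nu T (cj (G t) (f ω) * X) ^ 2 + nu T (cj (G s) (f ω) * X) ^ 2) 2
      (fun ω => by
        have a1 := pow_le_one₀ (n := 2) (hν0 _) (hcju t _ (f ω).2)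
        have a2 := pow_le_one₀ (n := 2) (hν0 _) (hcju s _ (f ω).2)
        linarith)
      (fun ω => by
        refine (hΓ _ _).trans ?_
        rw [hst, star_star]
        nlinarith [hν0 (cj (G t) (f ω) * X), hν0 (cj (G s) (f ω) * X),
          sq_nonneg (nu T (cj (G t) (f ω) * X) - nu T (cj (G s) (f ω) * X))])
    simp only [Complex.ofReal_add, hcj] at this
    rw [𝔪.m.add, hf, hf, add_zero, Complex.zero_re] at this
    exact norm_le_zero_iff.1 this
  have z1 := z0 (fun ω => ω.1) 𝔪.n1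
  have z2 := z0 (fun ω => star ω.1) 𝔪.n2
  simp only [Unitary.coe_star, star_star] at z2
  have n2G : ∀ s t y, T.n2 (G s * y * star (G t) * X) = T.n2 y := fun s t y => by
    rw [T.n2_mul_unitary hX, T.n2_mul_unitary (hG' t), T.n2_unitary_mul (hG s)]
  have lin : ∀ (Λ : A → ℂ) (p q : A), IsLinearMap ℂ Λ → IsLinearMap ℂ fun y => Λ (p * y * q) :=
    fun Λ p q h => ⟨fun a b => by simp only [mul_add, add_mul]; exact h.1 _ _,
      fun c a => by simp only [mul_smul_comm, smul_mul_assoc]; exact h.2 _ _⟩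
  have F1 : ∀ s t y, ‖Γ (G s * y * star (G t), 1)‖ ≤ nu T X * T.n2 y := fun s t y => by
    refine (hΓ _ _).trans ?_
    rw [star_one, one_mul, ← n2G s t y]
    gcongr
    exacts [hν0 _, hle _]
  have F2 : ∀ s t y, ‖Γ (1, G s * y * star (G t))‖ ≤ nu T X * T.n2 y := fun s t y => by
    refine (hΓ _ _).trans ?_
    rw [one_mul, mul_comm, ← T.n2_star y, ← n2G t s (star y)]
    simp only [star_mul, star_star, mul_assoc]
    gcongr
    exacts [hν0 _, hle _]
  have key := gen (hD A) 𝔪.m (fun _ => Γ) zero_le_one (fun _ => hbil) (fun _ => hb) hθ hG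
    (a := fun _ => 0) (B := 0) (B' := nu T X * η) le_rfl (mul_nonneg (hν0 _) hη)
    (fun s _ => by rw [z1, z2, add_zero]) (fun s _ t _ _ => by rw [z1, z2, add_zero, norm_zero])
    (fun s hs t ht hst => by
      have a3 : nu T X * nu T (star (G s) * G t) ≤ nu T X * η := by
        gcongr
        exacts [hν0 _, hν s hs t ht hst]
      have b1 : ∀ y, ‖Γ (G s * y * star (G t), 1)‖ ≤ nu T X * ‖y‖ := fun y =>
        (F1 s t y).trans (mul_le_mul_of_nonneg_left (T.n2_le_norm y) (hν0 _))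
      have b2 : ∀ y, ‖Γ (1, G s * y * star (G t))‖ ≤ nu T X * ‖y‖ := fun y =>
        (F2 s t y).trans (mul_le_mul_of_nonneg_left (T.n2_le_norm y) (hν0 _))
      have a1 := (𝔪.e1 (fun _ y => Γ (G s * y * star (G t), 1)) _ _ (star (G s) * G t) (hν0 X)
        (fun _ => lin _ _ _ (hbil.1 1)) (fun _ => b1) fun _ y _ => F1 s t y).trans a3
      have a2 := (𝔪.e2 (fun _ y => Γ (G s * y * star (G t), 1)) _ _ (star (G s) * G t) (hν0 X)
        (fun _ => lin _ _ _ (hbil.1 1)) (fun _ => b1) fun _ y _ => F1 s t y).trans a3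
      have a4 := (𝔪.e1 (fun _ y => Γ (1, G s * y * star (G t))) _ _ (star (G s) * G t) (hν0 X)
        (fun _ => lin _ _ _ (hbil.2 1)) (fun _ => b2) fun _ y _ => F2 s t y).trans a3
      have a5 := (𝔪.e2 (fun _ y => Γ (1, G s * y * star (G t))) _ _ (star (G s) * G t) (hν0 X)
        (fun _ => lin _ _ _ (hbil.2 1)) (fun _ => b2) fun _ y _ => F2 s t y).trans a3
      simp only [cj, mul_assoc] at a1 a2 a4 a5 ⊢
      exact ⟨a1, a2, a4, a5⟩)
  have hd : ∀ a, Γ (a, star a) = ((nu T (a * X) ^ 2 : ℝ) : ℂ) := fun a => by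
    simp only [Γ, star_star, inner_self_eq_norm_sq_to_K, nu]; norm_cast
  have h1 : Γ (1, 1) = ((nu T X ^ 2 : ℝ) : ℂ) := by simpa using hd 1
  simp only [hd, h1, 𝔪.m.const, Finset.sum_const_zero, mul_zero, add_zero, zero_add,
    mul_one] at key
  have h2 := (Complex.re_le_norm _).trans key
  rw [Complex.sub_re, show ((1 - 2 * r * θ ^ 2) * ((nu T X ^ 2 : ℝ) : ℂ) : ℂ) =
    (((1 - 2 * r * θ ^ 2) * nu T X ^ 2 : ℝ) : ℂ) by push_cast; ring, Complex.ofReal_re] at h2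
  have h3 : 0 ≤ D * (θ ^ 2 * (nu T X * η)) := by have := hν0 X; positivity
  have h4 : 0 ≤ 4 * r ^ 2 * |θ| ^ 3 := by positivity
  have h5 : 0 ≤ 2 * r * θ ^ 2 * nu T X ^ 2 := by positivity
  nlinarith

end Crest.Agent.HH
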