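import Crest.Agent.HH.Wot

/-! Normal traces from approximate traces, by a fixed point theorem for uniformly Lipschitz
actions on Hilbert space. -/

set_option autoImplicit false
open scoped ComplexConjugate InnerProductSpace BigOperators ComplexOrder
open Filter Topology

namespace Crest.Agent.HH
open Crest.Agent.GEN

universe u

namespace Trace

section lif
variable {E : Type*} [NormedAddCommGroup E] [InnerProductSpace ℂ E] {G : Type*}
  {C : Set E} {α : G → E → E}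

lemma halve (hC : Convex ℝ C) (hm : ∀ g, Set.MapsTo (α g) C C)
    (hl : ∀ g, ∀ x ∈ C, ∀ y ∈ C, ‖α g x - α g y‖ ^ 2 ≤ 17 / 16 * ‖x - y‖ ^ 2)
    (hg : ∀ g h, ∃ h', ∀ x ∈ C, α g (α h' x) = α h x) (g₀ : G) {x : E} (hx : x ∈ C) {d : ℝ}
    (hd0 : 0 < d) (hd : ∀ g, ‖α g x - x‖ ≤ d) :
    ∃ y ∈ C, ‖x - y‖ ≤ 3 * d ∧ ∀ g, ‖α g y - y‖ ≤ d / 2 := by
  let S : Set ℝ := {r | ∃ y ∈ C, ∀ g, ‖α g x - y‖ ^ 2 ≤ r}
  have h1 : d ^ 2 ∈ S := ⟨x, hx, fun g => by gcongr; exact hd g⟩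
  have h2 : BddBelow S := ⟨0, fun r ⟨y, _, hy⟩ => (sq_nonneg _).trans (hy g₀)⟩
  have h3 := csInf_le h2 h1
  obtain ⟨r, ⟨y, hy, hr⟩, hr'⟩ := exists_lt_of_csInf_lt ⟨_, h1⟩
    (lt_add_of_pos_right (sInf S) (show 0 < d ^ 2 / 50 by positivity))
  refine ⟨y, hy, ?_, fun g => ?_⟩
  · have : ‖α g₀ x - y‖ ≤ 2 * d := abs_le_of_sq_le_sq' (by nlinarith [hr g₀]) (by positivity) |>.2
    linarith [norm_sub_le_norm_sub_add_norm_sub x (α g₀ x) y, norm_sub_rev x (α g₀ x), hd g₀]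
  · have h4 : 33 / 32 * r - ‖α g y - y‖ ^ 2 / 4 ∈ S := by
      refine ⟨_, hC hy (hm g hy) (a := 1 / 2) (b := 1 / 2) (by norm_num) (by norm_num)
        (by norm_num), fun h => ?_⟩
      obtain ⟨h', e⟩ := hg g h
      have e1 := hl g _ (hm h' hx) _ hy
      rw [e x hx] at e1
      have e2 := parallelogram_law_with_norm ℂ (α h x - y) (α h x - α g y)
      have e3 : α h x - y + (α h x - α g y) =
          (2 : ℝ) • (α h x - ((1 / 2 : ℝ) • y + (1 / 2 : ℝ) • α g y)) := by module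
      rw [e3, norm_smul, sub_sub_sub_cancel_left, Real.norm_ofNat] at e2
      nlinarith [hr h, hr h']
    have h5 := csInf_le h2 h4
    exact abs_le_of_sq_le_sq' (by nlinarith) (by positivity) |>.2

theorem lif [CompleteSpace E] (hC : Convex ℝ C) (hc : IsClosed C) (hm : ∀ g, Set.MapsTo (α g) C C)
    (hl : ∀ g, ∀ x ∈ C, ∀ y ∈ C, ‖α g x - α g y‖ ^ 2 ≤ 17 / 16 * ‖x - y‖ ^ 2)
    (hg : ∀ g h, ∃ h', ∀ x ∈ C, α g (α h' x) = α h x) (g₀ : G) {x : E} (hx : x ∈ C) {d : ℝ}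
    (hd0 : 0 < d) (hd : ∀ g, ‖α g x - x‖ ≤ d) : ∃ y ∈ C, ∀ g, α g y = y := by
  let P : ℕ → Type _ := fun n => {y : E // y ∈ C ∧ ∀ g, ‖α g y - y‖ ≤ d / 2 ^ n}
  have st : ∀ n (y : P n), ∃ z : P (n + 1), dist y.1 z.1 ≤ 3 * d * (1 / 2) ^ n := fun n y => by
    obtain ⟨z, h1, h2, h3⟩ := halve hC hm hl hg g₀ y.2.1 (by positivity) y.2.2
    exact ⟨⟨z, h1, fun g => by rw [pow_succ, ← div_div]; exact h3 g⟩, by
      rw [dist_eq_norm, one_div, inv_pow, mul_assoc]; exact h2⟩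
  choose F hF using st
  let f : ∀ n, P n := fun n => Nat.rec ⟨x, hx, by simpa using hd⟩ F n
  obtain ⟨y, hy⟩ := cauchySeq_tendsto_of_complete (cauchySeq_of_le_geometric (1 / 2) (3 * d)
    (by norm_num) (f := fun n => (f n).1) fun n => hF n (f n))
  have hyC := hc.mem_of_tendsto hy (.of_forall fun n => (f n).2.1)
  refine ⟨y, hyC, fun g => ?_⟩
  have h0 := tendsto_iff_norm_sub_tendsto_zero.1 hy
  have h1 : Tendsto (fun n : ℕ => 3 * ‖(f n).1 - y‖ + d * (1 / 2) ^ n) atTop (𝓝 (3 * 0 + d * 0)) :=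
    (h0.const_mul 3).add ((tendsto_pow_atTop_nhds_zero_of_lt_one (by norm_num)
      (by norm_num)).const_mul d)
  rw [← sub_eq_zero, ← norm_le_zero_iff]
  refine le_of_tendsto_of_tendsto' tendsto_const_nhds (by simpa using h1) fun n => ?_
  have e1 : ‖α g (f n).1 - α g y‖ ≤ 2 * ‖(f n).1 - y‖ := abs_le_of_sq_le_sq'
    (by nlinarith [hl g _ (f n).2.1 _ hyC, sq_nonneg ‖(f n).1 - y‖]) (by positivity) |>.2
  have e2 := ((f n).2.2 g).trans_eq (div_eq_mul_inv _ _)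
  linarith [norm_sub_le_norm_sub_add_norm_sub (α g y) (α g (f n).1) y,
    norm_sub_le_norm_sub_add_norm_sub (α g (f n).1) (f n).1 y, norm_sub_rev (α g y) (α g (f n).1)]

end lif

section riesz
variable {E : Type*} [NormedAddCommGroup E] [InnerProductSpace ℂ E] {X : Type*} [AddCommGroup X]
  [Module ℂ X] (J : X →ₗ[ℂ] E)

lemma norm_le_of_range {η : E} (hη : η ∈ J.range.topologicalClosure) {B : ℝ} (hB : 0 ≤ B)
    (h : ∀ x, ‖⟪η, J x⟫_ℂ‖ ≤ B * ‖J x‖) : ‖η‖ ≤ B := by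
  have : ‖⟪η, η⟫_ℂ‖ ≤ B * ‖η‖ := by
    refine closure_minimal (t := {v | ‖⟪η, v⟫_ℂ‖ ≤ B * ‖v‖}) ?_
      (isClosed_le (by fun_prop) (by fun_prop)) hη
    rintro _ ⟨x, rfl⟩; exact h x
  rw [inner_self_eq_norm_sq_to_K, norm_pow, RCLike.norm_ofReal, abs_norm, sq] at this
  rcases (norm_nonneg η).eq_or_lt with h0 | h0
  · rwa [← h0]
  · exact le_of_mul_le_mul_right this h0

lemma riesz [CompleteSpace E] (f : X →ₗ[ℂ] ℂ) {B : ℝ} (h : ∀ x, ‖f x‖ ≤ B * ‖J x‖) :
    ∃ η ∈ J.range.topologicalClosure, ∀ x, ⟪η, J x⟫_ℂ = f x := by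
  let g : J.range →ₗ[ℂ] ℂ := ((LinearMap.ker J).liftQ f fun x hx => by
    simpa [LinearMap.mem_ker.1 hx] using h x) ∘ₗ J.quotKerEquivRange.symm.toLinearMap
  have hg : ∀ x, g ⟨J x, x, rfl⟩ = f x := fun x => by
    simp only [g, LinearMap.comp_apply, LinearEquiv.coe_coe]
    rw [J.quotKerEquivRange_symm_apply_image x ⟨x, rfl⟩]; rfl
  obtain ⟨g', h1, -⟩ := exists_extension_norm_eq J.range (g.mkContinuous B (by
    rintro ⟨_, x, rfl⟩; rw [hg]; exact h x))
  refine ⟨J.range.topologicalClosure.starProjection ((InnerProductSpace.toDual ℂ E).symm g'),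
    Submodule.starProjection_apply_mem _ _, fun x => ?_⟩
  rw [Submodule.inner_starProjection_left_eq_right, Submodule.starProjection_eq_self_iff.2
    (J.range.le_topologicalClosure (J.mem_range_self x)), InnerProductSpace.toDual_symm_apply,
    h1 ⟨J x, x, rfl⟩, LinearMap.mkContinuous_apply, hg]

end riesz

end Trace

open Trace in
theorem traceThm (hA : AppTr.{u}) : TraceThm.{u} := by
  intro H _ _ _ M c₀ h1 h2 h3
  obtain ⟨c, r, ξ, k1, k2, k3, k4, k5, k6⟩ := hA H M c₀ h1 h2 h3 (1 / 50) (by norm_num)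
  let J : Al M →ₗ[ℂ] PiLp 2 fun _ : Fin r => H :=
    { toFun := fun x => WithLp.toLp 2 fun i => ap x (ξ i)
      map_add' := fun _ _ => rfl
      map_smul' := fun _ _ => rfl }
  have hJ : ∀ x, ‖J x‖ ^ 2 = ∑ i, ‖ap x (ξ i)‖ ^ 2 := fun x => PiLp.norm_sq_eq_of_L2 _ _
  have hI : ∀ η x, ⟪η, J x⟫_ℂ = ∑ i, ⟪η i, ap x (ξ i)⟫_ℂ := fun η x => PiLp.inner_apply _ _
  have hJ2 : ∀ x y, ⟪J x, J y⟫_ℂ = ⟪J 1, J (star x * y)⟫_ℂ := fun x y => by
    simp only [hI]
    exact Finset.sum_congr rfl fun i _ => inner_ap_left x _ _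
  have hu : ∀ (u : unitary (Al M)) x, ‖J (u * x)‖ ^ 2 = ‖J x‖ ^ 2 := fun u x => by
    rw [← @inner_self_eq_norm_sq ℂ, ← @inner_self_eq_norm_sq ℂ, hJ2, hJ2 x, star_mul, mul_assoc,
      ← mul_assoc (star (u : Al M)), Unitary.star_mul_self_of_mem u.2, one_mul]
  have k7 : ∀ x, ‖J x‖ ^ 2 ≤ (1 + 1 / 50) * ‖J (star x)‖ ^ 2 := fun x => by
    simpa only [hJ] using k5 x
  have k8 : ∀ (u : unitary (Al M)) x, ‖J (x * u)‖ ^ 2 ≤ 17 / 16 * ‖J x‖ ^ 2 := fun u x => by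
    have e1 := k7 (x * u)
    rw [star_mul, ← Unitary.coe_star, hu] at e1
    have e2 := k7 (star x)
    rw [star_star] at e2
    nlinarith [sq_nonneg ‖J x‖]
  have k9 : ∀ (u : unitary (Al M)) η x, ‖⟪η, J (u * x * star u)⟫_ℂ‖ ≤ √(17 / 16) * ‖η‖ * ‖J x‖ :=
    fun u η x => by
      have e1 := k8 (star u) (u * x)
      rw [hu] at e1
      have e2 := Real.le_sqrt_of_sq_le e1
      rw [Real.sqrt_mul (by norm_num), Real.sqrt_sq (norm_nonneg _)] at e2
      refine (norm_inner_le_norm _ _).trans ?_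
      rw [mul_comm √_ ‖η‖, mul_assoc ‖η‖]; gcongr
  choose α a1 a2 using fun (u : unitary (Al M)) η => riesz J (((innerSL ℂ η).toLinearMap ∘ₗ J) ∘ₗ
    LinearMap.mulRight ℂ (star u : Al M) ∘ₗ LinearMap.mulLeft ℂ (u : Al M)) (k9 u η)
  replace a2 : ∀ u η x, ⟪α u η, J x⟫_ℂ = ⟪η, J (u * x * star u)⟫_ℂ := a2
  let C : Set (PiLp 2 fun _ : Fin r => H) := {η | η ∈ J.range.topologicalClosure ∧
    ⟪η, J 1⟫_ℂ = 1 ∧ (∀ x, ⟪η, J (star x)⟫_ℂ = conj ⟪η, J x⟫_ℂ) ∧
    ∀ x (t : ℝ), (∀ u : unitary (Al M), t ≤ ‖J (x * u)‖ ^ 2) → t ≤ (⟪η, J (star x * x)⟫_ℂ).re}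
  have hC : Convex ℝ C := by
    rintro η ⟨e1, e2, e3, e4⟩ η' ⟨f1, f2, f3, f4⟩ a b ha hb hab
    have hi : ∀ v, ⟪a • η + b • η', v⟫_ℂ = a * ⟪η, v⟫_ℂ + b * ⟪η', v⟫_ℂ := fun v => by
      rw [inner_add_left, ← Complex.coe_smul, ← Complex.coe_smul, inner_smul_left,
        inner_smul_left, Complex.conj_ofReal, Complex.conj_ofReal]
    refine ⟨add_mem (Submodule.smul_of_tower_mem _ _ e1) (Submodule.smul_of_tower_mem _ _ f1), ?_,
      fun x => ?_, fun x t ht => ?_⟩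
    · rw [hi, e2, f2, mul_one, mul_one, ← Complex.ofReal_add, hab, Complex.ofReal_one]
    · simp [hi, e3, f3]
    · rw [hi, Complex.add_re, Complex.re_ofReal_mul, Complex.re_ofReal_mul]
      linarith [mul_le_mul_of_nonneg_left (e4 x t ht) ha, mul_le_mul_of_nonneg_left (f4 x t ht) hb,
        show t = a * t + b * t by rw [← add_mul, hab, one_mul]]
  have hc : IsClosed C := by
    simp only [C, Set.ofPred_and, Set.ofPred_forall]
    exact (Submodule.isClosed_topologicalClosure _).inter <|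
      (isClosed_eq (by fun_prop) (by fun_prop)).inter <| (isClosed_iInter fun x =>
      isClosed_eq (by fun_prop) (by fun_prop)).inter <| isClosed_iInter fun x => isClosed_iInter
      fun t => isClosed_iInter fun _ => isClosed_le (by fun_prop) (by fun_prop)
  have hn : ‖J 1‖ = 1 := by
    have : ‖J 1‖ ^ 2 = 1 := by rw [hJ]; exact k4
    nlinarith [norm_nonneg (J 1)]
  have h1C : J 1 ∈ C := by
    refine ⟨J.range.le_topologicalClosure (J.mem_range_self 1), by simp [hn], fun x => ?_, fun x t ht => ?_⟩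
    · rw [inner_conj_symm, hJ2 x, mul_one]
    · rw [← hJ2]; simpa [← Complex.ofReal_pow] using ht 1
  have hl : ∀ u η η', ‖α u η - α u η'‖ ≤ √(17 / 16) * ‖η - η'‖ := fun u η η' =>
    norm_le_of_range J (sub_mem (a1 _ _) (a1 _ _)) (by positivity) fun x => by
      rw [inner_sub_left, a2, a2, ← inner_sub_left]; exact k9 u _ x
  have hm : ∀ u, Set.MapsTo (α u) C C := fun u η ⟨e1, e2, e3, e4⟩ => by
    refine ⟨a1 _ _, by simp [a2, e2], fun x => ?_, fun x t ht => ?_⟩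
    · rw [a2, a2, ← e3]; simp [mul_assoc]
    · have := e4 (x * star u) t fun v => by simpa [mul_assoc] using ht (star u * v)
      rw [a2]; simpa [mul_assoc] using this
  obtain ⟨η, ⟨-, e2, e3, e4⟩, e5⟩ := lif (α := α) hC hc hm (fun u η _ η' _ => by
      rw [← Real.sq_sqrt (show (0 : ℝ) ≤ 17 / 16 by norm_num), ← mul_pow]
      gcongr; exact hl u η η')
    (fun g h => ⟨h * star g, fun η _ => by
      rw [← sub_eq_zero, ← norm_le_zero_iff]
      refine norm_le_of_range J (sub_mem (a1 _ _) (a1 _ _)) le_rfl fun x => ?_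
      rw [inner_sub_left, a2, a2, a2]
      simp [mul_assoc, ← mul_assoc (star (g : Al M))]⟩) 1 h1C
    (d := √(17 / 16) * ‖J 1‖ + ‖J 1‖) (by rw [hn]; positivity) fun u => (norm_sub_le _ _).trans
      (add_le_add_left (norm_le_of_range J (a1 _ _) (by positivity) fun x => by
        rw [a2]; exact k9 u _ x) _)
  have hb : ∀ x, ‖J x‖ ≤ 1 * ‖x‖ := fun x => abs_le_of_sq_le_sq' (by
    rw [hJ, mul_pow, one_pow, ← k4, Finset.sum_mul]
    refine Finset.sum_le_sum fun i _ => ?_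
    rw [← mul_pow, mul_comm]; gcongr; exact ap_le _ _) (by positivity) |>.2
  let τ : Al M →L[ℂ] ℂ := innerSL ℂ η ∘L J.mkContinuous 1 hb
  have hτ : ∀ x, τ x = ⟪η, J x⟫_ℂ := fun x => rfl
  let T : Tr (Al M) :=
    { τ := τ
      map_one := e2
      comm := fun a b => by
        have ha : a ∈ Submodule.span ℂ (unitary (Al M) : Set (Al M)) := by
          rw [CStarAlgebra.span_unitary]; trivial
        induction ha using Submodule.span_induction with
        | mem u hu =>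
          have := a2 ⟨u, hu⟩ η (b * u)
          rw [e5] at this
          simp [hτ, this, mul_assoc, Unitary.mul_star_self_of_mem hu]
        | zero => simp
        | add x y _ _ hx hy => simp [add_mul, mul_add, hx, hy]
        | smul t x _ hx => simp [hx]
      nonneg := fun a => Complex.nonneg_iff.2 ⟨e4 a 0 fun u => sq_nonneg _, by
        have := e3 (star a * a)
        rw [star_mul, star_star] at this
        exact (Complex.conj_eq_iff_im.1 this.symm).symm⟩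
      map_star := e3 }
  refine ⟨c, T, r, η.ofLp, ξ, k1, k2, ?_, fun x => hI η x, fun x hx => k6 x fun i => ?_⟩
  · rw [← e2]; change ⟪η, J c⟫_ℂ = _; simp [hI, k3]
  · have f1 := e4 x (16 / 17 * ‖J x‖ ^ 2) fun u => by
      have := k8 (star u) (x * u)
      rw [Unitary.coe_star, mul_assoc, Unitary.mul_star_self_of_mem u.2, mul_one] at this
      linarith
    have f2 := T.n2_sq x
    rw [hx] at f2
    change _ = (⟪η, J (star x * x)⟫_ℂ).re at f2
    have f3 : J x = 0 := by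
      rw [← norm_eq_zero, ← sq_eq_zero_iff]; nlinarith [sq_nonneg ‖J x‖]
    exact congrArg (fun v : PiLp 2 fun _ : Fin r => H => v i) f3

end Crest.Agent.HH
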