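import Crest.Agent.HH.ListThm

/-! Translation between multilinear maps and cochains on lists. -/

set_option autoImplicit false
open scoped BigOperators

namespace Crest.Agent.HH
open Crest.OpAlg LTm

universe u
variable {A : Type u} [CStarAlgebra A]

lemma del_ofFn (k : ℕ) : ∀ (φ : List A → A) (a : Fin (k + 1) → A), del φ (List.ofFn a) =
    ∑ j : Fin k, ((-1 : ℤ) ^ (j.val + 1)) • φ (List.ofFn (mergeArgs j a)) +
      ((-1 : ℤ) ^ (k + 1)) • (φ (List.ofFn fun i : Fin k => a i.castSucc) * a (Fin.last k)) := by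
  induction k with
  | zero => intro φ a; simp [del]
  | succ k ih =>
    intro φ a
    have h := ih (fun l => φ (a 0 :: l)) fun i => a i.succ
    have e0 : List.ofFn (mergeArgs 0 a) = a 0 * a 1 :: List.ofFn fun i => a (Fin.succ i).succ := by
      simp [List.ofFn_succ, mergeArgs]
    have e1 : ∀ j : Fin k, List.ofFn (mergeArgs j.succ a) =
        a 0 :: List.ofFn (mergeArgs j fun i => a i.succ) := fun j => by
      rw [List.ofFn_succ]; simp [mergeArgs]; ext; simp [mergeArgs]
    rw [List.ofFn_succ] at h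
    rw [List.ofFn_succ, List.ofFn_succ, del, h, Fin.sum_univ_succ, e0, List.ofFn_succ]
    simp only [e1]
    simp [pow_succ, sub_eq_add_neg]; abel

lemma dd_ofFn (k : ℕ) (φ : List A → A) (a : Fin (k + 1) → A) :
    dd φ (List.ofFn a) = hochschildDiff (fun b : Fin k → A => φ (List.ofFn b)) a := by
  rw [dd, del_ofFn, hochschildDiff, add_assoc, List.ofFn_succ, lam]

lemma lin_iff (n : ℕ) : ∀ φ : List A → A, Lin n φ ↔ ∀ (b : Fin n → A) (i : Fin n),
    IsLinearMap ℂ fun x => φ (List.ofFn (Function.update b i x)) := by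
  induction n with
  | zero => exact fun φ => ⟨fun _ _ i => i.elim0, fun _ p q e => by omega⟩
  | succ n ih =>
    intro φ
    simp only [lin_succ, ih, Fin.forall_fin_succ_pi, Fin.forall_fin_succ, Fin.update_cons_zero,
      ← Fin.cons_update, List.ofFn_cons, forall_and]
    refine and_congr ⟨fun h _ b => h _ (by simp), fun h l hl => ?_⟩ Iff.rfl
    subst hl
    simpa using h 0 l.get

theorem transl {n : ℕ} (h : ∀ (φ : List A → A) (C : ℝ), 0 ≤ C →
    Lin (n + 1) φ → Bd (n + 1) C φ → Coc (n + 1) φ → Cob n φ)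
    (f : ContinuousMultilinearMap ℂ (fun _ : Fin (n + 1) => A) A)
    (hf : ∀ a : Fin (n + 2) → A, hochschildDiff f a = 0) :
    ∃ g : ContinuousMultilinearMap ℂ (fun _ : Fin n => A) A,
      ∀ a : Fin (n + 1) → A, hochschildDiff g a = f a := by
  let φ : List A → A := fun l => f fun i => l.getD i 0
  have hφ : ∀ b : Fin (n + 1) → A, φ (List.ofFn b) = f b := fun b => by
    simp [φ, -List.ofFn_succ, Fin.is_le]
  have hnp : ∀ {k} (b : Fin k → A), np (List.ofFn b) = ∏ i, ‖b i‖ := fun b => by
    simp [np, List.prod_ofFn]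
  have hl : ∀ {k} (l : List A), l.length = k → ∃ b : Fin k → A, l = List.ofFn b := by
    rintro _ l rfl; exact ⟨l.get, by simp⟩
  obtain ⟨g, C, g1, g2, g3⟩ := h φ ‖f‖ (norm_nonneg _) ((lin_iff _ _).2 fun b i => by
    simp only [hφ]; exact ⟨f.map_update_add b i, fun c x => f.map_update_smul b i c x⟩)
    (fun l e => by obtain ⟨b, rfl⟩ := hl l e; rw [hφ, hnp]; exact f.le_opNorm b)
    fun l e => by obtain ⟨b, rfl⟩ := hl l e; simp only [dd_ofFn, hφ]; exact hf b
  rw [lin_iff] at g1
  refine ⟨MultilinearMap.mkContinuous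
    { toFun := fun b => g (List.ofFn b)
      map_update_add' := fun b i x y => by convert (g1 b i).1 x y
      map_update_smul' := fun b i c x => by convert (g1 b i).2 c x } C
    fun b => hnp b ▸ g2 _ (by simp), fun a => ?_⟩
  rw [← hφ, ← g3 _ (by simp), dd_ofFn]; rfl

end Crest.Agent.HH
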