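import Crest.Agent.HH.Wot
import Crest.Agent.GEN.G125

/-! Basic von Neumann algebra theory: projections, polar decomposition, partial isometries. -/

set_option autoImplicit false
open scoped ComplexConjugate InnerProductSpace BigOperators
open Filter Topology

namespace Crest.Agent.HH
open Crest.Agent.GEN

universe u v

namespace V0

section alg
variable {A : Type u} [CStarAlgebra A]

lemma pstar {v : A} (h : PI v) : PI (star v) := by
  have := congrArg star h
  simpa only [PI, star_mul, star_star, mul_assoc] using this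

lemma proj {v : A} (h : PI v) : IsStarProjection (star v * v) :=
  ⟨by rw [IsIdempotentElem, mul_assoc, ← mul_assoc v, h], IsSelfAdjoint.star_mul_self v⟩

lemma proj' {v : A} (h : PI v) : IsStarProjection (v * star v) := by
  simpa only [star_star] using proj (pstar h)

lemma of_proj {v : A} (h : IsStarProjection (star v * v)) : PI v := by
  have h1 := h.isIdempotentElem.eq
  rw [PI, ← sub_eq_zero, ← CStarRing.star_mul_self_eq_zero_iff]
  simp only [star_sub, star_mul, star_star, sub_mul, mul_sub, mul_assoc] at h1 ⊢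
  rw [h1, h1, _root_.sub_self]

lemma pmul {v : A} (h : PI v) : v * (star v * v) = v := by rw [← mul_assoc, h]

/-- The extension order on partial isometries, for initial projections. -/
lemma le_init {v w : A} (hv : PI v) (hw : PI w) (h : w * (star v * v) = v) :
    star w * w * (star v * v) = star v * v := by
  have hp := proj hv
  have hq := proj hw
  set p := star v * v with hp'
  set q := star w * w with hq'
  have h1 : p * q * p = p := by
    calc p * q * p = star (w * p) * (w * p) := by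
          rw [star_mul, hp.isSelfAdjoint.star_eq, hq']; simp only [mul_assoc]
      _ = p := by rw [h]
  have h2 : star ((1 - q) * p) * ((1 - q) * p) = 0 := by
    rw [star_mul, hp.isSelfAdjoint.star_eq, hq.one_sub.isSelfAdjoint.star_eq, mul_assoc,
      ← mul_assoc (1 - q), hq.one_sub.isIdempotentElem.eq, sub_mul, one_mul, mul_sub,
      hp.isIdempotentElem.eq, ← mul_assoc, h1, _root_.sub_self]
  rw [CStarRing.star_mul_self_eq_zero_iff, sub_mul, one_mul, sub_eq_zero] at h2
  exact h2.symm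

lemma le_init' {v w : A} (hv : PI v) (hw : PI w) (h : w * (star v * v) = v) :
    star v * v * (star w * w) = star v * v := by
  have := congrArg star (le_init hv hw h)
  simpa only [star_mul, star_star, mul_assoc] using this

lemma le_cross {v w : A} (hv : PI v) (hw : PI w) (h : w * (star v * v) = v) :
    star v * w = star v * v := by
  have h1 := congrArg star h
  rw [star_mul, (proj hv).isSelfAdjoint.star_eq] at h1
  rw [← h1, mul_assoc, le_init' hv hw h, h1]

lemma le_star {v w : A} (hv : PI v) (hw : PI w) (h : w * (star v * v) = v) :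
    star w * (star (star v) * star v) = star v := by
  have := congrArg star (le_cross hv hw h)
  rw [star_mul, star_star, (proj hv).isSelfAdjoint.star_eq] at this
  rw [star_star, ← mul_assoc, this]
  simpa only [PI, star_star] using pstar hv

lemma le_trans' {a b c : A} (ha : PI a) (hb : PI b) (h1 : b * (star a * a) = a)
    (h2 : c * (star b * b) = b) : c * (star a * a) = a := by
  rw [← le_init ha hb h1, ← mul_assoc, h2, h1]

lemma le_antisymm' {a b : A} (ha : PI a) (hb : PI b) (h1 : b * (star a * a) = a)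
    (h2 : a * (star b * b) = b) : b = a := by
  calc b = b * (star b * b) := (pmul hb).symm
    _ = b * (star b * b * (star a * a)) := by rw [le_init' hb ha h2]
    _ = a := by rw [← mul_assoc, pmul hb, h1]

lemma exists_abs (x : A) : ∃ g : A, star g = g ∧ g * g * (g * g) = star x * x ∧
    ∀ ε : ℝ, 0 < ε → IsUnit (g * g + (ε : ℂ) • (1 : A)) := by
  let _ := CStarAlgebra.spectralOrder A
  have := CStarAlgebra.spectralOrderedRing A
  have h0 : 0 ≤ CFC.abs x := CFC.abs_nonneg x
  have h1 : CFC.sqrt (CFC.abs x) * CFC.sqrt (CFC.abs x) = CFC.abs x := CFC.sqrt_mul_sqrt_self _ h0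
  refine ⟨CFC.sqrt (CFC.abs x), (CFC.sqrt_nonneg _).isSelfAdjoint.star_eq,
    by rw [h1, CFC.abs_mul_abs], fun ε hε => ?_⟩
  have h2 : -ε ∉ spectrum ℝ (CFC.abs x) := fun h => by
    have := spectrum_nonneg_of_nonneg h0 h
    linarith
  rw [spectrum.notMem_iff, ← IsUnit.neg_iff] at h2
  rw [h1]
  convert h2 using 1
  rw [Algebra.algebraMap_eq_smul_one, Complex.coe_smul, neg_smul]; abel

end alg

variable {H : Type u} [NormedAddCommGroup H] [InnerProductSpace ℂ H] [CompleteSpace H]
variable {M : VonNeumannAlgebra H}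

lemma proj_of_inv (S : Set H) (hS : ∀ y ∈ M.commutant, ∀ ξ ∈ S, y ξ ∈ S) :
    ∃ e : Al M, IsStarProjection e ∧ (∀ ξ ∈ S, ap e ξ = ξ) ∧
      ∀ y : Al M, (∀ ξ ∈ S, ap y ξ = 0) → y * e = 0 := by
  let U := (Submodule.span ℂ S).topologicalClosure
  have : CompleteSpace U := (Submodule.isClosed_topologicalClosure _).completeSpace_coe
  have hinv : ∀ y ∈ M.commutant, ∀ v ∈ U, y v ∈ U := fun y hy v hv => by
    refine map_mem_closure y.continuous hv fun w hw => ?_
    exact (Submodule.span_le (p := (Submodule.span ℂ S).comap (y : H →ₗ[ℂ] H))).2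
      (fun ξ hξ => Submodule.subset_span (hS y hy ξ hξ)) hw
  have hm : U.starProjection ∈ M := by
    rw [vn_mem_iff]
    intro y hy
    ext w
    exact proj_comm U y (star y) (fun v w => by
      rw [ContinuousLinearMap.star_eq_adjoint, ContinuousLinearMap.adjoint_inner_left])
      (hinv y hy) (hinv _ (star_mem hy)) w
  refine ⟨⟨_, hm⟩, ⟨Subtype.ext isStarProjection_starProjection.isIdempotentElem.eq,
    Subtype.ext isStarProjection_starProjection.isSelfAdjoint.star_eq⟩, fun ξ hξ => ?_,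
    fun y hy => ap_ext fun ξ => ?_⟩
  · exact Submodule.starProjection_eq_self_iff.2
      (Submodule.le_topologicalClosure _ (Submodule.subset_span hξ))
  · have : U ≤ LinearMap.ker ((y : H →L[ℂ] H) : H →ₗ[ℂ] H) :=
      Submodule.topologicalClosure_minimal _ (Submodule.span_le.2 hy)
        (ContinuousLinearMap.isClosed_ker _)
    exact this (U.starProjection_apply_mem ξ)

lemma comm_ap (a : Al M) {y : H →L[ℂ] H} (hy : y ∈ M.commutant) (ξ : H) :
    y (ap a ξ) = ap a (y ξ) :=
  congrArg (fun T : H →L[ℂ] H => T ξ) ((vn_mem_iff M _).1 a.2 y hy)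

lemma nsq (x : Al M) (ξ : H) : ‖ap x ξ‖ ^ 2 = (⟪ξ, ap (star x * x) ξ⟫_ℂ).re := by
  rw [ap_mul, ← inner_ap_left, inner_self_eq_norm_sq_to_K]; norm_cast

lemma strong {I : Type v} [Preorder I] {𝓕 : Filter I} [𝓕.NeBot] (h𝓕 : 𝓕 ≤ atTop) {w : I → Al M}
    (hw : ∀ i, PI (w i)) (hm : ∀ i j, i ≤ j → w j * (star (w i) * w i) = w i) {v : Al M}
    (hv : WL 𝓕 w v) : SL atTop w v := fun ξ => by
  have hd : ∀ i j, i ≤ j → ‖ap (w j) ξ - ap (w i) ξ‖ ^ 2 = ‖ap (w j) ξ‖ ^ 2 - ‖ap (w i) ξ‖ ^ 2 :=
    fun i j hij => by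
      have h1 := le_cross (hw i) (hw j) (hm i j hij)
      have h2 : star (w j) * w i = star (w i) * w i := by
        have := congrArg star h1
        simpa only [star_mul, star_star] using this
      rw [← ap_sub, nsq, nsq, nsq, star_sub, sub_mul, mul_sub, mul_sub, h1, h2, _root_.sub_self,
        sub_zero, ap_sub, inner_sub_right, Complex.sub_re]
  have hmono : Monotone fun i => ‖ap (w i) ξ‖ ^ 2 := fun i j hij => by
    have := hd i j hij
    nlinarith [sq_nonneg ‖ap (w j) ξ - ap (w i) ξ‖]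
  have hbdd : BddAbove (Set.range fun i => ‖ap (w i) ξ‖ ^ 2) := ⟨‖ξ‖ ^ 2, by
    rintro _ ⟨i, rfl⟩
    exact pow_le_pow_left₀ (norm_nonneg _)
      ((ap_le _ _).trans (mul_le_of_le_one_left (norm_nonneg _) (hw i).norm_le)) 2⟩
  set s := ⨆ i, ‖ap (w i) ξ‖ ^ 2
  have hlim := tendsto_atTop_ciSup hmono hbdd
  have key : ∀ i, ‖ap (w i) ξ - ap v ξ‖ ≤ √(s - ‖ap (w i) ξ‖ ^ 2) := fun i => by
    set η := ap v ξ - ap (w i) ξ with hη
    have h1 : Tendsto (fun j => ‖⟪η, ap (w j) ξ - ap (w i) ξ⟫_ℂ‖) 𝓕 (𝓝 ‖⟪η, η⟫_ℂ‖) := by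
      simpa only [hη, inner_sub_right] using ((hv η ξ).sub_const ⟪η, ap (w i) ξ⟫_ℂ).norm
    have h2 := le_of_tendsto h1 (b := ‖η‖ * √(s - ‖ap (w i) ξ‖ ^ 2))
      (((eventually_ge_atTop i).filter_mono h𝓕).mono fun j hj => (norm_inner_le_norm _ _).trans (by
        gcongr
        refine Real.le_sqrt_of_sq_le ?_
        rw [hd i j hj]
        linarith [le_ciSup hbdd j]))
    rw [inner_self_eq_norm_sq_to_K, norm_pow, RCLike.norm_ofReal, abs_norm, sq] at h2
    rw [norm_sub_rev]
    rcases (norm_nonneg η).eq_or_lt with h0 | h0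
    · rw [← hη, ← h0]; positivity
    · exact le_of_mul_le_mul_left h2 h0
  rw [tendsto_iff_norm_sub_tendsto_zero]
  refine squeeze_zero (fun _ => norm_nonneg _) key ?_
  have := (hlim.const_sub s).sqrt
  rwa [_root_.sub_self, Real.sqrt_zero] at this

lemma monoLim' {I : Type v} [Preorder I] [IsDirectedOrder I] [Nonempty I] (w : I → Al M)
    (hw : ∀ i, PI (w i)) (hm : ∀ i j, i ≤ j → w j * (star (w i) * w i) = w i) :
    ∃ v : Al M, PI v ∧ SL atTop w v ∧ SL atTop (fun i => star (w i)) (star v) ∧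
      ∀ i, v * (star (w i) * w i) = w i := by
  obtain ⟨v, -, hv⟩ := wotLim (Ultrafilter.of (atTop : Filter I)) w 1
    (Eventually.of_forall fun i => (hw i).norm_le)
  have h1 := strong (Ultrafilter.of_le _) hw hm hv
  have h2 := strong (Ultrafilter.of_le _) (fun i => pstar (hw i))
    (fun i j hij => le_star (hw i) (hw j) (hm i j hij)) hv.star
  refine ⟨v, ?_, h1, h2, fun i => ?_⟩
  · refine SL.eq_of_eventually ((h1.mul h2 (Eventually.of_forall fun i => (hw i).norm_le)).mul h1
      (B := 1) (Eventually.of_forall fun i => (proj' (hw i)).norm_le)) h1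
      (Eventually.of_forall fun i => hw i)
  · exact (h1.wl.mul_right _).eq_of_eventually (WL.const _ _)
      ((eventually_ge_atTop i).mono fun j hj => hm i j hj)

lemma monoLimR {I : Type v} [Nonempty I] (r : I → I → Prop) (h1 : ∀ a, r a a)
    (h2 : ∀ a b c, r a b → r b c → r a c) (h3 : ∀ a b, ∃ c, r a c ∧ r b c) :
    ∃ 𝓕 : Filter I, 𝓕.NeBot ∧ ∀ (w : I → Al M), (∀ i, PI (w i)) →
      (∀ i j, r i j → w j * (star (w i) * w i) = w i) →
      ∃ v : Al M, PI v ∧ SL 𝓕 w v ∧ SL 𝓕 (fun i => star (w i)) (star v) ∧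
        ∀ i, v * (star (w i) * w i) = w i := by
  let _ : Preorder I := { le := r, le_refl := h1, le_trans := h2 }
  have : IsDirectedOrder I := ⟨h3⟩
  exact ⟨atTop, inferInstance, fun w hw hm => monoLim' w hw hm⟩

end V0

open V0

theorem rPj : RPj.{u} := fun H _ _ _ M x => by
  obtain ⟨e, he, h1, h2⟩ := proj_of_inv (M := M) (Set.range (ap x)) (by
    rintro y hy _ ⟨ξ, rfl⟩
    exact ⟨y ξ, (comm_ap x hy ξ).symm⟩)
  refine ⟨e, he, ap_ext fun ξ => h1 _ ⟨ξ, rfl⟩, fun y hy => h2 y ?_⟩
  rintro _ ⟨ξ, rfl⟩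
  rw [← ap_mul, hy, ap_zero]

theorem cSupp : CSupp.{u} := fun H _ _ _ M x => by
  obtain ⟨e, he, h1, h2⟩ := proj_of_inv (M := M) {η | ∃ (m : Al M) (ξ : H), η = ap (m * x) ξ} (by
    rintro y hy _ ⟨m, ξ, rfl⟩
    exact ⟨m, y ξ, comm_ap _ hy ξ⟩)
  have h3 : ∀ y : Al M, (∀ m, y * m * x = 0) → y * e = 0 := fun y hy => h2 y (by
    rintro _ ⟨m, ξ, rfl⟩
    rw [← ap_mul, ← mul_assoc, hy, ap_zero])
  have h4 : ∀ m : Al M, e * (m * x) = m * x := fun m => ap_ext fun ξ => h1 _ ⟨m, ξ, rfl⟩
  have h5 : ∀ a : Al M, a * e = e * a * e := fun a => by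
    have := h3 ((1 - e) * a) fun m => by
      rw [mul_assoc, mul_assoc, ← mul_assoc a, sub_mul, one_mul, h4, _root_.sub_self]
    rwa [sub_mul, one_mul, sub_mul, sub_eq_zero] at this
  refine ⟨e, ⟨he, fun a => ?_⟩, by simpa using h4 1, h3⟩
  have := congrArg star (h5 (star a))
  simp only [star_mul, star_star, he.isSelfAdjoint.star_eq] at this
  rw [this, ← mul_assoc, ← h5 a]

theorem specP : SpecP.{u} := fun H _ _ _ M h t hh => by
  set k : H →L[ℂ] H := (h : H →L[ℂ] H) - (t : ℂ) • 1 with hk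
  have hh' : star (h : H →L[ℂ] H) = h := congrArg Subtype.val hh
  have hks : IsSelfAdjoint k := by
    rw [IsSelfAdjoint, hk, star_sub, hh', star_smul, star_one]; simp
  obtain ⟨r, hr, h1, h2, h3⟩ := exists_rangeProj k⁺
  have hc : ∀ y : H →L[ℂ] H, y * h = h * y → Commute y r := fun y hy => by
    have a : ∀ y : H →L[ℂ] H, y * h = h * y → Commute y k⁺ := fun y hy => by
      have : Commute y k := by
        rw [Commute, SemiconjBy, hk, mul_sub, sub_mul, hy]; simp
      rw [CFC.posPart_def]; exact (this.symm.cfcₙ_real _).symm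
    refine h3 y (a y hy) (a _ ?_)
    have := congrArg star hy
    rw [star_mul, star_mul, hh'] at this
    exact this.symm
  have hm : r ∈ M := (vn_mem_iff M r).2 fun y hy => (hc y ((vn_mem_iff M _).1 h.2 y hy)).eq
  have hq : ∀ ξ : H, (⟪ξ, ap h ξ⟫_ℂ).re = t * ‖ξ‖ ^ 2 + ((⟪ξ, k⁺ ξ⟫_ℂ).re - (⟪ξ, k⁻ ξ⟫_ℂ).re) :=
    fun ξ => by
      rw [← Complex.sub_re, ← inner_sub_right, ← ContinuousLinearMap.sub_apply,
        CFC.posPart_sub_negPart k hks, hk]
      simp only [ContinuousLinearMap.sub_apply, ContinuousLinearMap.smul_apply,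
        ContinuousLinearMap.one_apply, inner_sub_right, inner_smul_right, Complex.sub_re,
        inner_self_eq_norm_sq_to_K, Complex.re_ofReal_mul]
      have : ((‖ξ‖ : ℂ) ^ 2).re = ‖ξ‖ ^ 2 := by norm_cast
      simp only [Complex.coe_algebraMap, this]
      ring
  have hp : ∀ T : H →L[ℂ] H, 0 ≤ T → ∀ ξ, 0 ≤ (⟪ξ, T ξ⟫_ℂ).re := fun T hT ξ =>
    ((ContinuousLinearMap.nonneg_iff_isPositive T).1 hT).re_inner_nonneg_right ξ
  refine ⟨⟨r, hm⟩, ⟨Subtype.ext hr.isIdempotentElem.eq, Subtype.ext hr.isSelfAdjoint.star_eq⟩,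
    fun y hy => Subtype.ext (hc y (congrArg Subtype.val hy)).eq, fun ξ hξ => ?_, fun ξ hξ => ?_⟩
  · have a : k⁻ ξ = 0 := by
      have := congrArg (fun T : H →L[ℂ] H => T ξ) (h2 _ (CFC.negPart_mul_posPart k))
      rw [← show r ξ = ξ from hξ]; exact this
    rw [hq, a, inner_zero_right, Complex.zero_re]
    linarith [hp _ (CFC.posPart_nonneg k) ξ]
  · have a : k⁺ ξ = 0 := by
      have := congrArg star h1
      rw [star_mul, hr.isSelfAdjoint.star_eq, (CFC.posPart_nonneg k).isSelfAdjoint.star_eq] at this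
      rw [← this, mul_apply_eq_comp, show r ξ = 0 from hξ, map_zero]
    rw [hq, a, inner_zero_right, Complex.zero_re]
    linarith [hp _ (CFC.negPart_nonneg k) ξ]

theorem polar : Polar.{u} := fun H _ _ _ M x => by
  obtain ⟨g, hg, hgx, hu⟩ := exists_abs x
  set h := g * g with hh
  have hs : star h = h := by rw [hh, star_mul, hg]
  let ε : ℕ → ℝ := fun n => 1 / (n + 1)
  have hε : ∀ n, 0 < ε n := fun n => Nat.one_div_pos_of_nat
  have hr : ∀ n, ∃ r : Al M, (h + (ε n : ℂ) • 1) * r = 1 ∧ r * (h + (ε n : ℂ) • 1) = 1 := fun n =>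
    ⟨↑(hu _ (hε n)).unit⁻¹, (hu _ (hε n)).mul_val_inv, (hu _ (hε n)).val_inv_mul⟩
  choose r hr1 hr2 using hr
  have hxh : ∀ η, ‖ap x η‖ = ‖ap h η‖ := fun η => by
    rw [← sq_eq_sq₀ (norm_nonneg _) (norm_nonneg _), nsq, nsq, hs, hgx]
  have hb : ∀ n, ‖x * r n‖ ≤ 1 := fun n => norm_le_of_ap zero_le_one fun ξ => by
    rw [ap_mul, hxh, one_mul]
    set η := ap (r n) ξ
    have e : ξ = ap h η + (ε n : ℂ) • η := congrArg (fun T => ap T ξ) (hr1 n).symm
    have e2 := norm_add_sq (𝕜 := ℂ) (ap h η) ((ε n : ℂ) • η)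
    rw [← e, inner_smul_right, hh, ap_mul, inner_ap_left, hg, inner_self_eq_norm_sq_to_K] at e2
    have e3 : RCLike.re ((ε n : ℂ) * ((‖ap g η‖ : ℂ) ^ 2)) = ε n * ‖ap g η‖ ^ 2 := by
      rw [RCLike.re_to_complex, Complex.re_ofReal_mul]; norm_cast
    simp only [Complex.coe_algebraMap] at e2
    rw [e3] at e2
    refine abs_le_of_sq_le_sq' ?_ (norm_nonneg _) |>.2
    have : 0 ≤ ε n * ‖ap g η‖ ^ 2 := by have := hε n; positivity
    rw [hh, ap_mul]
    nlinarith [sq_nonneg ‖(ε n : ℂ) • η‖]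
  let 𝒰 := Ultrafilter.of (atTop : Filter ℕ)
  obtain ⟨v, -, hv⟩ := wotLim 𝒰 (fun n => x * r n) 1 (Eventually.of_forall hb)
  have hz : WL 𝒰 (fun n => (ε n : ℂ) • (x * r n)) 0 := fun η ξ => by
    rw [ap_zero, inner_zero_right]
    refine squeeze_zero_norm (a := fun n => ‖η‖ * (ε n * ‖ξ‖)) (fun n => ?_) ?_
    · refine (inner_ap_le _ _ _).trans ?_
      rw [norm_smul, Complex.norm_real, Real.norm_of_nonneg (hε n).le]
      gcongr
      exact mul_le_of_le_one_right (hε n).le (hb n)
    · have := ((tendsto_one_div_add_atTop_nhds_zero_nat.mul_const ‖ξ‖).const_mul ‖η‖).mono_left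
        (Ultrafilter.of_le _)
      rwa [zero_mul, mul_zero] at this
  have a1 : v * h = x := by
    have := ((hv.mul_right h).add hz).eq_of_eventually (WL.const _ x)
      (Eventually.of_forall fun n => by
        have := congrArg (x * ·) (hr2 n)
        simpa only [mul_add, mul_smul_comm, mul_one, mul_assoc] using this)
    rwa [add_zero] at this
  have a2 : ∀ y : Al M, y * x = 0 → y * v = 0 := fun y hy =>
    (hv.mul_left y).eq_of_eventually (WL.const _ 0)
      (Eventually.of_forall fun n => by simp only [← mul_assoc, hy, zero_mul])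
  have hxy : ∀ y : Al M, x * y = 0 → h * y = 0 := fun y hy => ap_ext fun ξ => by
    rw [ap_mul, ap_zero, ← norm_eq_zero, ← hxh, ← ap_mul, hy, ap_zero, norm_zero]
  have a3 : ∀ y : Al M, x * y = 0 → v * y = 0 := fun y hy =>
    (hv.mul_right y).eq_of_eventually (WL.const _ 0) (Eventually.of_forall fun n => by
      have e := congrArg (· * y) (hr2 n)
      simp only [mul_assoc, add_mul, hxy y hy, zero_add, smul_mul_assoc, one_mul,
        mul_smul_comm] at e
      have e2 : (ε n : ℂ) • (x * r n * y) = 0 := by rw [mul_assoc, ← mul_smul_comm, e, hy]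
      exact (smul_eq_zero.1 e2).resolve_left (by exact_mod_cast (hε n).ne'))
  have a4 : star v * x = h := by
    have c1 : (star x * v - h) * h = 0 := by rw [sub_mul, mul_assoc, a1, hgx, _root_.sub_self]
    obtain ⟨e, he, he1, he2⟩ := rPj H M h
    have c2 := he2 _ c1
    have he3 : h * e = h := by
      have := congrArg star he1
      rwa [star_mul, hs, he.isSelfAdjoint.star_eq] at this
    have c3 : v * (1 - e) = 0 := a3 _ (by rw [← a1, mul_assoc, mul_sub, mul_one, he3,
      _root_.sub_self, mul_zero])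
    rw [mul_sub, mul_one, sub_eq_zero] at c3
    rw [sub_mul, mul_assoc, ← c3, he3, sub_eq_zero] at c2
    have := congrArg star c2
    rwa [star_mul, star_star, hs] at this
  refine ⟨v, g, ?_, hg, a1.symm, a4, a2, a3⟩
  have := a2 (v * star v - 1) (by rw [sub_mul, mul_assoc, a4, a1, one_mul, _root_.sub_self])
  rwa [sub_mul, one_mul, sub_eq_zero] at this

theorem monoLim : MonoLim.{u} := fun _ _ _ _ _ _ _ _ _ w hw hm => monoLim' w hw hm

theorem sumPI : SumPI.{u} := fun H _ _ _ M w hw h1 h2 => by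
  have hp : ∀ n, star (∑ i ∈ Finset.range n, w i) * ∑ i ∈ Finset.range n, w i =
      ∑ i ∈ Finset.range n, star (w i) * w i := fun n => by
    rw [star_sum, Finset.sum_mul]
    refine Finset.sum_congr rfl fun i hi => ?_
    rw [Finset.mul_sum, Finset.sum_eq_single_of_mem i hi fun j _ hj => h1 i j hj.symm]
  have hm : ∀ m n, m ≤ n → (∑ i ∈ Finset.range n, w i) *
      (star (∑ i ∈ Finset.range m, w i) * ∑ i ∈ Finset.range m, w i) =
        ∑ i ∈ Finset.range m, w i := fun m n hmn => by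
    rw [hp, Finset.mul_sum]
    refine Finset.sum_congr rfl fun i hi => ?_
    rw [Finset.sum_mul, Finset.sum_eq_single_of_mem i
      (Finset.mem_range.2 ((Finset.mem_range.1 hi).trans_le hmn)) fun j _ hj => by
        rw [← mul_assoc, h2 j i hj, zero_mul], pmul (hw i)]
  obtain ⟨v, hv, a1, a2, -⟩ := monoLim' (fun n => ∑ i ∈ Finset.range n, w i)
    (fun n => by rw [PI, mul_assoc]; exact hm n n le_rfl) hm
  exact ⟨v, hv, a1, by simpa only [star_sum] using a2⟩

theorem maxPI : MaxPI.{u} := fun H _ _ _ M k 𝒮 hP hne hcl => by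
  let r : 𝒮 → 𝒮 → Prop := fun v w => ∀ i, w.1 i * (star (v.1 i) * v.1 i) = v.1 i
  have hrefl : ∀ v, r v v := fun v i => pmul (hP _ v.2 i)
  have htr : ∀ {a b c}, r a b → r b c → r a c := fun {a b c} h1 h2 i =>
    le_trans' (hP _ a.2 i) (hP _ b.2 i) (h1 i) (h2 i)
  have := hne.to_subtype
  obtain ⟨v, hv⟩ := exists_maximal_of_nonempty_chains_bounded (r := r) (fun c hc hcn => by
    have : Nonempty c := hcn.to_subtype
    obtain ⟨𝓕, h𝓕, hl⟩ := monoLimR (M := M) (fun a b : c => r a b) (fun a => hrefl a)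
      (fun _ _ _ => htr) fun a b => by
        rcases eq_or_ne a.1 b.1 with h | h
        · exact ⟨b, by rw [h]; exact hrefl _, hrefl _⟩
        · rcases hc a.2 b.2 h with h | h
          exacts [⟨b, h, hrefl _⟩, ⟨a, hrefl _, h⟩]
    choose v h1 h2 h3 h4 using fun i => hl (fun a : c => a.1.1 i) (fun a => hP _ a.1.2 i)
      fun a b hab => hab i
    exact ⟨⟨v, hcl (map (fun a : c => a.1.1) 𝓕) inferInstance
      (mem_map.2 (univ_mem' fun a => a.1.2)) v fun i => ⟨h1 i, h2 i, h3 i⟩⟩,
      fun a ha i => h4 i ⟨a, ha⟩⟩) htr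
  refine ⟨v, v.2, fun w hw h => funext fun i => ?_⟩
  exact le_antisymm' (hP _ v.2 i) (hP _ hw i) (h i) (hv ⟨w, hw⟩ h i)

end Crest.Agent.HH
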