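import Crest.Agent.HH.VN0

/-! Comparison of projections and the splitting into properly infinite and finite parts. -/

set_option autoImplicit false
open scoped ComplexConjugate InnerProductSpace BigOperators
open Filter Topology

namespace Crest.Agent.HH
open Crest.Agent.GEN V0

universe u v

namespace V1

section alg
variable {A : Type u} [CStarAlgebra A]

lemma star_zero_of {a b : A} (h : star a * b = 0) : star b * a = 0 := by
  have := congrArg star h
  rwa [star_mul, star_star, star_zero] at this

lemma star_zero_of' {a b : A} (h : a * star b = 0) : b * star a = 0 := by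
  have := congrArg star h
  rwa [star_mul, star_star, star_zero] at this

lemma add_init {v u : A} (h1 : star v * u = 0) :
    star (v + u) * (v + u) = star v * v + star u * u := by
  rw [star_add, add_mul, mul_add, mul_add, h1, star_zero_of h1, add_zero, zero_add]

lemma add_pi {v u : A} (hv : PI v) (hu : PI u) (h1 : star v * u = 0) (h2 : v * star u = 0) :
    PI (v + u) := by
  rw [PI, mul_assoc, add_init h1, add_mul, mul_add, mul_add, pmul hv, pmul hu, ← mul_assoc,
    ← mul_assoc, h2, star_zero_of' h2, zero_mul, zero_mul, add_zero, zero_add]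

lemma wander {v e : A} (hv : star v * v * v = v) (he : star v * v * e = e) (h0 : star e * v = 0)
    (n m : ℕ) : star (v ^ n * e) * (v ^ m * e) = if n = m then star e * e else 0 := by
  have h1 : ∀ k, star v * v * (v ^ k * e) = v ^ k * e := fun k => by
    rcases k with _ | k
    · simpa using he
    · rw [pow_succ', mul_assoc v, ← mul_assoc, hv]
  have h2 : ∀ n k, star (v ^ n * e) * (v ^ (n + k) * e) = star e * (v ^ k * e) := fun n k => by
    induction n with
    | zero => simp
    | succ n ih =>
      rw [← ih, pow_succ', add_right_comm, pow_succ', mul_assoc v, star_mul, mul_assoc,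
        mul_assoc v, ← mul_assoc (star v), h1]
  have h3 : ∀ n k, star (v ^ n * e) * (v ^ (n + (k + 1)) * e) = 0 := fun n k => by
    rw [h2, pow_succ', mul_assoc v, ← mul_assoc, h0, zero_mul]
  rcases lt_trichotomy n m with h | rfl | h
  · obtain ⟨k, rfl⟩ := Nat.exists_eq_add_of_lt h
    rw [if_neg h.ne, add_assoc, h3]
  · simpa using h2 n 0
  · obtain ⟨k, rfl⟩ := Nat.exists_eq_add_of_lt h
    rw [if_neg h.ne', add_assoc]; exact star_zero_of (h3 _ _)

/-- A pair of partial isometries witnessing that `s⋆ s` is properly infinite. -/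
def Two (s t : A) : Prop :=
  PI s ∧ PI t ∧ star t * t = star s * s ∧ star s * t = 0 ∧ star s * s * s = s ∧ star s * s * t = t

lemma Two.add {s t s' t' : A} (h : Two s t) (h' : Two s' t')
    (h0 : star s * s * (star s' * s') = 0) :
    Two (s + s') (t + t') ∧ (s + s') * (star s * s) = s ∧ (t + t') * (star t * t) = t := by
  obtain ⟨a1, a2, a3, a4, a5, a6⟩ := h
  obtain ⟨b1, b2, b3, b4, b5, b6⟩ := h'
  have hP := (proj a1).isSelfAdjoint.star_eq
  have hQ := (proj b1).isSelfAdjoint.star_eq
  have a7 := pmul a1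
  have a8 := pmul a2
  have b7 := pmul b1
  have b8 := pmul b2
  rw [a3] at a8
  rw [b3] at b8
  have hs1 : star s * s = star s * s := rfl
  have hs2 : star s' * s' = star s' * s' := rfl
  revert hs1 hs2
  generalize hP' : star s * s = P at *
  generalize hQ' : star s' * s' = Q at *
  intro _ _
  have h0' : Q * P = 0 := by
    have := congrArg star h0
    rwa [star_mul, hP, hQ, star_zero] at this
  have c1 : ∀ a b : A, P * a = a → Q * b = b → star a * b = 0 := fun a b ha hb => by
    rw [← ha, ← hb, star_mul, hP, mul_assoc, ← mul_assoc P, h0, zero_mul, mul_zero]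
  have c2 : ∀ a b : A, a * P = a → b * Q = b → a * star b = 0 := fun a b ha hb => by
    rw [← ha, ← hb, star_mul, hQ, mul_assoc, ← mul_assoc P, h0, zero_mul, mul_zero]
  have c3 : ∀ a b : A, P * a = a → Q * b = b → (P + Q) * (a + b) = a + b := fun a b ha hb => by
    rw [add_mul, mul_add, mul_add, ha, hb, ← ha, ← hb, ← mul_assoc, ← mul_assoc Q P, h0, h0',
      zero_mul, zero_mul, add_zero, zero_add]
  have c4 : ∀ a b : A, a * P = a → b * Q = b → (a + b) * P = a := fun a b ha hb => by
    rw [add_mul, ha, ← hb, mul_assoc, h0', mul_zero, add_zero]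
  have e1 : star (s + s') * (s + s') = P + Q := by rw [add_init (c1 _ _ a5 b5), hP', hQ']
  refine ⟨⟨add_pi a1 b1 (c1 _ _ a5 b5) (c2 _ _ a7 b7), add_pi a2 b2 (c1 _ _ a6 b6) (c2 _ _ a8 b8),
    by rw [e1, add_init (c1 _ _ a6 b6), a3, b3], ?_, by rw [e1, c3 _ _ a5 b5],
    by rw [e1, c3 _ _ a6 b6]⟩, c4 _ _ a7 b7, by rw [a3, c4 _ _ a8 b8]⟩
  rw [star_add, add_mul, mul_add, mul_add, a4, b4, c1 _ _ a5 b6, star_zero_of (c1 _ _ a6 b5)]
  simp

end alg

variable {H : Type u} [NormedAddCommGroup H] [InnerProductSpace ℂ H] [CompleteSpace H]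
variable {M : VonNeumannAlgebra H}

lemma two_of_seq {a : ℕ → Al M} {e : Al M} (ha : ∀ n m, star (a n) * a m = if n = m then e else 0)
    (he : ∀ n, a n * e = a n) : ∃ s t : Al M, Two s t ∧ (∀ n, star s * s * a n = a n) ∧
      ∀ y : Al M, (∀ n, y * a n = 0) → y * (star s * s) = 0 := by
  have he' : ∀ n, e * star (a n) = star (a n) := fun n => by
    have h1 := congrArg star (he n)
    have h2 : star e = e := by
      have := ha 0 0
      rw [if_pos rfl] at this
      rw [← this, star_mul, star_star]
    rwa [star_mul, h2] at h1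
  have hc : ∀ i j k l, star (a i * star (a j)) * (a k * star (a l)) =
      if i = k then a j * star (a l) else 0 := fun i j k l => by
    rw [star_mul, star_star, mul_assoc, ← mul_assoc (star (a i)), ha]
    split_ifs <;> simp [he']
  have key : ∀ f : ℕ → ℕ, Function.Injective f → ∃ s : Al M, PI s ∧
      SL atTop (fun n => ∑ i ∈ Finset.range n, a (f i) * star (a i)) s ∧
      SL atTop (fun n => star (∑ i ∈ Finset.range n, a (f i) * star (a i))) (star s) ∧
      ∀ n, ‖star (∑ i ∈ Finset.range n, a (f i) * star (a i))‖ ≤ 1 ∧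
        star (∑ i ∈ Finset.range n, a (f i) * star (a i)) *
          (∑ i ∈ Finset.range n, a (f i) * star (a i)) =
            ∑ i ∈ Finset.range n, a i * star (a i) := fun f hf => by
    have h1 : ∀ i j, i ≠ j → star (a (f i) * star (a i)) * (a (f j) * star (a j)) = 0 :=
      fun i j hij => by rw [hc, if_neg (hf.ne hij)]
    have h2 : ∀ i j, i ≠ j → a (f i) * star (a i) * star (a (f j) * star (a j)) = 0 :=
      fun i j hij => by
        rw [star_mul, star_star, mul_assoc, ← mul_assoc (star (a i)), ha, if_neg hij]; simp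
    have h3 : ∀ i, PI (a (f i) * star (a i)) := fun i => by
      rw [PI, mul_assoc, hc, if_pos rfl, mul_assoc, ← mul_assoc (star (a i)), ha, if_pos rfl, he']
    obtain ⟨s, hs, b1, b2⟩ := sumPI H M _ h3 h1 h2
    have h4 : ∀ n, star (∑ i ∈ Finset.range n, a (f i) * star (a i)) *
        (∑ i ∈ Finset.range n, a (f i) * star (a i)) = ∑ i ∈ Finset.range n, a i * star (a i) :=
      fun n => by
        rw [star_sum, Finset.sum_mul]
        refine Finset.sum_congr rfl fun i hi => ?_
        rw [Finset.mul_sum, Finset.sum_eq_single_of_mem i hi fun j _ hj => h1 i j hj.symm, hc,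
          if_pos rfl]
    refine ⟨s, hs, b1, by simpa only [star_sum] using b2, fun n => ⟨?_, h4 n⟩⟩
    refine (pstar ?_).norm_le
    rw [PI, mul_assoc, h4, Finset.sum_mul]
    refine Finset.sum_congr rfl fun i hi => ?_
    rw [Finset.mul_sum, Finset.sum_eq_single_of_mem i hi fun j _ hj => by
      rw [mul_assoc, ← mul_assoc (star (a i)), ha, if_neg hj.symm]; simp,
      mul_assoc, ← mul_assoc (star (a i)), ha, if_pos rfl, he']
  obtain ⟨s, s1, s2, s3, s4⟩ := key (fun n => 2 * n) fun i j h => by simpa using h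
  obtain ⟨t, t1, t2, t3, t4⟩ := key (fun n => 2 * n + 1) fun i j h => by simpa using h
  have hs := s3.mul s2 (Eventually.of_forall fun n => (s4 n).1)
  have ht := t3.mul t2 (Eventually.of_forall fun n => (t4 n).1)
  simp only [fun n => (s4 n).2] at hs
  simp only [fun n => (t4 n).2] at ht
  have hE : ∀ k, star s * s * a k = a k := fun k =>
    (hs.wl.mul_right (a k)).eq_of_eventually (WL.const _ _)
      ((eventually_gt_atTop k).mono fun n hn => by
        rw [Finset.sum_mul, Finset.sum_eq_single_of_mem k (Finset.mem_range.2 hn) fun j _ hj => by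
          rw [mul_assoc, ha, if_neg hj, mul_zero], mul_assoc, ha, if_pos rfl, he])
  have hE' : ∀ (f : ℕ → ℕ) (x : Al M),
      SL atTop (fun n => ∑ i ∈ Finset.range n, a (f i) * star (a i)) x → star s * s * x = x :=
    fun f x hx => (hx.wl.mul_left _).eq_of_eventually hx.wl (Eventually.of_forall fun n => by
      simp only [Finset.mul_sum, ← mul_assoc _ (a _), hE])
  refine ⟨s, t, ⟨s1, t1, ht.wl.unique hs.wl, ?_, hE' _ _ s2, hE' _ _ t2⟩, hE, fun y hy => ?_⟩
  · refine (s3.mul t2 (Eventually.of_forall fun n => (s4 n).1)).eq_of_eventually (SL.const _ _)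
      (Eventually.of_forall fun n => ?_)
    simp only [star_sum, Finset.sum_mul, Finset.mul_sum]
    exact Finset.sum_eq_zero fun i _ => Finset.sum_eq_zero fun j _ => by
      rw [hc, if_neg (by omega)]
  · exact (hs.wl.mul_left y).eq_of_eventually (WL.const _ _) (Eventually.of_forall fun n => by
      simp only [Finset.mul_sum, ← mul_assoc, hy, zero_mul, Finset.sum_const_zero])

end V1

open V1

theorem cmp : Cmp.{u} := fun H _ _ _ M p q hp hq => by
  obtain ⟨V, ⟨hv, hvp, hqv⟩, hmax⟩ := maxPI H M 1
    {w | PI (w 0) ∧ w 0 * p = w 0 ∧ q * w 0 = w 0}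
    (fun w hw i => by rw [Subsingleton.elim i 0]; exact hw.1) ⟨0, by simp [PI]⟩
    (fun 𝓕 _ h𝓕 v hv => ⟨(hv 0).1,
      ((hv 0).2.1.wl.mul_right p).eq_of_eventually (hv 0).2.1.wl
        (mem_of_superset h𝓕 fun w hw => hw.2.1),
      ((hv 0).2.1.wl.mul_left q).eq_of_eventually (hv 0).2.1.wl
        (mem_of_superset h𝓕 fun w hw => hw.2.2)⟩)
  set v := V 0 with hV
  have hps := hp.isSelfAdjoint.star_eq
  have hqs := hq.isSelfAdjoint.star_eq
  have hpv : p * star v = star v := by
    have := congrArg star hvp; rwa [star_mul, hps] at this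
  have hvq : star v * q = star v := by
    have := congrArg star hqv; rwa [star_mul, hqs] at this
  have hv' : star v * v * star v = star v := by simpa only [PI, star_star] using pstar hv
  have key : ∀ m, (q - v * star v) * m * (p - star v * v) = 0 := fun m => by
    obtain ⟨u, g, hu, -, h1, -, h2, h3⟩ := polar H M ((q - v * star v) * m * (p - star v * v))
    have a1 : star v * u = 0 := h2 _ (by
      rw [← mul_assoc, ← mul_assoc, mul_sub (star v), hvq, ← mul_assoc, hv', _root_.sub_self, zero_mul,
        zero_mul])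
    have a2 : u * star v = 0 := h3 _ (by
      rw [mul_assoc, sub_mul p, hpv, hv', _root_.sub_self, mul_zero])
    have a3 : (1 - q) * u = 0 := h2 _ (by
      rw [← mul_assoc, ← mul_assoc, sub_mul, one_mul, mul_sub q, hq.isIdempotentElem.eq,
        ← mul_assoc, hqv, _root_.sub_self, zero_mul, zero_mul])
    have a4 : u * (1 - p) = 0 := h3 _ (by
      rw [mul_assoc, mul_sub, mul_one, sub_mul p, hp.isIdempotentElem.eq, mul_assoc (star v), hvp,
        _root_.sub_self, mul_zero])
    rw [sub_mul, one_mul, sub_eq_zero] at a3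
    rw [mul_sub, mul_one, sub_eq_zero] at a4
    have := congrFun (hmax (fun _ => v + u) ⟨add_pi hv hu a1 (star_zero_of' a2),
      by rw [add_mul, hvp, ← a4], by rw [mul_add, hqv, ← a3]⟩ fun i => by
        rw [Subsingleton.elim i 0, ← hV, add_mul, pmul hv, ← mul_assoc, a2, zero_mul, add_zero]) 0
    rw [h1, show u = 0 by simpa [← hV] using this, zero_mul]
  obtain ⟨z, hz, z1, z2⟩ := cSupp H M (q - v * star v)
  have z3 := z2 (p - star v * v) fun m => by
    have := congrArg star (key (star m))
    simpa only [star_mul, star_sub, star_star, hps, hqs, star_zero, mul_assoc] using this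
  have hzs := hz.1.isSelfAdjoint.star_eq
  have hz' : ∀ x, (1 - z) * x = x * (1 - z) := fun x => by
    rw [sub_mul, mul_sub, hz.2, one_mul, mul_one]
  refine ⟨z, v * z, star v * (1 - z), hz, ?_, by rw [← mul_assoc, hqv], ?_,
    by rw [← mul_assoc, hpv]⟩
  · rw [sub_mul, sub_eq_zero] at z3
    rw [star_mul, hzs, mul_assoc, ← mul_assoc (star v), ← z3, ← hz.2, ← mul_assoc,
      hz.1.isIdempotentElem.eq]
  · have : (1 - z) * (q - v * star v) = 0 := by rw [sub_mul, one_mul, z1, _root_.sub_self]
    rw [mul_sub, sub_eq_zero] at this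
    rw [star_mul, star_star, hz.1.one_sub.isSelfAdjoint.star_eq, this, mul_assoc,
      ← mul_assoc v, ← hz', ← mul_assoc, hz.1.one_sub.isIdempotentElem.eq]

theorem split : Split.{u} := fun H _ _ _ M => by
  obtain ⟨V, hV, hmax⟩ := maxPI H M 2 {w | Two (w 0) (w 1)}
    (fun w hw i => by fin_cases i; exacts [hw.1, hw.2.1]) ⟨0, by simp [Two, PI]⟩
    (fun 𝓕 _ h𝓕 v hv => by
      obtain ⟨a1, a2, a3⟩ := hv 0
      obtain ⟨b1, b2, b3⟩ := hv 1
      have n0 : ∀ᶠ w : Fin 2 → Al M in 𝓕, ‖star (w 0)‖ ≤ 1 :=
        mem_of_superset h𝓕 fun w hw => (pstar hw.1).norm_le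
      have n1 : ∀ᶠ w : Fin 2 → Al M in 𝓕, ‖star (w 1)‖ ≤ 1 :=
        mem_of_superset h𝓕 fun w hw => (pstar hw.2.1).norm_le
      have n2 : ∀ᶠ w : Fin 2 → Al M in 𝓕, ‖star (w 0) * w 0‖ ≤ 1 :=
        mem_of_superset h𝓕 fun w hw => (proj hw.1).norm_le
      exact ⟨a1, b1,
        (b3.mul b2 n1).eq_of_eventually (a3.mul a2 n0) (mem_of_superset h𝓕 fun w hw => hw.2.2.1),
        (a3.mul b2 n0).eq_of_eventually (SL.const _ _)
          (mem_of_superset h𝓕 fun w hw => hw.2.2.2.1),
        ((a3.mul a2 n0).mul a2 n2).eq_of_eventually a2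
          (mem_of_superset h𝓕 fun w hw => hw.2.2.2.2.1),
        ((a3.mul a2 n0).mul b2 n2).eq_of_eventually b2
          (mem_of_superset h𝓕 fun w hw => hw.2.2.2.2.2)⟩)
  have ext : ∀ s' t' : Al M, Two s' t' → star (V 0) * V 0 * (star s' * s') = 0 →
      star s' * s' = 0 := fun s' t' h h0 => by
    obtain ⟨a1, a2, a3⟩ := Two.add hV h h0
    have := congrFun (hmax ![V 0 + s', V 1 + t'] a1 fun i => by fin_cases i; exacts [a2, a3]) 0
    rw [show s' = 0 by simpa using this, mul_zero]
  obtain ⟨a1, a2, a3, a4, a5, a6⟩ := hV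
  set s := V 0
  set t := V 1
  have hP := proj a1
  have a8 := pmul a2
  rw [a3] at a8
  obtain ⟨c, hc, c1, c2⟩ := cSupp H M (star s * s)
  refine ⟨c, hc, ?_, fun v hv h1 h2 => ?_⟩
  · have hr : IsStarProjection (c - star s * s) := hP.sub_of_mul_eq_right hc.1 c1
    obtain ⟨z, v, w, hz, v1, v2, w1, w2⟩ := cmp H M _ _ hr hP
    have hz' : ∀ x, (1 - z) * x = x * (1 - z) := fun x => by
      rw [sub_mul, mul_sub, hz.2, one_mul, mul_one]
    have hw : PI w := of_proj (by
      rw [w1]; exact hz.1.one_sub.mul hP (hz' _))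
    have hw' : star w * w * star w = star w := by simpa only [PI, star_star] using pstar hw
    have cj : ∀ a b : Al M, star s * s * b = b →
        star (w * a * star w) * (w * b * star w) = w * ((1 - z) * (star a * b)) * star w :=
      fun a b hb => by
        rw [star_mul, star_mul, star_star, mul_assoc w b, mul_assoc, mul_assoc,
          ← mul_assoc (star w), w1, mul_assoc (1 - z), ← mul_assoc (star s * s), hb,
          ← mul_assoc (star a), ← hz']
        simp only [mul_assoc]
    have e1 : star (w * s * star w) * (w * s * star w) = w * star w := by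
      rw [cj _ _ a5, ← w1, pmul hw]
    have e2 : star (w * t * star w) * (w * t * star w) = w * star w := by
      rw [cj _ _ a6, a3, ← w1, pmul hw]
    have e3 : ∀ a, w * star w * (w * a * star w) = w * a * star w := fun a => by
      rw [← mul_assoc, ← mul_assoc, hw]
    have e4 := ext (w * s * star w) (w * t * star w)
      ⟨of_proj (e1 ▸ proj' hw), of_proj (e2 ▸ proj' hw), by rw [e1, e2],
        by rw [cj _ _ a6, a4]; simp, by rw [e1, e3], by rw [e1, e3]⟩ (by
        rw [e1, ← w2, ← mul_assoc, ← mul_assoc, mul_sub, ← hc.2, c1, hP.isIdempotentElem.eq,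
          _root_.sub_self, zero_mul, zero_mul])
    rw [e1] at e4
    have e5 : (1 - z) * (star s * s) = 0 := by rw [← w1, ← hw, e4]; simp
    have e6 := c2 (1 - z) fun m => by rw [hz', mul_assoc, e5, mul_zero]
    have e7 : star v * v = c - star s * s := by
      rw [sub_mul, one_mul, sub_eq_zero] at e5 e6
      rw [v1, mul_sub, ← e5, ← e6]
    have f1 : star (s + t * v) * (s + t * v) = c := by
      rw [add_init (by rw [← mul_assoc, a4, zero_mul]), star_mul, mul_assoc,
        ← mul_assoc (star t), a3, v2, e7, add_sub_cancel]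
    have f2 : star s * s * (s + t * v) = s + t * v := by rw [mul_add, a5, ← mul_assoc, a6]
    refine ⟨fun i => t ^ i * s * (s + t * v), fun i j => ?_⟩
    rw [star_mul, mul_assoc, ← mul_assoc (star (t ^ i * s)),
      wander (by rw [a3, a6]) (by rw [a3, a5]) a4]
    split_ifs
    · rw [f2, f1]
    · simp
  · have hq := proj hv
    have h3 : star v * v * (v * star v) = v * star v := by rw [← mul_assoc, h2]
    have he : IsStarProjection (star v * v - v * star v) := (proj' hv).sub_of_mul_eq_right hq h3
    set e := star v * v - v * star v with hee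
    have b1 : star v * v * e = e := by rw [hee, mul_sub, hq.isIdempotentElem.eq, h3]
    have b2 : star e * v = 0 := by
      rw [he.isSelfAdjoint.star_eq, hee, sub_mul, h2, hv, _root_.sub_self]
    obtain ⟨s', t', g1, g2, g3⟩ := two_of_seq (a := fun n => v ^ n * e) (e := e)
      (fun n m => by rw [wander h2 b1 b2, he.isSelfAdjoint.star_eq, he.isIdempotentElem.eq])
      fun n => by rw [mul_assoc, he.isIdempotentElem.eq]
    have cv : c * v = 0 := by
      rw [← h1, ← mul_assoc, mul_sub, mul_one, hc.1.isIdempotentElem.eq, _root_.sub_self, zero_mul]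
    have ce : c * e = 0 := by
      rw [hee, mul_sub, ← mul_assoc, ← mul_assoc, cv, hc.2, mul_assoc, cv]; simp
    have := ext s' t' g1 (g3 _ fun n => by
      rw [← c1, hc.2, mul_assoc, ← mul_assoc c, hc.2, mul_assoc _ c, ce, mul_zero, mul_zero])
    have g4 := g2 0
    rw [this, zero_mul, pow_zero, one_mul, hee] at g4
    exact (sub_eq_zero.1 g4.symm).symm

end Crest.Agent.HH
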