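import Crest.Agent.HH.Wot
import Crest.Agent.GEN.Dix

/-! Dixmier approximation and coverings by subprojections. -/

set_option autoImplicit false
open scoped ComplexConjugate InnerProductSpace BigOperators
open Filter Topology

namespace Crest.Agent.HH
open Crest.Agent.GEN

universe u

namespace VN2

variable {H : Type u} [NormedAddCommGroup H] [InnerProductSpace ℂ H] [CompleteSpace H]
variable {M : VonNeumannAlgebra H}

/-- The quadratic form. -/
noncomputable def qf (a : Al M) (ξ : H) : ℝ := (⟪ξ, ap a ξ⟫_ℂ).re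

lemma abs_qf_le (a : Al M) (ξ : H) : |qf a ξ| ≤ ‖a‖ * ‖ξ‖ ^ 2 := by
  refine (Complex.abs_re_le_norm _).trans ((inner_ap_le a ξ ξ).trans (le_of_eq ?_))
  ring

lemma norm_le_of_qf {a : Al M} (ha : star a = a) {B : ℝ} (hB : 0 ≤ B)
    (h : ∀ ξ, |qf a ξ| ≤ B * ‖ξ‖ ^ 2) : ‖a‖ ≤ B := by
  have key : ∀ ξ η : H, 4 * (⟪η, ap a ξ⟫_ℂ).re ≤ 2 * B * (‖ξ‖ ^ 2 + ‖η‖ ^ 2) := by
    intro ξ η
    have h1 := abs_le.1 (h (ξ + η))
    have h2 := abs_le.1 (h (ξ - η))
    have h3 : (⟪ξ, ap a η⟫_ℂ).re = (⟪η, ap a ξ⟫_ℂ).re := by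
      rw [inner_ap_right, ha, ← inner_conj_symm, Complex.conj_re]
    have h4 := parallelogram_law_with_norm ℂ ξ η
    simp only [qf, ap, map_add, map_sub, inner_add_left, inner_add_right, inner_sub_left,
      inner_sub_right, Complex.add_re, Complex.sub_re] at h1 h2 h3 ⊢
    nlinarith
  refine norm_le_of_ap hB fun ξ => ?_
  rcases (norm_nonneg (ap a ξ)).eq_or_lt with h0 | h0
  · rw [← h0]; positivity
  rcases (norm_nonneg ξ).eq_or_lt with h1 | h1
  · have := ap_le a ξ
    rw [← h1] at this ⊢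
    simpa using this
  have := key ξ (((‖ξ‖ / ‖ap a ξ‖ : ℝ) : ℂ) • ap a ξ)
  rw [inner_smul_left, inner_self_eq_norm_sq_to_K, norm_smul, Complex.norm_real,
    Real.norm_of_nonneg (by positivity), div_mul_cancel₀ _ h0.ne', Complex.conj_ofReal] at this
  have e : ((((‖ξ‖ / ‖ap a ξ‖ : ℝ) : ℂ)) * (‖ap a ξ‖ : ℂ) ^ 2).re = ‖ξ‖ * ‖ap a ξ‖ := by
    rw [← Complex.ofReal_pow, ← Complex.ofReal_mul, Complex.ofReal_re]
    field_simp
  have e' := e
  simp only [Complex.coe_algebraMap] at this
  rw [e] at this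
  nlinarith

lemma norm_sq_split {e : Al M} (he : IsStarProjection e) (ξ : H) :
    ‖ξ‖ ^ 2 = ‖ap e ξ‖ ^ 2 + ‖ap (1 - e) ξ‖ ^ 2 := by
  have h0 : ⟪ap e ξ, ap (1 - e) ξ⟫_ℂ = 0 := by
    rw [inner_ap_left, he.isSelfAdjoint.star_eq, ← ap_mul, he.mul_one_sub_self, ap_zero,
      inner_zero_right]
  have h1 : ξ = ap e ξ + ap (1 - e) ξ := by rw [← ap_add]; simp
  conv_lhs => rw [h1]
  rw [norm_add_sq (𝕜 := ℂ), h0]; simp

lemma qf_split {e a : Al M} (he : IsStarProjection e) (hc : a * e = e * a) (ξ : H) :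
    qf a ξ = qf a (ap e ξ) + qf a (ap (1 - e) ξ) := by
  have h1 : ξ = ap e ξ + ap (1 - e) ξ := by rw [← ap_add]; simp
  have h2 : ⟪ap e ξ, ap a (ap (1 - e) ξ)⟫_ℂ = 0 := by
    rw [inner_ap_left, he.isSelfAdjoint.star_eq, ← ap_mul, ← ap_mul, ← hc, mul_assoc,
      he.mul_one_sub_self, mul_zero, ap_zero, inner_zero_right]
  have h3 : ⟪ap (1 - e) ξ, ap a (ap e ξ)⟫_ℂ = 0 := by
    rw [inner_ap_left, he.one_sub.isSelfAdjoint.star_eq, ← ap_mul, ← ap_mul, mul_assoc, hc,
      ← mul_assoc, he.one_sub_mul_self, zero_mul, ap_zero, inner_zero_right]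
  generalize ap e ξ = α at *
  generalize ap (1 - e) ξ = β at *
  subst h1
  simp only [qf, ap, map_add, inner_add_left, inner_add_right, Complex.add_re] at h2 h3 ⊢
  rw [h2, h3]; simp

section alg
variable {A : Type u} [CStarAlgebra A]

lemma pi_of_proj {v : A} (h : IsStarProjection (star v * v)) : PI v := by
  have h1 : star (v * star v * v - v) * (v * star v * v - v) = 0 := by
    have h2 := h.isIdempotentElem.eq
    have h3 : star v * (v * (star v * v)) = star v * v := by simpa [mul_assoc] using h2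
    simp only [star_sub, star_mul, star_star, sub_mul, mul_sub, mul_assoc, h3]
    simp
  exact sub_eq_zero.1 (CStarRing.star_mul_self_eq_zero_iff _ |>.1 h1)

lemma PI.star' {v : A} (h : PI v) : PI (star v) := by
  have := congrArg star h
  simpa [PI, mul_assoc] using this

lemma PI.proj_left {v : A} (h : PI v) : IsStarProjection (v * star v) :=
  ⟨by rw [IsIdempotentElem, ← mul_assoc, h], IsSelfAdjoint.mul_star_self v⟩

lemma PI.proj_right {v : A} (h : PI v) : IsStarProjection (star v * v) :=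
  ⟨by rw [IsIdempotentElem, mul_assoc, ← mul_assoc v, h], IsSelfAdjoint.star_mul_self v⟩

lemma CP.one_sub {z : A} (h : CP z) : CP (1 - z) :=
  ⟨h.1.one_sub, fun x => by rw [sub_mul, mul_sub, h.2, one_mul, mul_one]⟩

lemma CP.mul {z c : A} (h : CP z) (h' : CP c) : CP (z * c) :=
  ⟨h.1.mul h'.1 (h.2 c), fun x => by rw [mul_assoc, h'.2, ← mul_assoc, h.2, mul_assoc]⟩

/-- The flip of a square-zero partial isometry. -/
lemma flip_unitary {v : A} (h : PI v) (h0 : v * v = 0) :
    v + star v + (1 - star v * v - v * star v) ∈ unitary A := by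
  have h1 : v * (star v * v) = v := by rw [← mul_assoc]; exact h
  have h2 : star v * (v * star v) = star v := by
    have := PI.star' h
    simpa [PI, mul_assoc] using this
  have h3 : star v * star v = 0 := by rw [← star_mul, h0, star_zero]
  have h4 : ∀ x, v * (v * x) = 0 := fun x => by rw [← mul_assoc, h0, zero_mul]
  have h5 : ∀ x, star v * (star v * x) = 0 := fun x => by rw [← mul_assoc, h3, zero_mul]
  have h6 : ∀ x, v * (star v * (v * x)) = v * x := fun x => by
    rw [← mul_assoc (star v), ← mul_assoc, h1]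
  have h7 : ∀ x, star v * (v * (star v * x)) = star v * x := fun x => by
    rw [← mul_assoc v, ← mul_assoc, h2]
  have hs : star (v + star v + (1 - star v * v - v * star v)) =
      v + star v + (1 - star v * v - v * star v) := by
    simp only [star_add, star_sub, star_mul, star_star, star_one]; abel
  have hm : (v + star v + (1 - star v * v - v * star v)) *
      (v + star v + (1 - star v * v - v * star v)) = 1 := by
    simp only [add_mul, mul_add, sub_mul, mul_sub, mul_assoc, one_mul, mul_one, h0, h1, h2, h3,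
      h4, h5, h6, h7, mul_zero]
    abel
  rw [Unitary.mem_iff, hs]
  exact ⟨hm, hm⟩

end alg

lemma half {e z v : Al M} (he : IsStarProjection e) (hz : CP z) (hv : star v * v = z * e)
    (hf : (1 - e) * v = v) : ∃ u ∈ unitary (Al M), ∀ ξ, ap z ξ = ξ →
      ‖ap e ξ‖ ^ 2 + ‖ap e (ap (star u) ξ)‖ ^ 2 ≤ ‖ξ‖ ^ 2 := by
  have hp : PI v := pi_of_proj (hv ▸ hz.1.mul he (hz.2 e))
  have hev : e * v = 0 := by rw [← hf, ← mul_assoc, he.mul_one_sub_self, zero_mul]
  have hve : v * e = v := by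
    have : v * (star v * v) = v := by rw [← mul_assoc]; exact hp
    rw [← this, hv, mul_assoc, mul_assoc, he.isIdempotentElem.eq]
  have h0 : v * v = 0 := by rw [← hve, mul_assoc, ← mul_assoc e, hev, zero_mul, mul_zero]
  refine ⟨_, flip_unitary hp h0, fun ξ hξ => ?_⟩
  have hes : e * star v = star v := by
    rw [← he.isSelfAdjoint.star_eq, ← star_mul, hve]
  have hse : star v * (1 - e) = star v := by
    rw [← he.one_sub.isSelfAdjoint.star_eq, ← star_mul, hf]
  have hzs : star v * z = star v := by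
    have : star v * v * star v = star v := by
      have := PI.star' hp
      simpa [PI] using this
    rw [← hz.2, ← this, hv, ← mul_assoc, ← mul_assoc, hz.1.isIdempotentElem.eq]
  have key : e * star (v + star v + (1 - star v * v - v * star v)) * z = star v * (1 - e) := by
    simp only [star_add, star_sub, star_mul, star_star, star_one, hse]
    simp only [mul_add, mul_sub, hes, hev,
      mul_one, hv, ← mul_assoc, zero_mul, add_mul, sub_mul, hzs]
    rw [← hz.2 e, mul_assoc z e e, he.isIdempotentElem.eq, mul_assoc z e z, ← hz.2 e,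
      ← mul_assoc z z, hz.1.isIdempotentElem.eq]
    abel
  have h1 : ap e (ap (star (v + star v + (1 - star v * v - v * star v))) ξ) =
      ap (star v) (ap (1 - e) ξ) := by
    rw [← ap_mul (star v), ← key, ap_mul, ap_mul, hξ]
  rw [h1, norm_sq_split he ξ]
  have h2 := ap_le (star v) (ap (1 - e) ξ)
  have h3 := (PI.star' hp).norm_le
  have h4 : ‖ap (star v) (ap (1 - e) ξ)‖ ≤ ‖ap (1 - e) ξ‖ :=
    h2.trans (mul_le_of_le_one_left (norm_nonneg _) h3)
  have := pow_le_pow_left₀ (norm_nonneg _) h4 2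
  linarith

lemma norm_ap_unitary {u : Al M} (hu : u ∈ unitary (Al M)) (ξ : H) : ‖ap u ξ‖ = ‖ξ‖ := by
  have : ⟪ap u ξ, ap u ξ⟫_ℂ = ⟪ξ, ξ⟫_ℂ := by
    rw [inner_ap_left, ← ap_mul, Unitary.star_mul_self_of_mem hu, ap_one]
  rw [inner_self_eq_norm_sq_to_K, inner_self_eq_norm_sq_to_K] at this
  have h2 : ‖ap u ξ‖ ^ 2 = ‖ξ‖ ^ 2 := by exact_mod_cast this
  exact (pow_left_inj₀ (norm_nonneg _) (norm_nonneg _) two_ne_zero).1 h2

lemma avg_star {A : Type u} [CStarAlgebra A] {f : A →ₗ[ℂ] A} (hf : Avg ⊤ f) (b : A) :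
    star (f b) = f (star b) := by
  obtain ⟨ι, _, _, w, hw, hf⟩ := hf
  rw [hf, hf, star_smul, star_sum]
  simp [mul_assoc]

lemma avg_cen {A : Type u} [CStarAlgebra A] {f : A →ₗ[ℂ] A} (hf : Avg ⊤ f) {z : A}
    (hz : Cen z) : f z = z := by
  obtain ⟨ι, _, _, w, hw, hf⟩ := hf
  have h1 : (Fintype.card ι : ℂ) ≠ 0 := by exact_mod_cast Fintype.card_ne_zero
  rw [hf, Finset.sum_congr rfl fun k _ => by
    rw [← hz, mul_assoc, Unitary.mul_star_self_of_mem (hw k).2, mul_one]]
  simp [← Nat.cast_smul_eq_nsmul ℂ, smul_smul, h1]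

lemma step (hS : SpecP.{u}) (hC : Cmp.{u}) {y : Al M} (hy : star y = y) :
    ∃ f, Avg ⊤ f ∧ ∃ z : Al M, Cen z ∧ star z = z ∧ ‖f y - z‖ ≤ 3 / 4 * ‖y‖ := by
  obtain ⟨e, he, hec, hpos, hneg⟩ := hS H M y 0 hy
  obtain ⟨z, v, w, hz, hv1, hv2, hw1, hw2⟩ := hC H M e (1 - e) he he.one_sub
  obtain ⟨u₁, hu₁, h₁⟩ := half he hz hv1 hv2
  obtain ⟨u₂, hu₂, h₂⟩ := half he.one_sub (CP.one_sub hz) hw1 (by rw [sub_sub_cancel, hw2])
  have hye : y * e = e * y := hec y rfl
  have hzz := hz.1.isIdempotentElem.eq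
  have hzs := hz.1.isSelfAdjoint.star_eq
  set u := z * u₁ + (1 - z) * u₂ with hudef
  have hsu : star u = z * star u₁ + (1 - z) * star u₂ := by
    rw [hudef, star_add, star_mul, star_mul, hzs, hz.1.one_sub.isSelfAdjoint.star_eq, hz.2,
      (CP.one_sub hz).2]
  have hprod : ∀ a b c d : Al M, (z * a + (1 - z) * b) * (z * c + (1 - z) * d) =
      z * (a * c) + (1 - z) * (b * d) := by
    intro a b c d
    have e1 : z * a * (z * c) = z * (a * c) := by
      rw [mul_assoc, ← mul_assoc a, ← hz.2 a, ← mul_assoc, ← mul_assoc, hzz, mul_assoc]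
    have e2 : z * a * ((1 - z) * d) = 0 := by
      rw [mul_assoc, ← mul_assoc a, ← (CP.one_sub hz).2 a, ← mul_assoc, ← mul_assoc,
        hz.1.mul_one_sub_self, zero_mul, zero_mul]
    have e3 : (1 - z) * b * (z * c) = 0 := by
      rw [mul_assoc, ← mul_assoc b, ← hz.2 b, ← mul_assoc, ← mul_assoc,
        hz.1.one_sub_mul_self, zero_mul, zero_mul]
    have e4 : (1 - z) * b * ((1 - z) * d) = (1 - z) * (b * d) := by
      rw [mul_assoc, ← mul_assoc b, ← (CP.one_sub hz).2 b, ← mul_assoc, ← mul_assoc,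
        hz.1.one_sub.isIdempotentElem.eq, mul_assoc]
    rw [add_mul, mul_add, mul_add, e1, e2, e3, e4]; abel
  have hu : u ∈ unitary (Al M) := by
    rw [Unitary.mem_iff, hsu, hudef, hprod, hprod, Unitary.star_mul_self_of_mem hu₁,
      Unitary.star_mul_self_of_mem hu₂, Unitary.mul_star_self_of_mem hu₁,
      Unitary.mul_star_self_of_mem hu₂]
    simp
  have hq : ∀ ξ, -(‖y‖ * ‖ap (1 - e) ξ‖ ^ 2) ≤ qf y ξ ∧ qf y ξ ≤ ‖y‖ * ‖ap e ξ‖ ^ 2 := by
    intro ξ
    have a1 := hpos (ap e ξ) (by rw [← ap_mul, he.isIdempotentElem.eq])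
    have a2 := hneg (ap (1 - e) ξ) (by rw [← ap_mul, he.mul_one_sub_self, ap_zero])
    have a3 := abs_le.1 (abs_qf_le y (ap e ξ))
    have a4 := abs_le.1 (abs_qf_le y (ap (1 - e) ξ))
    rw [qf_split he hye ξ]
    rw [zero_mul] at a1 a2
    unfold qf at *
    constructor <;> linarith [a3.1, a3.2, a4.1, a4.2]
  let r : ℂ := ((‖y‖ / 4 : ℝ) : ℂ)
  have hcen : Cen (r • ((1 - z) - z)) := fun x => by
    rw [smul_mul_assoc, mul_smul_comm, sub_mul, mul_sub x, (CP.one_sub hz).2, hz.2]
  have hst : star (r • ((1 - z) - z)) = r • ((1 - z) - z) := by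
    rw [star_smul, star_sub, star_sub, star_one, hzs]
    simp [r]
  have hA := Avg.mid (Avg.id (S := (⊤ : StarSubalgebra ℂ (Al M)))) (Avg.conj (by trivial) hu)
  refine ⟨_, hA, _, hcen, hst, ?_⟩
  set a := ((2⁻¹ : ℂ) • (LinearMap.id + LinearMap.mulRight ℂ (star u) ∘ₗ LinearMap.mulLeft ℂ u :
    Al M →ₗ[ℂ] Al M)) y - r • ((1 - z) - z) with ha
  have hsa : star a = a := by rw [ha, star_sub, avg_star hA, hy, hst]
  have hqa : ∀ ξ, qf a ξ = (qf y ξ + qf y (ap (star u) ξ)) / 2 -
      ‖y‖ / 4 * (‖ap (1 - z) ξ‖ ^ 2 - ‖ap z ξ‖ ^ 2) := by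
    intro ξ
    have b1 : ∀ p : Al M, IsStarProjection p → ⟪ξ, ap p ξ⟫_ℂ = ((‖ap p ξ‖ ^ 2 : ℝ) : ℂ) := by
      intro p hp
      rw [Complex.ofReal_pow, ← Complex.coe_algebraMap, ← inner_self_eq_norm_sq_to_K,
        inner_ap_left, hp.isSelfAdjoint.star_eq, ← ap_mul, hp.isIdempotentElem.eq]
    have b2 : ⟪ξ, ap (u * y * star u) ξ⟫_ℂ = ⟪ap (star u) ξ, ap y (ap (star u) ξ)⟫_ℂ := by
      rw [ap_mul, ap_mul, inner_ap_right]
    have b3 : a = (2⁻¹ : ℂ) • (y + u * y * star u) - r • ((1 - z) - z) := by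
      rw [ha]; simp
    rw [qf, b3, ap_sub, ap_smul, ap_smul, ap_add, ap_sub (1 - z), inner_sub_right,
      inner_smul_right, inner_smul_right, inner_add_right, inner_sub_right, b1 _ hz.1,
      b1 _ hz.1.one_sub, b2, qf, qf, ← Complex.ofReal_sub, ← Complex.ofReal_mul]
    simp only [Complex.sub_re, Complex.ofReal_re]
    have : (2⁻¹ : ℂ) = ((2⁻¹ : ℝ) : ℂ) := by simp
    rw [this, Complex.re_ofReal_mul, Complex.add_re]
    ring
  have hy0 := norm_nonneg y
  refine norm_le_of_qf hsa (by positivity) fun ξ => ?_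
  rw [qf_split hz.1 (hz.2 a).symm ξ, norm_sq_split hz.1 ξ]
  have c1 : |qf a (ap z ξ)| ≤ 3 / 4 * ‖y‖ * ‖ap z ξ‖ ^ 2 := by
    set η := ap z ξ
    have hη : ap z η = η := by rw [← ap_mul, hzz]
    have hη' : ap (1 - z) η = 0 := by rw [ap_sub, hη, ap_one, _root_.sub_self]
    have hu' : ap (star u) η = ap (star u₁) η := by
      rw [hsu, hz.2, (CP.one_sub hz).2, ap_add, ap_mul, ap_mul, hη, hη']
      simp [ap]
    have d1 := h₁ η hη
    have d2 := hq η
    have d3 := hq (ap (star u) η)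
    have d4 := abs_le.1 (abs_qf_le y η)
    have d5 := abs_le.1 (abs_qf_le y (ap (star u) η))
    rw [norm_ap_unitary (Unitary.star_mem hu)] at d5
    rw [hqa, hη, hη', norm_zero, abs_le]
    rw [← hu'] at d1
    have d6 := mul_le_mul_of_nonneg_left d1 hy0
    constructor <;> nlinarith [d2.2, d3.2, d4.1, d5.1]
  have c2 : |qf a (ap (1 - z) ξ)| ≤ 3 / 4 * ‖y‖ * ‖ap (1 - z) ξ‖ ^ 2 := by
    set η := ap (1 - z) ξ
    have hη : ap (1 - z) η = η := by rw [← ap_mul, hz.1.one_sub.isIdempotentElem.eq]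
    have hη' : ap z η = 0 := by rw [← ap_mul, hz.1.mul_one_sub_self, ap_zero]
    have hu' : ap (star u) η = ap (star u₂) η := by
      rw [hsu, hz.2, (CP.one_sub hz).2, ap_add, ap_mul, ap_mul, hη, hη']
      simp [ap]
    have d1 := h₂ η hη
    have d2 := hq η
    have d3 := hq (ap (star u) η)
    have d4 := abs_le.1 (abs_qf_le y η)
    have d5 := abs_le.1 (abs_qf_le y (ap (star u) η))
    rw [norm_ap_unitary (Unitary.star_mem hu)] at d5
    rw [hqa, hη, hη', norm_zero, abs_le]
    rw [← hu'] at d1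
    have d6 := mul_le_mul_of_nonneg_left d1 hy0
    constructor <;> nlinarith [d2.1, d3.1, d4.2, d5.2]
  refine (abs_add_le _ _).trans ?_
  linarith

lemma iter (hS : SpecP.{u}) (hC : Cmp.{u}) {y : Al M} (hy : star y = y) (n : ℕ) :
    ∃ f, Avg ⊤ f ∧ ∃ z : Al M, Cen z ∧ star z = z ∧ ‖f y - z‖ ≤ (3 / 4) ^ n * ‖y‖ := by
  induction n with
  | zero => exact ⟨_, Avg.id, 0, fun x => by simp, by simp, by simp⟩
  | succ n ih =>
    obtain ⟨f, hf, z, hz, hzs, h⟩ := ih
    obtain ⟨g, hg, z', hz', hzs', h'⟩ := step hS hC (y := f y - z)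
      (by rw [star_sub, avg_star hf, hy, hzs])
    refine ⟨_, hg.comp hf, z + z', fun x => by rw [add_mul, mul_add, hz, hz'],
      by rw [star_add, hzs, hzs'], ?_⟩
    rw [map_sub, avg_cen hg hz, sub_sub] at h'
    refine h'.trans ?_
    rw [pow_succ]
    nlinarith

lemma one_sa (hS : SpecP.{u}) (hC : Cmp.{u}) {y : Al M} (hy : star y = y) {ε : ℝ} (hε : 0 < ε) :
    ∃ f, Avg ⊤ f ∧ ∃ z : Al M, Cen z ∧ ‖f y - z‖ ≤ ε := by
  have h := (tendsto_pow_atTop_nhds_zero_of_lt_one (r := (3 / 4 : ℝ)) (by norm_num)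
    (by norm_num)).mul_const ‖y‖
  rw [zero_mul] at h
  obtain ⟨n, hn⟩ := (h.eventually (ge_mem_nhds hε)).exists
  obtain ⟨f, hf, z, hz, -, h⟩ := iter hS hC hy n
  exact ⟨f, hf, z, hz, h.trans hn⟩

lemma post {A : Type u} [CStarAlgebra A] {g : A →ₗ[ℂ] A} (hg : Avg ⊤ g) {x z : A} (hz : Cen z) :
    ‖g x - z‖ ≤ ‖x - z‖ := by
  have := hg.norm_le (x - z)
  rwa [map_sub, avg_cen hg hz] at this

lemma one_any (hS : SpecP.{u}) (hC : Cmp.{u}) (x : Al M) {ε : ℝ} (hε : 0 < ε) :
    ∃ f, Avg ⊤ f ∧ ∃ z : Al M, Cen z ∧ ‖f x - z‖ ≤ ε := by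
  obtain ⟨f, hf, z, hz, h⟩ := one_sa hS hC (realPart x).2.star_eq (half_pos hε)
  obtain ⟨g, hg, z', hz', h'⟩ := one_sa hS hC (y := f (imaginaryPart x))
    (by rw [avg_star hf, (imaginaryPart x).2.star_eq]) (half_pos hε)
  refine ⟨_, hg.comp hf, z + Complex.I • z', fun x => by
    rw [add_mul, mul_add, hz, smul_mul_assoc, mul_smul_comm, hz'], ?_⟩
  have e : (g ∘ₗ f) x - (z + Complex.I • z') =
      (g (f (realPart x)) - z) + Complex.I • (g (f (imaginaryPart x)) - z') := by
    conv_lhs => rw [← realPart_add_I_smul_imaginaryPart x]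
    simp only [LinearMap.comp_apply, map_add, map_smul, smul_sub]
    abel
  rw [e]
  refine (norm_add_le _ _).trans ?_
  rw [norm_smul, Complex.norm_I, one_mul]
  linarith [post hg (x := f (realPart x)) hz]

lemma exists_seq {α : Type*} (P : α → Prop) (r : α → α → Prop) (a₀ : α)
    (h : ∀ (n : ℕ) (s : ℕ → α), (∀ i < n, P (s i)) → (∀ i < n, ∀ j < i, r (s j) (s i)) →
      ∃ x, P x ∧ ∀ i < n, r (s i) x) :
    ∃ f : ℕ → α, (∀ n, P (f n)) ∧ ∀ i j, j < i → r (f j) (f i) := by
  classical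
  haveI : Nonempty α := ⟨a₀⟩
  choose! g hg using h
  let S : ℕ → ℕ → α := fun n => Nat.rec (fun _ => a₀) (fun n s => Function.update s n (g n s)) n
  have hS : ∀ n, S (n + 1) = Function.update (S n) n (g n (S n)) := fun n => rfl
  have h1 : ∀ n, ∀ i < n, S n i = g i (S i) := by
    intro n
    induction n with
    | zero => intro i hi; omega
    | succ n ih =>
      intro i hi
      rw [hS]
      rcases Nat.lt_succ_iff_lt_or_eq.1 hi with h | rfl
      · rw [Function.update_of_ne h.ne, ih i h]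
      · rw [Function.update_self]
  have h2 : ∀ n, (∀ i < n, P (g i (S i))) ∧ ∀ i < n, ∀ j < i, r (g j (S j)) (g i (S i)) := by
    intro n
    induction n with
    | zero => exact ⟨fun i hi => by omega, fun i hi => by omega⟩
    | succ n ih =>
      have := hg n (S n) (fun i hi => by rw [h1 n i hi]; exact ih.1 i hi)
        (fun i hi j hj => by rw [h1 n i hi, h1 n j (hj.trans hi)]; exact ih.2 i hi j hj)
      refine ⟨fun i hi => ?_, fun i hi j hj => ?_⟩
      · rcases Nat.lt_succ_iff_lt_or_eq.1 hi with h | rfl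
        exacts [ih.1 i h, this.1]
      · rcases Nat.lt_succ_iff_lt_or_eq.1 hi with h | rfl
        · exact ih.2 i h j hj
        · have := this.2 j hj
          rwa [h1 i j hj] at this
  exact ⟨fun n => g n (S n), fun n => (h2 (n + 1)).1 n n.lt_succ_self,
    fun i j hj => (h2 (i + 1)).2 i i.lt_succ_self j hj⟩

lemma no_seq (hSum : SumPI.{u}) {c₀ p : Al M} (hfin : FinP c₀) (hp : IsStarProjection p)
    (f : ℕ → Al M) (h1 : ∀ i, star (f i) * f i = p) (h2 : ∀ i, c₀ * f i = f i)
    (h3 : ∀ i j, i ≠ j → star (f i) * f j = 0) : p = 0 := by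
  have hpi : ∀ i, PI (f i) := fun i => pi_of_proj (by rw [h1]; exact hp)
  have hfp : ∀ i, f i * p = f i := fun i => by rw [← h1 i, ← mul_assoc]; exact hpi i
  have hpf : ∀ i, p * star (f i) = star (f i) := fun i => by
    rw [← hp.isSelfAdjoint.star_eq, ← star_mul, hfp]
  obtain ⟨v, hv, hs1, hs2⟩ := hSum H M (fun i => f (i + 1) * star (f i))
    (fun i => by
      simp only [PI, star_mul, star_star, mul_assoc]
      rw [← mul_assoc (star (f i)), h1, ← mul_assoc (star (f (i + 1))), h1, hpf, hpf])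
    (fun i j hij => by
      simp only [star_mul, star_star, mul_assoc]
      rw [← mul_assoc (star (f (i + 1))), h3 _ _ (by omega), zero_mul, mul_zero])
    (fun i j hij => by
      simp only [star_mul, star_star, mul_assoc]
      rw [← mul_assoc (star (f i)), h3 _ _ hij, zero_mul, mul_zero])
  have a1 : ∀ i, v * f i = f (i + 1) := fun i => by
    refine (hs1.wl.mul_right (f i)).eq_of_eventually (WL.const _ _) ?_
    filter_upwards [eventually_gt_atTop i] with n hn
    rw [Finset.sum_mul, Finset.sum_eq_single i (fun j _ hj => by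
      rw [mul_assoc, h3 _ _ hj, mul_zero]) (fun h => absurd (Finset.mem_range.2 hn) h),
      mul_assoc, h1, hfp]
  have a2 : ∀ i, star v * f (i + 1) = f i := fun i => by
    refine (hs2.wl.mul_right (f (i + 1))).eq_of_eventually (WL.const _ _) ?_
    filter_upwards [eventually_gt_atTop i] with n hn
    rw [Finset.sum_mul, Finset.sum_eq_single i (fun j _ hj => by
      rw [star_mul, star_star, mul_assoc, h3 _ _ (by omega), mul_zero])
      (fun h => absurd (Finset.mem_range.2 hn) h), star_mul, star_star, mul_assoc, h1, hfp]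
  have a3 : star v * f 0 = 0 := by
    refine (hs2.wl.mul_right (f 0)).eq_of_eventually (WL.const _ _) (Eventually.of_forall ?_)
    intro n
    rw [Finset.sum_mul]
    exact Finset.sum_eq_zero fun j _ => by
      rw [star_mul, star_star, mul_assoc, h3 _ _ (by omega), mul_zero]
  have a4 : c₀ * v = v := by
    refine (hs1.wl.mul_left c₀).eq_of_eventually hs1.wl (Eventually.of_forall fun n => ?_)
    rw [Finset.mul_sum]
    exact Finset.sum_congr rfl fun j _ => by rw [← mul_assoc, h2]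
  have a5 : star v * v * v = v := by
    refine (hs1.wl.mul_left (star v * v)).eq_of_eventually hs1.wl
      (Eventually.of_forall fun n => ?_)
    rw [Finset.mul_sum]
    exact Finset.sum_congr rfl fun j _ => by rw [← mul_assoc, mul_assoc (star v), a1, a2]
  have a6 := hfin v hv a4 a5
  have a7 : f 0 = 0 := by
    rw [← a2 0, ← a1 0, ← mul_assoc, ← a6, mul_assoc, a3, mul_zero]
  rw [← h1 0, a7, mul_zero]

end VN2
open VN2

theorem dixThmN (hS : SpecP.{u}) (hC : Cmp.{u}) : DixThmN.{u} := by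
  intro H _ _ _ M F ε hε
  have key : ∃ f, Avg ⊤ f ∧ ∀ x ∈ F, ∃ z : Al M, Cen z ∧ ‖f x - z‖ ≤ ε := by
    classical
    induction F using Finset.induction_on with
    | empty => exact ⟨_, Avg.id, fun x hx => by simp at hx⟩
    | insert a s ha ih =>
      obtain ⟨f, hf, h⟩ := ih
      obtain ⟨g, hg, z, hz, h'⟩ := one_any hS hC (f a) hε
      refine ⟨_, hg.comp hf, fun x hx => ?_⟩
      rcases Finset.mem_insert.1 hx with rfl | hx
      · exact ⟨z, hz, h'⟩
      · obtain ⟨z, hz, h⟩ := h x hx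
        exact ⟨z, hz, (post hg hz).trans h⟩
  obtain ⟨f, ⟨ι, _, _, w, hw, hf⟩, h⟩ := key
  refine ⟨ι, inferInstance, inferInstance, w, fun k => (hw k).2, fun x hx => ?_⟩
  obtain ⟨z, hz, h⟩ := h x hx
  exact ⟨z, hz, by rwa [hf] at h⟩

theorem cover (hC : Cmp.{u}) (hSum : SumPI.{u}) : Cover.{u} := by
  intro H _ _ _ M c₀ p hc₀ hfin hp hp0 hcp
  by_contra hcon
  obtain ⟨f, hf1, hf2⟩ := exists_seq (fun x : Al M => star x * x = p ∧ c₀ * x = x)
    (fun x y => star x * y = 0) 0 (fun n s hs1 hs2 => by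
      have horth : ∀ i < n, ∀ j < n, i ≠ j → star (s i) * s j = 0 := by
        intro i hi j hj hij
        rcases lt_or_gt_of_ne hij with h | h
        · exact hs2 j hj i h
        · have := congrArg star (hs2 i hi j h)
          simpa using this
      have hpi : ∀ i < n, PI (s i) := fun i hi => pi_of_proj (by rw [(hs1 i hi).1]; exact hp)
      set E := ∑ i ∈ Finset.range n, s i * star (s i) with hE
      have hEs : ∀ i < n, E * s i = s i := fun i hi => by
        rw [hE, Finset.sum_mul, Finset.sum_eq_single i (fun j hj hji => by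
          rw [mul_assoc, horth j (Finset.mem_range.1 hj) i hi hji, mul_zero])
          (fun h => absurd (Finset.mem_range.2 hi) h)]
        exact hpi i hi
      have hEE : E * E = E := by
        conv_lhs => rw [hE]
        rw [Finset.mul_sum, hE]
        refine Finset.sum_congr rfl fun i hi => ?_
        rw [← hE, ← mul_assoc, hEs i (Finset.mem_range.1 hi)]
      have hEst : star E = E := by rw [hE, star_sum]; simp
      have hcE : c₀ * E = E := by
        rw [hE, Finset.mul_sum]
        exact Finset.sum_congr rfl fun i hi => by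
          rw [← mul_assoc, (hs1 i (Finset.mem_range.1 hi)).2]
      have hcc := hc₀.1.isIdempotentElem.eq
      have hq : IsStarProjection (c₀ - E) := by
        refine ⟨?_, ?_⟩
        · rw [IsIdempotentElem, sub_mul, mul_sub, mul_sub, hcc, hcE, ← hc₀.2, hcE, hEE]; abel
        · rw [IsSelfAdjoint, star_sub, hEst, hc₀.1.isSelfAdjoint.star_eq]
      have hqs : ∀ i < n, (c₀ - E) * s i = 0 := fun i hi => by
        rw [sub_mul, hEs i hi, (hs1 i hi).2, _root_.sub_self]
      have hsq : ∀ i < n, star (s i) * (c₀ - E) = 0 := fun i hi => by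
        rw [← hq.isSelfAdjoint.star_eq, ← star_mul, hqs i hi, star_zero]
      obtain ⟨z, v, w, hz, hv1, hv2, hw1, hw2⟩ := hC H M p (c₀ - E) hp hq
      by_cases hzp : z * p = p
      · refine ⟨v, ⟨hv1.trans hzp, ?_⟩, fun i hi => ?_⟩
        · rw [← hv2, ← mul_assoc, mul_sub, hcc, hcE]
        · rw [← hv2, ← mul_assoc, hsq i hi, zero_mul]
      exfalso
      apply hcon
      have hc : CP ((1 - z) * c₀) := CP.mul (CP.one_sub hz) hc₀
      set c := (1 - z) * c₀ with hcdef
      have hcc' := hc.1.isIdempotentElem.eq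
      have hcs := hc.1.isSelfAdjoint.star_eq
      have hwpi : PI w := pi_of_proj (by
        rw [hw1]; exact hz.1.one_sub.mul hq ((CP.one_sub hz).2 _))
      have hws : ∀ i < n, w * s i = 0 := fun i hi => by
        have : w * (star w * w) = w := by rw [← mul_assoc]; exact hwpi
        rw [← this, hw1, mul_assoc, mul_assoc, hqs i hi, mul_zero, mul_zero]
      have hcpi : ∀ x : Al M, PI x → PI (c * x) := fun x hx => by
        rw [PI, star_mul, hcs, ← hc.2, mul_assoc c x, ← mul_assoc x, ← hc.2 x, mul_assoc c x,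
          ← mul_assoc c c, hcc', mul_assoc, ← mul_assoc _ c x, ← hc.2, mul_assoc c, ← mul_assoc c c,
          hcc', hx]
      have hcm : ∀ x y : Al M, star (c * x) * (c * y) = c * (star x * y) := fun x y => by
        rw [star_mul, hcs, mul_assoc, ← mul_assoc c c, hcc', ← mul_assoc, ← hc.2, mul_assoc]
      have hcm' : ∀ x : Al M, c * x * star (c * x) = c * (x * star x) := fun x => by
        rw [star_mul, hcs, ← hc.2, mul_assoc, ← mul_assoc x, ← hc.2 x, ← mul_assoc, ← mul_assoc,
          hcc', mul_assoc]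
      let t : ℕ → Al M := fun i => if i < n then s i else star w
      refine ⟨c, n + 1, fun i => c * t i, hc, fun h0 => hzp ?_, ?_, fun i => ?_,
        fun i j hij => ?_, ?_⟩
      · have : c * p = p - z * p := by rw [hcdef, mul_assoc, hcp, sub_mul, one_mul]
        rw [h0, zero_mul] at this
        exact (sub_eq_zero.1 this.symm).symm
      · rw [hcdef, ← mul_assoc, hc₀.2, mul_assoc, hcc]
      · by_cases hi : (i : ℕ) < n
        · simp only [t, if_pos hi]
          refine ⟨hcpi _ (hpi i hi), ?_⟩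
          rw [mul_assoc, ← (hs1 i hi).1, ← mul_assoc (s i), hpi i hi]
        · simp only [t, if_neg hi]
          refine ⟨hcpi _ (PI.star' hwpi), ?_⟩
          rw [mul_assoc, ← hp.isSelfAdjoint.star_eq, ← star_mul, hw2]
      · rw [hcm]
        have hij' : (i : ℕ) ≠ j := fun h => hij (Fin.ext h)
        have hi' := i.2
        have hj' := j.2
        by_cases hi : (i : ℕ) < n <;> by_cases hj : (j : ℕ) < n
        · simp only [t, if_pos hi, if_pos hj]
          rw [horth i hi j hj hij', mul_zero]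
        · simp only [t, if_pos hi, if_neg hj]
          rw [← star_mul, hws i hi, star_zero, mul_zero]
        · simp only [t, if_neg hi, if_pos hj]
          rw [star_star, hws j hj, mul_zero]
        · omega
      · simp only [hcm']
        rw [← Finset.mul_sum, Fin.sum_univ_eq_sum_range (fun i => t i * star (t i)) (n + 1),
          Finset.sum_range_succ, Finset.sum_congr rfl (g := fun i => s i * star (s i))
            (fun i hi => by simp only [t, if_pos (Finset.mem_range.1 hi)]), ← hE]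
        simp only [t, lt_irrefl, if_false, star_star, hw1]
        have : c * (1 - z) = c := by
          rw [hcdef, mul_assoc, hc₀.2, ← mul_assoc, hz.1.one_sub.isIdempotentElem.eq]
        rw [mul_add, ← mul_assoc, this, ← mul_add, add_sub_cancel, hcdef, mul_assoc, hcc])
  refine hp0 (no_seq hSum hfin hp f (fun i => (hf1 i).1) (fun i => (hf1 i).2) fun i j hij => ?_)
  rcases lt_or_gt_of_ne hij with h | h
  · exact hf2 j i h
  · have := congrArg star (hf2 i j h)
    simpa using this

end Crest.Agent.HH
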