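import Crest.Agent.HH.VN2
import Crest.Agent.H0164.A2

/-! Type I pieces or halving. -/

set_option autoImplicit false
open scoped ComplexConjugate InnerProductSpace BigOperators
open Filter Topology

namespace Crest.Agent.HH
open Crest.Agent.GEN VN2

universe u

namespace VN3

section alg
variable {A : Type u} [CStarAlgebra A]

lemma exists_atom {k : ℕ} (z : Fin k → A) (hz : ∀ i, CP (z i)) (s : Finset (Fin k)) {c : A}
    (hc : CP c) (hc0 : c ≠ 0) :
    ∃ d : A, CP d ∧ d ≠ 0 ∧ c * d = d ∧ ∀ i ∈ s, d * z i = d ∨ d * z i = 0 := by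
  classical
  induction s using Finset.induction_on with
  | empty => exact ⟨c, hc, hc0, hc.1.isIdempotentElem.eq, fun i hi => by simp at hi⟩
  | insert a s ha ih =>
    obtain ⟨d, hd, hd0, hcd, h⟩ := ih
    by_cases h0 : d * z a = 0
    · refine ⟨d, hd, hd0, hcd, fun i hi => ?_⟩
      rcases Finset.mem_insert.1 hi with rfl | hi
      exacts [Or.inr h0, h i hi]
    · refine ⟨d * z a, CP.mul hd (hz a), h0, by rw [← mul_assoc, hcd], fun i hi => ?_⟩
      rcases Finset.mem_insert.1 hi with rfl | hi
      · left; rw [mul_assoc, (hz i).1.isIdempotentElem.eq]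
      · rw [mul_assoc, (hz a).2, ← mul_assoc]
        rcases h i hi with h | h
        · left; rw [h]
        · right; rw [h, zero_mul]

lemma units {k : ℕ} (V : Fin k → A) {c R : A} (hc : Cen c)
    (h1 : ∀ i j, star (V i) * V j = if i = j then R else 0) (h2 : ∀ i, V i * R = V i)
    (hR : star R = R) (h3 : ∑ i, V i * star (V i) = c)
    (h4 : ∀ x y : A, R * x = x → x * R = x → R * y = y → y * R = y → x * y = y * x) :
    ∃ e : Fin k → Fin k → A, (∀ i j, star (e i j) = e j i) ∧
      (∀ i j i' j', e i j * e i' j' = if j = i' then e i j' else 0) ∧ ∑ i, e i i = c ∧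
      ∀ x : A, ∃ z : Fin k → Fin k → A, (∀ i j, Cen (z i j)) ∧
        c * x = ∑ i, ∑ j, z i j * e i j := by
  have h2' : ∀ i, R * star (V i) = star (V i) := fun i => by rw [← hR, ← star_mul, h2]
  have hcV : ∀ i, c * V i = V i := fun i => by
    rw [← h3, Finset.sum_mul, Finset.sum_eq_single i (fun j _ hj => by
      rw [mul_assoc, h1, if_neg hj, mul_zero]) (by simp), mul_assoc, h1, if_pos rfl, h2]
  have hVc : ∀ i, star (V i) * c = star (V i) := fun i => by
    rw [← h3, Finset.mul_sum, Finset.sum_eq_single i (fun j _ hj => by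
      rw [← mul_assoc, h1, if_neg hj.symm, zero_mul]) (by simp), ← mul_assoc, h1, if_pos rfl, h2']
  have ha : ∀ i j (x : A), R * (star (V i) * x * V j) = star (V i) * x * V j ∧
      star (V i) * x * V j * R = star (V i) * x * V j := fun i j x =>
    ⟨by rw [← mul_assoc, ← mul_assoc, h2'], by rw [mul_assoc, h2]⟩
  refine ⟨fun i j => V i * star (V j), fun i j => by simp, fun i j i' j' => ?_, h3, fun x =>
    ⟨fun i j => ∑ l, V l * (star (V i) * x * V j) * star (V l), fun i j y => ?_, ?_⟩⟩
  · rw [mul_assoc, ← mul_assoc (star (V j)), h1]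
    split_ifs with h
    · rw [h2']
    · rw [zero_mul, mul_zero]
  · obtain ⟨b1, b2⟩ := ha i j x
    beta_reduce
    generalize star (V i) * x * V j = a at b1 b2
    have e1 : (∑ l, V l * a * star (V l)) * y =
        ∑ l, ∑ m, V l * (a * (star (V l) * y * V m)) * star (V m) := by
      rw [Finset.sum_mul]
      refine Finset.sum_congr rfl fun l _ => ?_
      conv_lhs => rw [← hVc l, mul_assoc, mul_assoc (star (V l)), hc, ← h3]
      simp only [Finset.mul_sum, mul_assoc]
    have e2 : y * (∑ l, V l * a * star (V l)) =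
        ∑ l, ∑ m, V l * ((star (V l) * y * V m) * a) * star (V m) := by
      rw [Finset.sum_comm, Finset.mul_sum]
      refine Finset.sum_congr rfl fun m _ => ?_
      have : y * (V m * a * star (V m)) = c * y * (V m * a * star (V m)) := by
        rw [hc y, mul_assoc y, ← mul_assoc c, ← mul_assoc c, hcV]
      rw [this, ← h3]
      simp only [Finset.sum_mul, mul_assoc]
    rw [e1, e2]
    refine Finset.sum_congr rfl fun l _ => Finset.sum_congr rfl fun m _ => ?_
    rw [h4 a _ b1 b2 (ha l m y).1 (ha l m y).2]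
  · have e0 : c * x = c * x * c := by
      have : c * c = c := by
        conv_lhs => rw [← h3]
        rw [Finset.mul_sum, ← h3]
        exact Finset.sum_congr rfl fun i _ => by rw [h3, ← mul_assoc, hcV]
      rw [mul_assoc, ← hc, ← mul_assoc, this]
    rw [e0, ← h3, Finset.sum_mul, Finset.sum_mul]
    refine Finset.sum_congr rfl fun i _ => ?_
    rw [Finset.mul_sum]
    refine Finset.sum_congr rfl fun j _ => ?_
    beta_reduce
    rw [Finset.sum_mul, Finset.sum_eq_single i (fun l _ hl => by
      rw [mul_assoc, ← mul_assoc (star (V l)), h1, if_neg hl, zero_mul, mul_zero]) (by simp),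
      mul_assoc _ (star (V i)) (V i * star (V j)), ← mul_assoc (star (V i)) (V i), h1, if_pos rfl,
      h2']
    simp only [mul_assoc]

end alg

variable {H : Type u} [NormedAddCommGroup H] [InnerProductSpace ℂ H] [CompleteSpace H]
variable {M : VonNeumannAlgebra H}

lemma typeI (hCov : Cover.{u}) (hS : CSupp.{u}) {c₀ r : Al M} (hc₀ : CP c₀) (hfin : FinP c₀)
    (hr : IsStarProjection r) (hr0 : r ≠ 0) (hcr : c₀ * r = r)
    (hcom : ∀ x y : Al M, r * x = x → x * r = x → r * y = y → y * r = y → x * y = y * x) :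
    ∃ (c : Al M) (k : ℕ) (e : Fin k → Fin k → Al M), CP c ∧ c ≠ 0 ∧ c₀ * c = c ∧
      (∀ i j, star (e i j) = e j i) ∧
      (∀ i j i' j', e i j * e i' j' = if j = i' then e i j' else 0) ∧ ∑ i, e i i = c ∧
      ∀ x : Al M, ∃ z : Fin k → Fin k → Al M, (∀ i j, Cen (z i j)) ∧
        c * x = ∑ i, ∑ j, z i j * e i j := by
  classical
  obtain ⟨c', k, v, hc', hc'0, hcc', hv, horth, hsum⟩ := hCov H M c₀ r hc₀ hfin hr hr0 hcr
  have hrr := hr.isIdempotentElem.eq
  have hrs := hr.isSelfAdjoint.star_eq
  have hz : ∀ i, ∃ z : Al M, CP z ∧ r * z = star (v i) * v i := fun i => by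
    obtain ⟨z, hz, h1, h2⟩ := hS H M (star (v i) * v i)
    have hp := PI.proj_right (hv i).1
    have a1 : star (v i) * v i * r = star (v i) * v i := by rw [mul_assoc, (hv i).2]
    have a2 : r * (star (v i) * v i) = star (v i) * v i := by
      have := congrArg star a1
      rwa [star_mul, hrs, hp.isSelfAdjoint.star_eq] at this
    refine ⟨z, hz, ?_⟩
    generalize star (v i) * v i = p at *
    have a3 := h2 (r - p) fun m => by
      have b1 : (r - p) * r = r - p := by rw [sub_mul, hrr, a1]
      have b2 := hcom (r * m * r) p (by rw [← mul_assoc, ← mul_assoc, hrr])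
        (by rw [mul_assoc, hrr]) a2 a1
      calc (r - p) * m * p = (r - p) * r * m * (r * p) := by rw [b1, a2]
        _ = (r - p) * (r * m * r * p) := by simp only [mul_assoc]
        _ = 0 := by rw [b2, ← mul_assoc, sub_mul, a2, hp.isIdempotentElem.eq, _root_.sub_self,
          zero_mul]
    rw [sub_mul, ← hz.2 p, h1] at a3
    exact sub_eq_zero.1 a3
  choose z hz hrz using hz
  obtain ⟨c, hc, hc0, hcc, hd⟩ := exists_atom z hz Finset.univ hc' hc'0
  have hcc2 := hc.1.isIdempotentElem.eq
  have hcs := hc.1.isSelfAdjoint.star_eq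
  let I := {i : Fin k // c * z i = c}
  let σ := (Fintype.equivFin I).symm
  have hcm : ∀ x y : Al M, star (c * x) * (c * y) = c * (star x * y) := fun x y => by
    rw [star_mul, hcs, mul_assoc, ← mul_assoc c c, hcc2, ← mul_assoc, ← hc.2, mul_assoc]
  have hcm' : ∀ x : Al M, c * x * star (c * x) = c * (x * star x) := fun x => by
    rw [star_mul, hcs, ← hc.2, mul_assoc, ← mul_assoc x, ← hc.2 x, ← mul_assoc, ← mul_assoc,
      hcc2, mul_assoc]
  obtain ⟨e, he1, he2, he3, he4⟩ := units (fun i => c * v (σ i)) (c := c) (R := c * r) hc.2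
    (fun i j => by
      rw [hcm]
      split_ifs with h
      · subst h
        rw [← hrz, ← (hz _).2, ← mul_assoc, (σ i).2]
      · rw [horth _ _ (fun h' => h (σ.injective (Subtype.ext h'))), mul_zero])
    (fun i => by rw [mul_assoc, ← mul_assoc (v _), ← hc.2, mul_assoc, ← mul_assoc c c, hcc2,
      (hv _).2])
    (by rw [star_mul, hrs, hcs, hc.2])
    (by
      simp only [hcm']
      rw [Equiv.sum_comp σ (fun i : I => c * (v i * star (v i))),
        ← Finset.sum_subtype (Finset.univ.filter fun i => c * z i = c) (by simp)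
          (fun i => c * (v i * star (v i))), Finset.sum_filter_of_ne, ← Finset.mul_sum, hsum,
        ← hc'.2, hcc]
      intro i _ hne
      rcases hd i (Finset.mem_univ i) with h | h
      · exact h
      · exfalso
        apply hne
        have : v i * (star (v i) * v i) = v i := by rw [← mul_assoc]; exact (hv i).1
        rw [← mul_assoc, hc.2 (v i), ← this, ← hrz, mul_assoc (v i) _ c, mul_assoc r, (hz i).2, h]
        simp)
    (fun x y a1 a2 a3 a4 => by
      have b : ∀ x : Al M, c * r * x = x → r * x = x := fun x hx => by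
        rw [← hx, hc.2, ← mul_assoc, ← mul_assoc, hrr]
      have b' : ∀ x : Al M, x * (c * r) = x → x * r = x := fun x hx => by
        rw [← hx, mul_assoc, mul_assoc, hrr]
      exact hcom x y (b x a1) (b' x a2) (b y a3) (b' y a4))
  exact ⟨c, _, e, hc, hc0, by rw [← hcc, ← mul_assoc, hcc'], he1, he2, he3, he4⟩

end VN3
open VN3

theorem dich (hCov : Cover.{u}) (hS : CSupp.{u}) (hMax : MaxPI.{u}) (hPol : Polar.{u}) :
    Dich.{u} := by
  intro H _ _ _ M c₀ hc₀ hfin
  by_cases hA : ∃ r : Al M, IsStarProjection r ∧ r ≠ 0 ∧ c₀ * r = r ∧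
      ∀ x y : Al M, r * x = x → x * r = x → r * y = y → y * r = y → x * y = y * x
  · obtain ⟨r, hr, hr0, hcr, hcom⟩ := hA
    exact Or.inr (typeI hCov hS hc₀ hfin hr hr0 hcr hcom)
  left
  intro p hp hcp
  obtain ⟨w, ⟨hw1, hw2, hw3, hw4⟩, hmax⟩ := hMax H M 1
    {w | PI (w 0) ∧ p * w 0 = w 0 ∧ w 0 * p = w 0 ∧ w 0 * w 0 = 0}
    (fun w hw i => by rw [Subsingleton.elim i 0]; exact hw.1)
    ⟨fun _ => 0, by simp [PI]⟩
    (fun 𝓕 _ h𝓕 v hv => by
      obtain ⟨h1, h2, -⟩ := hv 0
      refine ⟨h1, ?_, ?_, ?_⟩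
      · exact (h2.wl.mul_left p).eq_of_eventually h2.wl
          (Filter.mem_of_superset h𝓕 fun w hw => hw.2.1)
      · exact (h2.wl.mul_right p).eq_of_eventually h2.wl
          (Filter.mem_of_superset h𝓕 fun w hw => hw.2.2.1)
      · exact (h2.mul h2 (B := 1) (Filter.mem_of_superset h𝓕 fun w hw => hw.1.norm_le)
          ).eq_of_eventually (SL.const _ _) (Filter.mem_of_superset h𝓕 fun w hw => hw.2.2.2))
  set v := w 0 with hvdef
  refine ⟨v, hw1, hw4, ?_⟩
  have hpp := hp.isIdempotentElem.eq
  have hps := hp.isSelfAdjoint.star_eq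
  have h1 : v * (star v * v) = v := by rw [← mul_assoc]; exact hw1
  have h2 : star v * (v * star v) = star v := by
    have := PI.star' hw1
    simpa [PI, mul_assoc] using this
  have h3 : star v * star v = 0 := by rw [← star_mul, hw4, star_zero]
  have h4 : p * star v = star v := by rw [← hps, ← star_mul, hw3]
  have h5 : star v * p = star v := by rw [← hps, ← star_mul, hw2]
  set r := p - star v * v - v * star v with hr
  have hrs : star r = r := by simp only [hr, star_sub, star_mul, star_star, hps]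
  have hrv : r * v = 0 := by
    rw [hr, sub_mul, sub_mul, hw2, mul_assoc, hw4, mul_zero, mul_assoc, h1]; simp
  have hvr : v * r = 0 := by
    rw [hr, mul_sub, mul_sub, hw3, h1, ← mul_assoc, hw4, zero_mul]; simp
  have hrv' : r * star v = 0 := by rw [← hrs, ← star_mul, hvr, star_zero]
  have hvr' : star v * r = 0 := by rw [← hrs, ← star_mul, hrv, star_zero]
  have hpr : p * r = r := by
    rw [hr, mul_sub, mul_sub, hpp, ← mul_assoc, h4, ← mul_assoc, hw2]
  have hrp : r * p = r := by
    rw [hr, sub_mul, sub_mul, hpp, mul_assoc, hw3, mul_assoc, h5]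
  have hrr : r * r = r := by
    conv_lhs => enter [2]; rw [hr]
    rw [mul_sub, mul_sub, hrp, ← mul_assoc, hrv', ← mul_assoc, hrv]; simp
  by_contra hne
  have hr0 : r ≠ 0 := fun h => hne (by
    rw [hr, sub_sub] at h
    exact (sub_eq_zero.1 h).symm)
  have hnil : ∀ y : Al M, r * y = y → y * r = y → y * y = 0 → y = 0 := by
    intro y b1 b2 b3
    obtain ⟨u, g, hu, -, hy, -, hl, hrt⟩ := hPol H M y
    have c1 : r * u = u := by
      have := hl (1 - r) (by rw [sub_mul, one_mul, b1, _root_.sub_self])
      rw [sub_mul, one_mul] at this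
      exact (sub_eq_zero.1 this).symm
    have c2 : u * r = u := by
      have := hrt (1 - r) (by rw [mul_sub, mul_one, b2, _root_.sub_self])
      rw [mul_sub, mul_one] at this
      exact (sub_eq_zero.1 this).symm
    have c3 : u * u = 0 := hrt u (hl y b3)
    have c4 : r * star u = star u := by rw [← hrs, ← star_mul, c2]
    have c5 : star u * r = star u := by rw [← hrs, ← star_mul, c1]
    have d1 : v * u = 0 := by rw [← c1, ← mul_assoc, hvr, zero_mul]
    have d2 : u * v = 0 := by rw [← c2, mul_assoc, hrv, mul_zero]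
    have d3 : v * star u = 0 := by rw [← c4, ← mul_assoc, hvr, zero_mul]
    have d4 : u * star v = 0 := by rw [← c2, mul_assoc, hrv', mul_zero]
    have d5 : star v * u = 0 := by rw [← c1, ← mul_assoc, hvr', zero_mul]
    have d6 : star u * v = 0 := by rw [← c5, mul_assoc, hrv, mul_zero]
    have := hmax (fun _ => v + u) ⟨?_, ?_, ?_, ?_⟩ (fun i => ?_)
    · have h6 : v + u = v := congrFun this 0
      rw [hy, show u = 0 by simpa using h6, zero_mul]
    · have e1 : u * (star u * u) = u := by rw [← mul_assoc]; exact hu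
      simp only [PI, star_add, mul_add, add_mul, d3, d4, mul_assoc, d5, d6, h1, e1, mul_zero,
        zero_mul, add_zero, zero_add]
    · show p * (v + u) = v + u
      rw [mul_add, hw2, ← c1, ← mul_assoc, hpr]
    · show (v + u) * p = v + u
      rw [add_mul, hw3, ← c2, mul_assoc, hrp]
    · show (v + u) * (v + u) = 0
      simp only [mul_add, add_mul, hw4, d1, d2, c3, add_zero]
    · rw [Subsingleton.elim i 0, ← hvdef, add_mul, h1, ← mul_assoc, d4, zero_mul, add_zero]
  refine hA ⟨r, ⟨hrr, hrs⟩, hr0, by rw [← hpr, ← mul_assoc, hcp], fun x y a1 a2 a3 a4 => ?_⟩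
  exact Subtype.ext (H0164.comm_of_no_nilpotent M (p := (r : H →L[ℂ] H))
    (congrArg Subtype.val hrs) (fun y hy b1 b2 b3 => congrArg Subtype.val
      (hnil ⟨y, hy⟩ (Subtype.ext b1) (Subtype.ext b2) (Subtype.ext b3))) x x.2 y y.2
    (congrArg Subtype.val a1) (congrArg Subtype.val a2) (congrArg Subtype.val a3)
    (congrArg Subtype.val a4))

end Crest.Agent.HH
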