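import Crest.Agent.HH.Mean

/-! Weak and strong operator limits in a von Neumann algebra. -/

set_option autoImplicit false
open scoped ComplexConjugate InnerProductSpace BigOperators
open Filter Topology

namespace Crest.Agent.HH
open Crest.Agent.GEN

universe u v w

variable {H : Type u} [NormedAddCommGroup H] [InnerProductSpace ℂ H] [CompleteSpace H]
variable {M : VonNeumannAlgebra H}

@[simp] lemma ap_mul (a b : Al M) (ξ : H) : ap (a * b) ξ = ap a (ap b ξ) := rfl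
@[simp] lemma ap_add (a b : Al M) (ξ : H) : ap (a + b) ξ = ap a ξ + ap b ξ := rfl
@[simp] lemma ap_sub (a b : Al M) (ξ : H) : ap (a - b) ξ = ap a ξ - ap b ξ := rfl
@[simp] lemma ap_neg (a : Al M) (ξ : H) : ap (-a) ξ = -ap a ξ := rfl
@[simp] lemma ap_smul (c : ℂ) (a : Al M) (ξ : H) : ap (c • a) ξ = c • ap a ξ := rfl
@[simp] lemma ap_rsmul (c : ℝ) (a : Al M) (ξ : H) : ap (c • a) ξ = c • ap a ξ := rfl
@[simp] lemma ap_one (ξ : H) : ap (1 : Al M) ξ = ξ := rfl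
@[simp] lemma ap_zero (ξ : H) : ap (0 : Al M) ξ = 0 := rfl
lemma ap_sum {ι : Type*} (s : Finset ι) (a : ι → Al M) (ξ : H) :
    ap (∑ i ∈ s, a i) ξ = ∑ i ∈ s, ap (a i) ξ := by
  classical
  induction s using Finset.induction_on with
  | empty => simp
  | insert i s hi ih => rw [Finset.sum_insert hi, Finset.sum_insert hi, ap_add, ih]

lemma ap_le (a : Al M) (ξ : H) : ‖ap a ξ‖ ≤ ‖a‖ * ‖ξ‖ := (a : H →L[ℂ] H).le_opNorm ξ

lemma norm_le_of_ap {a : Al M} {B : ℝ} (hB : 0 ≤ B) (h : ∀ ξ, ‖ap a ξ‖ ≤ B * ‖ξ‖) : ‖a‖ ≤ B :=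
  (a : H →L[ℂ] H).opNorm_le_bound hB h

lemma inner_ap_left (a : Al M) (η ξ : H) : ⟪ap a η, ξ⟫_ℂ = ⟪η, ap (star a) ξ⟫_ℂ := by
  change ⟪(a : H →L[ℂ] H) η, ξ⟫_ℂ = ⟪η, (star (a : H →L[ℂ] H)) ξ⟫_ℂ
  rw [ContinuousLinearMap.star_eq_adjoint, ContinuousLinearMap.adjoint_inner_right]

lemma inner_ap_right (a : Al M) (η ξ : H) : ⟪η, ap a ξ⟫_ℂ = ⟪ap (star a) η, ξ⟫_ℂ := by
  rw [inner_ap_left, star_star]

lemma ap_ext {a b : Al M} (h : ∀ ξ, ap a ξ = ap b ξ) : a = b :=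
  Subtype.ext (ContinuousLinearMap.ext h)

lemma ap_ext_inner {a b : Al M} (h : ∀ η ξ, ⟪η, ap a ξ⟫_ℂ = ⟪η, ap b ξ⟫_ℂ) : a = b :=
  ap_ext fun ξ => ext_inner_left ℂ fun η => h η ξ

lemma inner_ap_le (a : Al M) (η ξ : H) : ‖⟪η, ap a ξ⟫_ℂ‖ ≤ ‖η‖ * (‖a‖ * ‖ξ‖) :=
  (norm_inner_le_norm _ _).trans (mul_le_mul_of_nonneg_left (ap_le a ξ) (norm_nonneg _))

lemma norm_le_of_inner {a : Al M} {B : ℝ} (hB : 0 ≤ B)
    (h : ∀ η ξ, ‖⟪η, ap a ξ⟫_ℂ‖ ≤ ‖η‖ * (B * ‖ξ‖)) : ‖a‖ ≤ B := by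
  refine norm_le_of_ap hB fun ξ => ?_
  have := h (ap a ξ) ξ
  rw [inner_self_eq_norm_sq_to_K, norm_pow, RCLike.norm_ofReal, abs_norm, sq] at this
  rcases (norm_nonneg (ap a ξ)).eq_or_lt with h0 | h0
  · rw [← h0]; positivity
  · exact le_of_mul_le_mul_left this h0

section WL
variable {I : Type v} {𝓕 : Filter I} {x y : I → Al M} {a b : Al M}

lemma WL.const (𝓕 : Filter I) (a : Al M) : WL 𝓕 (fun _ => a) a := fun _ _ => tendsto_const_nhds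

lemma WL.unique [𝓕.NeBot] (h : WL 𝓕 x a) (h' : WL 𝓕 x b) : a = b :=
  ap_ext_inner fun η ξ => tendsto_nhds_unique (h η ξ) (h' η ξ)

lemma WL.add (h : WL 𝓕 x a) (h' : WL 𝓕 y b) : WL 𝓕 (fun i => x i + y i) (a + b) := fun η ξ => by
  simpa only [ap_add, inner_add_right] using (h η ξ).add (h' η ξ)

lemma WL.sub (h : WL 𝓕 x a) (h' : WL 𝓕 y b) : WL 𝓕 (fun i => x i - y i) (a - b) := fun η ξ => by
  simpa only [ap_sub, inner_sub_right] using (h η ξ).sub (h' η ξ)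

lemma WL.neg (h : WL 𝓕 x a) : WL 𝓕 (fun i => -x i) (-a) := fun η ξ => by
  simpa only [ap_neg, inner_neg_right] using (h η ξ).neg

lemma WL.smul (h : WL 𝓕 x a) (c : ℂ) : WL 𝓕 (fun i => c • x i) (c • a) := fun η ξ => by
  simpa only [ap_smul, inner_smul_right] using (h η ξ).const_mul c

lemma WL.mul_left (h : WL 𝓕 x a) (m : Al M) : WL 𝓕 (fun i => m * x i) (m * a) := fun η ξ => by
  simpa only [ap_mul, inner_ap_right m] using h (ap (star m) η) ξ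

lemma WL.mul_right (h : WL 𝓕 x a) (m : Al M) : WL 𝓕 (fun i => x i * m) (a * m) :=
  fun η ξ => h η (ap m ξ)

lemma WL.star (h : WL 𝓕 x a) : WL 𝓕 (fun i => star (x i)) (star a) := fun η ξ => by
  simpa only [← inner_ap_left, ← inner_conj_symm (ap _ η) ξ, Function.comp_def] using
    (Complex.continuous_conj.tendsto _).comp (h ξ η)

lemma WL.sum {ι : Type*} (s : Finset ι) {x : ι → I → Al M} {a : ι → Al M}
    (h : ∀ j ∈ s, WL 𝓕 (x j) (a j)) : WL 𝓕 (fun i => ∑ j ∈ s, x j i) (∑ j ∈ s, a j) :=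
  fun η ξ => by
    simpa only [ap_sum, inner_sum] using tendsto_finsetSum s fun j hj => h j hj η ξ

lemma WL.congr (h : WL 𝓕 x a) (h' : ∀ᶠ i in 𝓕, x i = y i) : WL 𝓕 y a := fun η ξ =>
  (h η ξ).congr' (h'.mono fun i hi => by simp only [hi])

/-- Eventual equality passes to weak limits. -/
lemma WL.eq_of_eventually [𝓕.NeBot] (h : WL 𝓕 x a) (h' : WL 𝓕 y b)
    (he : ∀ᶠ i in 𝓕, x i = y i) : a = b := (h.congr he).unique h'

lemma WL.mono {𝓖 : Filter I} (h : WL 𝓕 x a) (hle : 𝓖 ≤ 𝓕) : WL 𝓖 x a := fun η ξ =>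
  (h η ξ).mono_left hle

lemma WL.comp {J : Type w} {𝓖 : Filter J} {f : J → I} (h : WL 𝓕 x a) (hf : Tendsto f 𝓖 𝓕) :
    WL 𝓖 (fun j => x (f j)) a := fun η ξ => (h η ξ).comp hf

lemma WL.norm_le [𝓕.NeBot] (h : WL 𝓕 x a) {B : ℝ} (hB : ∀ᶠ i in 𝓕, ‖x i‖ ≤ B) : ‖a‖ ≤ B := by
  have h0 : 0 ≤ B := by
    obtain ⟨i, hi⟩ := hB.exists
    exact (norm_nonneg _).trans hi
  refine norm_le_of_inner h0 fun η ξ => le_of_tendsto (h η ξ).norm (hB.mono fun i hi => ?_)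
  exact (inner_ap_le _ _ _).trans (by gcongr)

lemma SL.wl (h : SL 𝓕 x a) : WL 𝓕 x a := fun η ξ => tendsto_const_nhds.inner (h ξ)

lemma SL.const (𝓕 : Filter I) (a : Al M) : SL 𝓕 (fun _ => a) a := fun _ => tendsto_const_nhds

lemma SL.add (h : SL 𝓕 x a) (h' : SL 𝓕 y b) : SL 𝓕 (fun i => x i + y i) (a + b) :=
  fun ξ => (h ξ).add (h' ξ)

lemma SL.sub (h : SL 𝓕 x a) (h' : SL 𝓕 y b) : SL 𝓕 (fun i => x i - y i) (a - b) :=
  fun ξ => (h ξ).sub (h' ξ)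

lemma SL.mul (h : SL 𝓕 x a) (h' : SL 𝓕 y b) {B : ℝ} (hB : ∀ᶠ i in 𝓕, ‖x i‖ ≤ B) :
    SL 𝓕 (fun i => x i * y i) (a * b) := fun ξ => by
  have h1 : Tendsto (fun i => ap (x i) (ap (y i) ξ - ap b ξ)) 𝓕 (𝓝 0) := by
    have h2 : Tendsto (fun i => B * ‖ap (y i) ξ - ap b ξ‖) 𝓕 (𝓝 0) := by
      simpa using (tendsto_iff_norm_sub_tendsto_zero.1 (h' ξ)).const_mul B
    refine squeeze_zero_norm' (hB.mono fun i hi => ?_) h2
    exact (ap_le _ _).trans (by gcongr)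
  have := h1.add (h (ap b ξ))
  rw [zero_add] at this
  refine this.congr fun i => ?_
  simp only [ap, map_sub, sub_add_cancel]; rfl

lemma SL.eq_of_eventually [𝓕.NeBot] (h : SL 𝓕 x a) (h' : SL 𝓕 y b)
    (he : ∀ᶠ i in 𝓕, x i = y i) : a = b := h.wl.eq_of_eventually h'.wl he

lemma SL.mono {𝓖 : Filter I} (h : SL 𝓕 x a) (hle : 𝓖 ≤ 𝓕) : SL 𝓖 x a := fun ξ =>
  (h ξ).mono_left hle

lemma SL.comp {J : Type w} {𝓖 : Filter J} {f : J → I} (h : SL 𝓕 x a) (hf : Tendsto f 𝓖 𝓕) :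
    SL 𝓖 (fun j => x (f j)) a := fun ξ => (h ξ).comp hf

end WL

lemma PI.norm_le {A : Type u} [CStarAlgebra A] {v : A} (hv : PI v) : ‖v‖ ≤ 1 := by
  have h : IsStarProjection (star v * v) :=
    ⟨by rw [IsIdempotentElem, mul_assoc, ← mul_assoc v, hv], IsSelfAdjoint.star_mul_self v⟩
  have h1 := h.norm_le
  rw [CStarRing.norm_star_mul_self] at h1
  nlinarith [norm_nonneg v]

/-- Bounded families have weak ultralimits in `M`. -/
theorem wotLim {I : Type v} (𝒰 : Ultrafilter I) (x : I → Al M) (B : ℝ)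
    (hx : ∀ᶠ i in (𝒰 : Filter I), ‖x i‖ ≤ B) : ∃ a : Al M, ‖a‖ ≤ B ∧ WL 𝒰 x a := by
  have h0 : 0 ≤ B := by
    obtain ⟨i, hi⟩ := hx.exists
    exact (norm_nonneg _).trans hi
  have hb : ∀ ξ η : H, ∀ᶠ i in (𝒰 : Filter I), ‖⟪ap (x i) ξ, η⟫_ℂ‖ ≤ B * ‖ξ‖ * ‖η‖ :=
    fun ξ η => hx.mono fun i hi => (norm_inner_le_norm _ _).trans (by
      gcongr; exact (ap_le _ _).trans (by gcongr))
  have hex : ∀ ξ η : H, ∃ c, Tendsto (fun i => ⟪ap (x i) ξ, η⟫_ℂ) 𝒰 (𝓝 c) := fun ξ η => by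
    obtain ⟨c, -, hc⟩ := (isCompact_closedBall (0 : ℂ) (B * ‖ξ‖ * ‖η‖)).ultrafilter_le_nhds
      (𝒰.map fun i => ⟪ap (x i) ξ, η⟫_ℂ) (by
        rw [Ultrafilter.coe_map, le_principal_iff, mem_map]
        exact (hb ξ η).mono fun i hi => by simpa using hi)
    exact ⟨c, hc⟩
  choose l hl using hex
  have hlb : ∀ ξ η, ‖l ξ η‖ ≤ B * ‖ξ‖ * ‖η‖ := fun ξ η => le_of_tendsto (hl ξ η).norm (hb ξ η)
  let f : H → StrongDual ℂ H := fun ξ => LinearMap.mkContinuous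
    { toFun := l ξ
      map_add' := fun η η' => tendsto_nhds_unique (hl ξ _) (by
        simpa only [inner_add_right] using (hl ξ η).add (hl ξ η'))
      map_smul' := fun c η => tendsto_nhds_unique (hl ξ _) (by
        simpa only [inner_smul_right, RingHom.id_apply, smul_eq_mul] using
          (hl ξ η).const_mul c) } (B * ‖ξ‖) (hlb ξ)
  let g : H → H := fun ξ => (InnerProductSpace.toDual ℂ H).symm (f ξ)
  have hg : ∀ ξ η, Tendsto (fun i => ⟪ap (x i) ξ, η⟫_ℂ) 𝒰 (𝓝 ⟪g ξ, η⟫_ℂ) := fun ξ η => by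
    rw [InnerProductSpace.toDual_symm_apply]; exact hl ξ η
  have hg' : ∀ η ξ, Tendsto (fun i => ⟪η, ap (x i) ξ⟫_ℂ) 𝒰 (𝓝 ⟪η, g ξ⟫_ℂ) := fun η ξ => by
    simpa only [← inner_conj_symm η, Function.comp_def] using
      (Complex.continuous_conj.tendsto _).comp (hg ξ η)
  have hgb : ∀ ξ, ‖g ξ‖ ≤ B * ‖ξ‖ := fun ξ => by
    rw [LinearIsometryEquiv.norm_map]
    exact LinearMap.mkContinuous_norm_le _ (by positivity) _
  let a : H →L[ℂ] H := LinearMap.mkContinuous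
    { toFun := g
      map_add' := fun ξ ξ' => ext_inner_left ℂ fun η => tendsto_nhds_unique (hg' η _) (by
        simpa only [ap, map_add, inner_add_right] using (hg' η ξ).add (hg' η ξ'))
      map_smul' := fun c ξ => ext_inner_left ℂ fun η => tendsto_nhds_unique (hg' η _) (by
        simpa only [ap, map_smul, inner_smul_right, RingHom.id_apply] using
          (hg' η ξ).const_mul c) } B hgb
  have ha : a ∈ M := by
    rw [vn_mem_iff]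
    intro y hy
    ext ξ
    refine ext_inner_left ℂ fun η => tendsto_nhds_unique ?_ (hg' η (y ξ))
    have := hg' (ContinuousLinearMap.adjoint y η) ξ
    simp only [ContinuousLinearMap.adjoint_inner_left] at this
    refine this.congr fun i => ?_
    have h := (vn_mem_iff M _).1 (x i).2 y hy
    rw [show y (ap (x i) ξ) = ap (x i) (y ξ) from congrArg (fun T : H →L[ℂ] H => T ξ) h]
  exact ⟨⟨a, ha⟩, norm_le_of_ap h0 hgb, hg'⟩

section emb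
variable {ι : Type u}

lemma emb_injective : Function.Injective (emb : (ι → Al M → Al M) → _) := fun ψ φ h => by
  ext1 i; ext1 a
  exact ap_ext_inner fun η ξ => congrFun h (i, a, η, ξ)

lemma emb_add (ψ φ : ι → Al M → Al M) : emb (ψ + φ) = emb ψ + emb φ := by
  ext j; simp [emb]

lemma emb_smul (t : ℝ) (ψ : ι → Al M → Al M) : emb (t • ψ) = t • emb ψ := by
  ext j
  simp only [emb, Pi.smul_apply, ap_rsmul]
  rw [← Complex.coe_smul, inner_smul_right, Complex.real_smul]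

lemma emb_convex {𝒦 : Set (ι → Al M → Al M)} (h : Convex ℝ 𝒦) : Convex ℝ (emb '' 𝒦) := by
  rintro _ ⟨ψ, hψ, rfl⟩ _ ⟨φ, hφ, rfl⟩ a b ha hb hab
  exact ⟨_, h hψ hφ ha hb hab, by rw [emb_add, emb_smul, emb_smul]⟩

lemma tendsto_emb_iff {I : Type v} {𝓕 : Filter I} {x : I → ι → Al M → Al M}
    {ψ : ι → Al M → Al M} :
    Tendsto (fun k => emb (x k)) 𝓕 (𝓝 (emb ψ)) ↔ ∀ i a, WL 𝓕 (fun k => x k i a) (ψ i a) := by
  rw [tendsto_pi_nhds]
  exact ⟨fun h i a η ξ => h (i, a, η, ξ), fun h j => h j.1 j.2.1 j.2.2.1 j.2.2.2⟩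

/-- Ultralimits in a bounded weakly closed family. -/
lemma WCl.ulim {𝒦 : Set (ι → Al M → Al M)} (h : WCl 𝒦) {I : Type v} (𝒰 : Ultrafilter I)
    (x : I → ι → Al M → Al M) (hx : ∀ᶠ k in (𝒰 : Filter I), x k ∈ 𝒦) (B : ι → Al M → ℝ)
    (hB : ∀ i a, ∀ᶠ k in (𝒰 : Filter I), ‖x k i a‖ ≤ B i a) :
    ∃ ψ ∈ 𝒦, ∀ i a, ‖ψ i a‖ ≤ B i a ∧ WL 𝒰 (fun k => x k i a) (ψ i a) := by
  choose ψ hψ using fun i a => wotLim 𝒰 (fun k => x k i a) (B i a) (hB i a)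
  exact ⟨ψ, h (map x 𝒰) inferInstance hx ψ fun i a η ξ => (hψ i a).2 η ξ, hψ⟩

theorem emb_compact {𝒦 : Set (ι → Al M → Al M)} (h : WCl 𝒦) (B : ι → Al M → ℝ)
    (hB : ∀ ψ ∈ 𝒦, ∀ i a, ‖ψ i a‖ ≤ B i a) : IsCompact (emb '' 𝒦) := by
  rw [isCompact_iff_ultrafilter_le_nhds]
  intro 𝒰 h𝒰
  rw [le_principal_iff] at h𝒰
  have hr : Set.range (emb : (ι → Al M → Al M) → _) ∈ 𝒰 :=
    mem_of_superset h𝒰 (Set.image_subset_range _ _)
  let 𝒱 := 𝒰.comap emb_injective hr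
  have h𝒱 : 𝒦 ∈ (𝒱 : Filter _) := by
    rw [Ultrafilter.coe_comap]
    exact mem_of_superset (preimage_mem_comap h𝒰) (Set.preimage_image_eq _ emb_injective).le
  obtain ⟨ψ, hψ, hl⟩ := h.ulim 𝒱 id h𝒱 B fun i a => mem_of_superset h𝒱 fun φ hφ => hB φ hφ i a
  refine ⟨emb ψ, ⟨ψ, hψ, rfl⟩, ?_⟩
  have := tendsto_emb_iff.2 fun i a => (hl i a).2
  have h2 : map emb (comap emb (𝒰 : Filter _)) ≤ 𝓝 (emb ψ) := this
  rwa [map_comap_of_mem hr] at h2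

end emb

end Crest.Agent.HH
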